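import Mathlib

/-!
# P220, the smooth step `S` and the ramp `P t = t S t`
-/

open Set Filter Topology
open scoped ContDiff

namespace Vale.Agent.P220Z.Hs

/-- the smooth step -/
noncomputable abbrev S (t : ℝ) : ℝ := Real.smoothTransition t

/-- its derivative -/
noncomputable def S' (t : ℝ) : ℝ := deriv Real.smoothTransition t

/-- the ramp -/
noncomputable def P (t : ℝ) : ℝ := t * S t

/-- its derivative -/
noncomputable def P' (t : ℝ) : ℝ := S t + t * S' t

theorem S_smooth : ContDiff ℝ ∞ Real.smoothTransition := Real.smoothTransition.contDiff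

theorem S_nonneg (t : ℝ) : 0 ≤ S t := Real.smoothTransition.nonneg t

theorem S_le_one (t : ℝ) : S t ≤ 1 := Real.smoothTransition.le_one t

theorem S_zero {t : ℝ} (h : t ≤ 0) : S t = 0 := Real.smoothTransition.zero_of_nonpos h

theorem S_one {t : ℝ} (h : 1 ≤ t) : S t = 1 := Real.smoothTransition.one_of_one_le h

theorem S_pos {t : ℝ} (h : 0 < t) : 0 < S t := Real.smoothTransition.pos_of_pos h

theorem S_lt_one {t : ℝ} (h : t < 1) : S t < 1 := Real.smoothTransition.lt_one_of_lt_one h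

theorem S_mono {s t : ℝ} (h : s ≤ t) : S s ≤ S t := Real.smoothTransition.monotone h

theorem pos_of_S {t : ℝ} (h : S t ≠ 0) : 0 < t := by
  by_contra h'
  exact h (S_zero (not_lt.1 h'))

theorem lt_of_S {t : ℝ} (h : S t ≠ 1) : t < 1 := by
  by_contra h'
  exact h (S_one (not_lt.1 h'))

theorem S_hasDerivAt (t : ℝ) : HasDerivAt Real.smoothTransition (S' t) t :=
  ((S_smooth.differentiable (by simp)) t).hasDerivAt

theorem S'_smooth : ContDiff ℝ ∞ S' := by
  have h := (contDiff_infty_iff_deriv.1 S_smooth).2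
  exact h

theorem S'_nonneg (t : ℝ) : 0 ≤ S' t := Real.smoothTransition.monotone.deriv_nonneg

theorem S'_of_zero {t : ℝ} (h : S t = 0) : S' t = 0 := by
  apply IsLocalMin.deriv_eq_zero
  refine Filter.Eventually.of_forall fun y => ?_
  rw [show Real.smoothTransition t = 0 from h]
  exact S_nonneg y

theorem S'_of_one {t : ℝ} (h : S t = 1) : S' t = 0 := by
  apply IsLocalMax.deriv_eq_zero
  refine Filter.Eventually.of_forall fun y => ?_
  rw [show Real.smoothTransition t = 1 from h]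
  exact S_le_one y

theorem S'_zero {t : ℝ} (h : t ≤ 0) : S' t = 0 := S'_of_zero (S_zero h)

theorem S'_one {t : ℝ} (h : 1 ≤ t) : S' t = 0 := S'_of_one (S_one h)

theorem glue_hasDerivAt (t : ℝ) :
    HasDerivAt expNegInvGlue (t⁻¹ ^ 2 * expNegInvGlue t) t := by
  have h := expNegInvGlue.hasDerivAt_polynomial_eval_inv_mul (1 : Polynomial ℝ) t
  simpa using h

theorem S'_pos {t : ℝ} (h0 : 0 < t) (h1 : t < 1) : 0 < S' t := by
  have ha := expNegInvGlue.pos_of_pos h0
  have hb := expNegInvGlue.pos_of_pos (sub_pos.2 h1)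
  have h2 : HasDerivAt (fun x => expNegInvGlue (1 - x))
      ((1 - t)⁻¹ ^ 2 * expNegInvGlue (1 - t) * (-1)) t :=
    (glue_hasDerivAt (1 - t)).comp t (by simpa using (hasDerivAt_id t).const_sub 1)
  have h3 := (glue_hasDerivAt t).div ((glue_hasDerivAt t).add h2)
    (Real.smoothTransition.pos_denom t).ne'
  have h4 : S' t = _ := h3.deriv
  rw [h4]
  have hc : 0 < t⁻¹ ^ 2 := by positivity
  have hd : 0 < (1 - t)⁻¹ ^ 2 := by
    have := sub_pos.2 h1
    positivity
  apply div_pos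
  · simp only [Pi.add_apply]
    have := mul_pos (mul_pos hc ha) hb
    have := mul_pos (mul_pos hd ha) hb
    nlinarith
  · exact pow_pos (Real.smoothTransition.pos_denom t) 2

theorem S'_pos_of {t : ℝ} (h0 : S t ≠ 0) (h1 : S t ≠ 1) : 0 < S' t :=
  S'_pos (pos_of_S h0) (lt_of_S h1)

theorem mem_of_S' {t : ℝ} (h : S' t ≠ 0) : 0 < t ∧ t < 1 := by
  constructor
  · by_contra h'
    exact h (S'_zero (not_lt.1 h'))
  · by_contra h'
    exact h (S'_one (not_lt.1 h'))

theorem _root_.HasDerivAt.S {f : ℝ → ℝ} {f' t : ℝ} (h : HasDerivAt f f' t) :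
    HasDerivAt (fun s => S (f s)) (S' (f t) * f') t :=
  (S_hasDerivAt (f t)).comp t h

theorem P_smooth : ContDiff ℝ ∞ P := contDiff_id.mul S_smooth

theorem P'_smooth : ContDiff ℝ ∞ P' := S_smooth.add (contDiff_id.mul S'_smooth)

theorem P_hasDerivAt (t : ℝ) : HasDerivAt P (P' t) t := by
  have h := (hasDerivAt_id t).mul (S_hasDerivAt t)
  rw [one_mul] at h
  exact h

theorem _root_.HasDerivAt.P {f : ℝ → ℝ} {f' t : ℝ} (h : HasDerivAt f f' t) :
    HasDerivAt (fun s => P (f s)) (P' (f t) * f') t :=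
  (P_hasDerivAt (f t)).comp t h

theorem P_zero {t : ℝ} (h : t ≤ 0) : P t = 0 := by rw [P, S_zero h, mul_zero]

theorem P_one {t : ℝ} (h : 1 ≤ t) : P t = t := by rw [P, S_one h, mul_one]

theorem P_pos {t : ℝ} (h : 0 < t) : 0 < P t := mul_pos h (S_pos h)

theorem P_nonneg (t : ℝ) : 0 ≤ P t := by
  rcases le_or_gt t 0 with h | h
  · exact (P_zero h).ge
  · exact (P_pos h).le

theorem pos_of_P {t : ℝ} (h : P t ≠ 0) : 0 < t := by
  by_contra h'
  exact h (P_zero (not_lt.1 h'))

theorem lt_of_P {t : ℝ} (h : P t < 1) : t < 1 := by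
  by_contra h'
  rw [P_one (not_lt.1 h')] at h
  exact h' h

theorem P_mono {s t : ℝ} (h : s ≤ t) : P s ≤ P t := by
  rcases le_or_gt s 0 with h0 | h0
  · exact (P_zero h0).le.trans (P_nonneg t)
  · exact mul_le_mul h (S_mono h) (S_nonneg s) (h0.le.trans h)

theorem P'_zero {t : ℝ} (h : t ≤ 0) : P' t = 0 := by rw [P', S_zero h, S'_zero h]; ring

theorem P'_pos {t : ℝ} (h : 0 < t) : 0 < P' t :=
  add_pos_of_pos_of_nonneg (S_pos h) (mul_nonneg h.le (S'_nonneg t))

theorem P'_nonneg (t : ℝ) : 0 ≤ P' t := by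
  rcases le_or_gt t 0 with h | h
  · exact (P'_zero h).ge
  · exact (P'_pos h).le

theorem pos_of_P' {t : ℝ} (h : P' t ≠ 0) : 0 < t := by
  by_contra h'
  exact h (P'_zero (not_lt.1 h'))

end Vale.Agent.P220Z.Hs
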