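import Vale.Agent.P220Z.Hs.Defs
import Vale.Agent.P220Z.Tb.Defs
import Vale.Agent.P220Z.Top.Sk3
import Vale.Agent.P220Z.Top.Cover

/-!
# P220, the suspended horseshoe: statements of the blocks and the assembly
-/

open Set
open scoped ContDiff

namespace Vale.Agent.P220Z.Hs

open Vale.Agent.P220Z.Def

/-! ### the domain and the path -/

/-- SM: the family is smooth. -/
def StSm : Prop := ContDiff ℝ ∞ fun y : Par × U0 => FF y.1 y.2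

/-- Q: small values of the torus function are regular. -/
def StQ : Prop :=
  ∀ A ∈ Icc (0 : ℝ) 1, ∀ B ∈ Icc (0 : ℝ) 1, (A = 0 ∨ B = 1) → ∀ k : ℂ, (‖k‖ = 1 ∨ B = 0) →
    ∀ v : ZMod 5 → ℂ, qq A B v k ≤ 1 / 4 →
      ∑ i, ‖v i‖ ^ 2 ≤ 42 ∧ (0 < qq A B v k → fderiv ℝ (fun v' => qq A B v' k) v ≠ 0)

/-- REG: the level zero is regular. -/
def StReg : Prop := ∀ a, Ok a → ∀ u, FF a u = 0 → fderiv ℝ (FF a) u ≠ 0

/-- PATH: the domain is joined to the ball. -/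
def StPath : Prop := Top.Joined phi0 fun x => ‖x‖ ^ 2 - 1

/-! ### the maps -/

/-- FB: one planar factor. -/
def StFb : Prop :=
  ∀ c t t' : ℝ, 0 ≤ c → t ≤ t' → ∀ p : ℝ × ℝ, |p.1| ≤ 9 → |p.2| ≤ 9 →
    |(fb c t t' p).1| ≤ max 8 |p.1| ∧ |(fb c t t' p).2| ≤ max 8 |p.2| ∧
    mu0 0 c t' (fb c t t' p).1 (fb c t t' p).2 ≤ mu0 0 c t p.1 p.2 ∧
    (0 < mu0 0 c t' (fb c t t' p).1 (fb c t t' p).2 → t ≤ 7 → 3 ≤ t' →
      |p.2 + (tent p.1 - c)| < 2) ∧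
    (0 < mu0 0 c t' (fb c t t' p).1 (fb c t t' p).2 → t ≤ 11 → 13 ≤ t' → mu0 0 c t p.1 p.2 = 1) ∧
    (100 ≤ c → t ≤ 7 → 19 ≤ t' → bp (fb c t t' p).1 = 0)

/-- CONT: the two parts of the contraction are continuous. -/
def StCont : Prop :=
  ∀ (K : ℕ) (L : ℕ → EB5 → ZMod 5 → ℝ), IsWt K L →
    (Continuous fun y : ℝ × U0 => m0 K y.1 y.2) ∧
      Continuous fun y : ℝ × EB5 × U0 => h0 K L y.1 y.2.1 y.2.2

/-- MEM: the two parts of the contraction preserve the domain. -/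
def StMem : Prop :=
  ∀ (K : ℕ) (L : ℕ → EB5 → ZMod 5 → ℝ), IsWt K L → ∀ t u, F0 u ≤ 0 →
    F0 (m0 K t u) ≤ 0 ∧ ∀ b ∈ B5, F0 (h0 K L t b u) ≤ 0

/-- WT: weights exist. -/
def StWt : Prop := ∃ K L, 5 ≤ K ∧ IsWt K L

/-- the first part in the Euclidean space, with time in `[0, 1]` -/
noncomputable def mU (K : ℕ) (y : ℝ × UU) : UU :=
  co.symm (m0 K ((20 * K + 3) * y.1 - 1) (co y.2))

/-- the second part in the Euclidean space, with time in `[0, 1]` -/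
noncomputable def hU (K : ℕ) (L : ℕ → EB5 → ZMod 5 → ℝ) (y : ℝ × EB5 × UU) : UU :=
  co.symm (h0 K L (3 * y.1) y.2.1 (co y.2.2))

/-- the first coordinate -/
noncomputable def wcU : UU →L[ℝ] ℂ := (ContinuousLinearMap.fst ℝ ℂ Z0).comp co.toContinuousLinearMap

/-- HS: the interface of the maps. -/
def StHs : Prop :=
  ∀ (K : ℕ) (L : ℕ → EB5 → ZMod 5 → ℝ), IsWt K L → Tb.IsHs rhoU phi0 (mU K) (hU K L) wcU

/-! ### the strata -/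

/-- the stratum as a linear map -/
noncomputable def ioU (l : ZMod 5) : U1 →L[ℝ] UU :=
  co.symm.toContinuousLinearMap.comp (LinearMap.toContinuousLinearMap
    { toFun := emb l
      map_add' := fun u u' => by
        refine Prod.ext rfl (Prod.ext rfl (funext fun i => ?_))
        simp [emb, mul_add]
      map_smul' := fun c u => by
        refine Prod.ext rfl (Prod.ext rfl (funext fun i => ?_))
        simp [emb, mul_left_comm] })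

/-- the projection to a stratum -/
noncomputable def prU : UU →L[ℝ] U1 :=
  (LinearMap.toContinuousLinearMap
    { toFun := fun u : U0 => ((u.1, u.2.1, u.2.2 0) : U1)
      map_add' := fun _ _ => rfl
      map_smul' := fun _ _ => rfl }).comp co.toContinuousLinearMap

theorem ioU_apply (l : ZMod 5) (u : U1) : ioU l u = co.symm (emb l u) := rfl

theorem prU_apply (u : UU) : prU u = ((co u).1, (co u).2.1, (co u).2.2 0) := rfl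

/-- a field on the stratum that pushes the domain into its interior -/
structure IsPush (Y : U1 → U1) : Prop where
  cont : Continuous Y
  eq : ∀ u, Y (Tb.rot1 1 u) = Tb.rot1 1 (Y u)
  lip : ∃ L : ℝ, ∀ u, F1 u ≤ 0 → ‖(Y u).2.2‖ ≤ L * ‖u.2.2‖
  push : ∃ t₀ > 0, ∀ t ∈ Ioo (0 : ℝ) t₀, ∃ e > 0, ∀ u, F1 u ≤ 0 → F1 (u - t • Y u) ≤ -e

/-- the domain of the loop -/
def dom1 : Set (ℝ × U1) := {y | y.1 ∈ Ioo (0 : ℝ) 1 ∧ F1 y.2 < 0 ∧ y.2.2.2 ≠ 0}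

/-- the loop -/
noncomputable def sm1 (K : ℕ) (Y : U1 → U1) (j : ZMod 5) (t δ : ℝ) (y : ℝ × U1) : U1 :=
  y.2 - Tb.rot1 (-j) (m1 K ((20 * K + 3) * y.1 - 1) y.2 -
    t • Y (m1 K ((20 * K + 3) * y.1 - 1) y.2)) + (δ / ‖y.2.2.2‖) • Tb.prp y.2

/-- ST: the strata. -/
def StSt : Prop :=
  Tb.IsSt rhoU ioU (fun _ => prU) ∧ ∀ l : ZMod 5, (∀ u, phi0 (ioU l u) = F1 u) ∧
    IsPush (fun u => prU (gradient phi0 (ioU l u))) ∧
    ∀ (K : ℕ) (j : ZMod 5) (t d : ℝ), Tb.smap phi0 (mU K) (ioU l) prU j t d =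
      sm1 K (fun u => prU (gradient phi0 (ioU l u))) j t (d / √5)

/-- M1: the first part on a stratum. -/
def StM1 : Prop :=
  ∀ K : ℕ, (Continuous fun y : ℝ × U1 => m1 K y.1 y.2) ∧
    (∀ t u, F1 u ≤ 0 → F1 (m1 K t u) ≤ 0) ∧ Continuous F1 ∧ IsCompact {u | F1 u ≤ 0}

/-! ### the winding number -/

/-- PER: periodic points of the planar map are alive or dead. -/
def StPer : Prop :=
  ∀ θ ∈ Ioc (0 : ℝ) 20, ∀ i N : ℕ, 1 ≤ i → i < N → ∀ p : ℝ × ℝ, |p.1| ≤ 9 → |p.2| ≤ 9 →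
    evb θ (20 * i) N p = p →
      (mu0 0 0 θ p.1 p.2 = 1 ∧ |p.1| ≤ 8 ∧ |p.2| ≤ 8) ∨
        (mu0 0 0 θ p.1 p.2 = 0 ∧ evm θ (20 * i) N p = 1)

/-- the part of the domain on the handle -/
def domA : Set (ℝ × U1) :=
  {y | y ∈ dom1 ∧ 1 / 2 < ‖y.2.1‖ ∧ 1 / 2 < mu0 0 0 (th y.2.1) y.2.2.1.1 y.2.2.1.2}

/-- the fifth root of `k` next to `c` -/
noncomputable def rt (c k : ℂ) : ℂ :=
  (‖c‖⁻¹ : ℝ) * c * ec (-(Complex.arg (c ^ 5 * (starRingEnd ℂ) k) / (10 * Real.pi)))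

/-- the model of the loop -/
noncomputable def smB (K : ℕ) (j : ZMod 5) (y : ℝ × U1) : U1 :=
  y.2 - Tb.rot1 (-j) (m1 K ((20 * K + 3) * y.1 - 1)
    ((‖y.2.1‖⁻¹ : ℝ) * y.2.1, y.2.2.1, rt y.2.2.2 (kk (th y.2.1) y.2.2.1.1)))

/-- WA: all zeros are on the handle. -/
def StWa : Prop :=
  ∀ (K : ℕ) (Y : U1 → U1) (j : ZMod 5), j ≠ 0 → IsPush Y →
    ∃ t₁ > 0, ∀ t ∈ Ioo (0 : ℝ) t₁, ∃ d₁ > 0, ∀ δ ∈ Ioo (0 : ℝ) d₁,
      ∀ y ∈ dom1, sm1 K Y j t δ y = 0 → y ∈ domA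

/-- WB: deformation to the model. -/
def StWb : Prop :=
  ∀ w : WFun, IsW w → ∀ (K : ℕ) (Y : U1 → U1) (j : ZMod 5), j ≠ 0 → IsPush Y →
    IsLp (Tb.rot1 1) domA (smB K j) ∧
    ∃ t₁ > 0, ∀ t ∈ Ioo (0 : ℝ) t₁, ∃ d₁ > 0, ∀ δ ∈ Ioo (0 : ℝ) d₁,
      IsLp (Tb.rot1 1) domA (sm1 K Y j t δ) ∧
        w U1 (Tb.rot1 1) domA (sm1 K Y j t δ) = w U1 (Tb.rot1 1) domA (smB K j)

/-- WC: the winding number of the model. -/
def StWc : Prop :=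
  ∀ w : WFun, IsW w → ∀ K : ℕ, 5 ≤ K → ∃ D : ZMod 5, D ≠ 0 ∧ ∀ j : ZMod 5, j ≠ 0 →
    IsLp (Tb.rot1 1) domA (smB K j) → w U1 (Tb.rot1 1) domA (smB K j) = D * 3 ^ j.val

/-! ### the assembly -/

theorem isWn_of (hs : StSt) (ha : StWa) (hb : StWb) (hc : StWc) {w : WFun} (hw : IsW w) {K : ℕ}
    (hK : 5 ≤ K) : ∃ D : ZMod 5, D ≠ 0 ∧
      Tb.IsWn w phi0 (mU K) ioU (fun _ => prU) fun _ j => D * 3 ^ j.val := by
  obtain ⟨D, hD, hc⟩ := hc w hw K hK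
  refine ⟨D, hD, fun l j _ hj => ?_⟩
  obtain ⟨h1, h2, h3⟩ := hs.2 l
  obtain ⟨ta, hta, ha⟩ := ha K _ j hj h2
  obtain ⟨hB, tb, htb, hb⟩ := hb w hw K _ j hj h2
  refine ⟨min ta tb, lt_min hta htb, fun t ht => ?_⟩
  obtain ⟨da, hda, ha⟩ := ha t ⟨ht.1, ht.2.trans_le (min_le_left _ _)⟩
  obtain ⟨db, hdb, hb⟩ := hb t ⟨ht.1, ht.2.trans_le (min_le_right _ _)⟩
  refine ⟨min da db, lt_min hda hdb, fun d hd hL => ?_⟩
  have h5 : (1 : ℝ) ≤ √5 := Real.one_le_sqrt.2 (by norm_num)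
  have hδ : d / √5 ∈ Ioo (0 : ℝ) (min da db) :=
    ⟨div_pos hd.1 (by linarith), (div_le_self hd.1.le h5).trans_lt hd.2⟩
  have hdom : Tb.sdom phi0 (ioU l) = dom1 := by
    ext y
    simp only [Tb.sdom, dom1, mem_ofPred_eq, h1]
  obtain ⟨hA, he⟩ := hb _ ⟨hδ.1, hδ.2.trans_le (min_le_right _ _)⟩
  rw [hdom, h3] at hL ⊢
  exact (hw.exc U1 _ _ _ _ _ hL hA (fun y hy => hy.1)
    (ha _ ⟨hδ.1, hδ.2.trans_le (min_le_left _ _)⟩) fun _ _ => rfl).symm.trans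
      (he.trans (hc j hj hB))

theorem sum_ne : ∀ D : ZMod 5, D ≠ 0 →
    (∑ l : ZMod 5, ∑ j : ZMod 5, if l ≠ 0 then j ^ 2 * (D * 3 ^ j.val) else 0) ≠ 0 := by
  decide

theorem stThB_of (h0 : Tb.StB0) (hp : StPath)
    (hw : StWt) (hh : StHs) (hs : StSt) (ha : StWa) (hb : StWb) (hc : StWc) : Top.StThB := by
  intro n w c hc0 hn hW hl
  obtain ⟨K, L, hK, hL⟩ := hw
  obtain ⟨D, hD, hWn⟩ := isWn_of hs ha hb hc hW hK
  obtain ⟨r, hr, -⟩ := Top.exists_retr rhoU (hh K L hL).inv hp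
  refine ⟨UU, inferInstance, inferInstance, inferInstance, rhoU, phi0,
    WithLp.toLp 2 (EuclideanSpace.single 0 1, 0), ?_, ?_, fun g => ?_, (hh K L hL).inv, hp,
    h0 n w c hc0 hn hW hl UU rhoU phi0 _ _ _ _ _ _ r (hh K L hL) hs.1 hWn hr ?_⟩
  · rw [co.toLinearEquiv.finrank_eq]
    simp
  · simp
  · refine WithLp.ofLp_injective 2 (Prod.ext rfl ?_)
    exact map_zero (aE g)
  · exact sum_ne D hD

end Vale.Agent.P220Z.Hs
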