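import Vale.Agent.P220Z.Hs.EvM
import Vale.Agent.P220Z.Hs.Sk

/-!
# P220, horseshoe model: the blocks CONT and MEM
-/

namespace Vale.Agent.P220Z.Hs

theorem stCont : StCont := fun K _ hL => ⟨Ev.m0_cont K, Ev.h0_cont K hL.cont⟩

theorem stMem : StMem := fun K _ hL t u hu =>
  ⟨Ev.m0_mem K t u hu, fun _ hb => Ev.h0_mem hL t hb hu⟩

end Vale.Agent.P220Z.Hs
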