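import Vale.Agent.P220Z.Hs.EvDefs

/-!
# P220, horseshoe model: the maps are continuous
-/

open Set Filter Topology

namespace Vale.Agent.P220Z.Hs.Ev

open Vale.Agent.P220Z.Def

theorem st_zero {a b t : ℝ} (hab : a < b) (h : t ≤ a) : st a b t = 0 :=
  Real.smoothTransition.zero_of_nonpos
    (div_nonpos_of_nonpos_of_nonneg (by linarith) (by linarith))

theorem st_one {a b t : ℝ} (hab : a < b) (h : b ≤ t) : st a b t = 1 :=
  Real.smoothTransition.one_of_one_le ((one_le_div (by linarith)).2 (by linarith))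

theorem st_nonneg (a b t : ℝ) : 0 ≤ st a b t := Real.smoothTransition.nonneg _

theorem st_le_one (a b t : ℝ) : st a b t ≤ 1 := Real.smoothTransition.le_one _

theorem st_mono {a b t t' : ℝ} (hab : a < b) (h : t ≤ t') : st a b t ≤ st a b t' :=
  Real.smoothTransition.monotone (div_le_div_of_nonneg_right (by linarith) (by linarith))

theorem cl_zero {x : ℝ} (h : x ≤ 0) : cl x = 0 := max_eq_left ((min_le_right _ _).trans h)

theorem cl_one {x : ℝ} (h : 1 ≤ x) : cl x = 1 := by
  rw [cl, min_eq_left h, max_eq_right zero_le_one]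

theorem cl_nonneg (x : ℝ) : 0 ≤ cl x := le_max_left _ _

theorem cl_le_one (x : ℝ) : cl x ≤ 1 := max_le zero_le_one (min_le_left _ _)

theorem cl_of_mem {x : ℝ} (h : x ∈ Icc (0 : ℝ) 1) : cl x = x := by
  rw [cl, min_eq_right h.2, max_eq_right h.1]

theorem clp_self (y : ℝ) : clp y y = y := by
  have h1 : y ≤ max 8 |y| := (le_abs_self y).trans (le_max_right _ _)
  have h2 : -max 8 |y| ≤ y := by
    have := neg_abs_le y
    have := le_max_right 8 |y|
    linarith
  rw [clp, min_eq_right h1, max_eq_right h2]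

theorem abs_clp (y z : ℝ) : |clp y z| ≤ max 8 |y| := by
  have h : (0 : ℝ) ≤ max 8 |y| := le_max_of_le_left (by norm_num)
  exact abs_le.2 ⟨le_max_left _ _, max_le (by linarith) (min_le_left _ _)⟩

theorem clp_eq {y z : ℝ} (h : |clp y z| < 8) : clp y z = z := by
  have h8 : (8 : ℝ) ≤ max 8 |y| := le_max_left _ _
  rw [abs_lt] at h
  unfold clp at h ⊢
  rcases le_total (max 8 |y|) z with h1 | h1
  · rw [min_eq_left h1, max_eq_right (by linarith)] at h
    linarith [h.2]
  · rw [min_eq_right h1] at h ⊢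
    rcases le_total (-max 8 |y|) z with h2 | h2
    · exact max_eq_right h2
    · rw [max_eq_left h2] at h
      linarith [h.1]

theorem ec_zero : ec 0 = 1 := by simp [ec]

theorem ec_add (s t : ℝ) : ec (s + t) = ec s * ec t := by
  rw [ec, ec, ec, ← Complex.exp_add]
  congr 1
  push_cast
  ring

theorem ec_int (n : ℤ) : ec n = 1 := by
  rw [ec, ← Complex.exp_int_mul_two_pi_mul_I n]
  congr 1
  push_cast
  ring

theorem ec_nat (n : ℕ) : ec n = 1 := by simpa using ec_int n

theorem ec_one : ec 1 = 1 := by simpa using ec_int 1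

theorem norm_ec (t : ℝ) : ‖ec t‖ = 1 := Complex.norm_exp_ofReal_mul_I _

theorem th_pos (w : ℂ) : 0 < th w := by
  have h : -1 < Complex.arg w / Real.pi := by
    rw [lt_div_iff₀ Real.pi_pos]
    linarith [Complex.neg_pi_lt_arg w]
  rw [th, mul_div_assoc]
  linarith

theorem th_le (w : ℂ) : th w ≤ 20 := by
  have h : Complex.arg w / Real.pi ≤ 1 := (div_le_one Real.pi_pos).2 (Complex.arg_le_pi w)
  rw [th, mul_div_assoc]
  linarith

/-! ### continuity -/

@[fun_prop] theorem st_cont (a b : ℝ) : Continuous (st a b) :=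
  Real.smoothTransition.continuous.comp (by fun_prop)

@[fun_prop] theorem tent_cont : Continuous tent := by
  unfold tent
  fun_prop

@[fun_prop] theorem ch1_cont : Continuous ch1 := by
  unfold ch1
  fun_prop

@[fun_prop] theorem ec_cont : Continuous ec := by
  unfold ec
  fun_prop

@[fun_prop] theorem aA_cont (σ : ℝ) : Continuous (aA σ) := by
  unfold aA
  fun_prop

@[fun_prop] theorem aB_cont : Continuous aB := by
  unfold aB
  fun_prop

@[fun_prop] theorem eta_cont : Continuous eta := st_cont 5 7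

@[fun_prop] theorem cl_cont : Continuous cl := by
  unfold cl
  fun_prop

@[fun_prop] theorem k1_cont : Continuous k1 := by
  unfold k1
  fun_prop

@[fun_prop] theorem k2_cont : Continuous k2 := by
  unfold k2
  fun_prop

@[fun_prop] theorem tm_cont (K : ℕ) : Continuous (tm K) := by
  unfold tm
  fun_prop

variable {X : Type} [TopologicalSpace X]

@[fun_prop] theorem clp_cont {f g : X → ℝ} (hf : Continuous f) (hg : Continuous g) :
    Continuous fun x => clp (f x) (g x) := by
  unfold clp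
  fun_prop

@[fun_prop] theorem fb_cont {c t t' : X → ℝ} {p : X → ℝ × ℝ} (hc : Continuous c)
    (ht : Continuous t) (ht' : Continuous t') (hp : Continuous p) :
    Continuous fun x => fb (c x) (t x) (t' x) (p x) := by
  unfold fb
  fun_prop

theorem mm_cont {l : X → ZMod 5 → ℝ} {t t' y : X → ℝ} (hl : ∀ i, Continuous fun x => l x i)
    (ht : Continuous t) (ht' : Continuous t') (hy : Continuous y) (i : ZMod 5) :
    Continuous fun x => mm (l x) (t x) (t' x) (y x) i := by
  have hs : Continuous fun x => ∑ j, l x j := continuous_finsetSum _ fun j _ => hl j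
  have hi := hl i
  unfold mm
  fun_prop

theorem fac_cont {o : X → ZMod 5 → ℝ} {t t' : X → ℝ} {z : X → Z0}
    (ho : ∀ i, Continuous fun x => o x i) (ht : Continuous t) (ht' : Continuous t')
    (hz : Continuous z) : Continuous fun x => fac (o x) (t x) (t' x) (z x) := by
  have hs : Continuous fun x => ∑ j, o x j := continuous_finsetSum _ fun j _ => ho j
  refine Continuous.prodMk (by fun_prop) (continuous_pi fun i => ?_)
  exact (mm_cont (l := fun x j => min (o x j) 1) (fun j => (ho j).min continuous_const) ht ht'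
    (by fun_prop) i).mul (by fun_prop)

theorem ev_cont {o : X → ℕ → ZMod 5 → ℝ} {θ s : X → ℝ} {z : X → Z0}
    (ho : ∀ j i, Continuous fun x => o x j i) (hθ : Continuous θ) (hs : Continuous s)
    (hz : Continuous z) (n : ℕ) : Continuous fun x => ev (o x) (θ x) (s x) n (z x) := by
  induction n with
  | zero => exact hz
  | succ n ih => exact fac_cont (ho n) (by fun_prop) (by fun_prop) ih

/-- a function of the time that has the same values at the two ends is continuous across the
slit -/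
theorem cont_slit {Y : Type} [TopologicalSpace Y] {G : ℝ × X → Y} (hG : Continuous G)
    (h : ∀ e, G (0, e) = G (20, e)) {w : X → ℂ} (hw : Continuous w) {e : X} (he : w e ≠ 0) :
    ContinuousAt (fun e => G (th (w e), e)) e := by
  have hT : Continuous fun a : ℝ => 10 + 10 * a / Real.pi := by fun_prop
  by_cases hs : w e ∈ Complex.slitPlane
  · have h1 : ContinuousAt (fun e => th (w e)) e :=
      hT.continuousAt.comp ((Complex.continuousAt_arg hs).comp hw.continuousAt)
    exact hG.continuousAt.comp (h1.prodMk continuousAt_id)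
  have hw' : (w e).re < 0 ∧ (w e).im = 0 := by
    rw [Complex.mem_slitPlane_iff, not_or, not_lt, not_not] at hs
    exact ⟨lt_of_le_of_ne hs.1 fun h1 => he (Complex.ext h1 hs.2), hs.2⟩
  have hpi : th (w e) = 20 := by
    rw [th, Complex.arg_eq_pi_iff.2 hw', mul_div_assoc, div_self Real.pi_pos.ne']
    norm_num
  have hu : 𝓝 e = 𝓝[{e' | 0 ≤ (w e').im}] e ⊔ 𝓝[{e' | (w e').im < 0}] e := by
    rw [← nhdsWithin_union, ← nhdsWithin_univ]
    congr 1
    exact (eq_univ_of_forall fun e' => le_or_gt 0 (w e').im).symm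
  rw [ContinuousAt, hu]
  refine Tendsto.sup ?_ ?_
  · have h1 : ContinuousWithinAt (fun e' => Complex.arg (w e')) {e' | 0 ≤ (w e').im} e :=
      (Complex.continuousWithinAt_arg_of_re_neg_of_im_zero hw'.1 hw'.2).comp
        hw.continuousWithinAt fun _ h => h
    have h2 : ContinuousWithinAt (fun e' => th (w e')) {e' | 0 ≤ (w e').im} e :=
      hT.continuousAt.comp_continuousWithinAt h1
    exact hG.continuousAt.comp_continuousWithinAt (h2.prodMk continuousWithinAt_id)
  · have h1 : Tendsto (fun e' => Complex.arg (w e')) (𝓝[{e' | (w e').im < 0}] e) (𝓝 (-Real.pi)) :=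
      (Complex.tendsto_arg_nhdsWithin_im_neg_of_re_neg_of_im_zero hw'.1 hw'.2).comp
        (hw.continuousWithinAt.tendsto_nhdsWithin fun _ h => h)
    have h2 : Tendsto (fun e' => th (w e')) (𝓝[{e' | (w e').im < 0}] e) (𝓝 0) := by
      have h3 := (hT.tendsto _).comp h1
      rwa [show 10 + 10 * -Real.pi / Real.pi = 0 by field_simp; norm_num] at h3
    rw [hpi, ← h]
    exact (hG.tendsto (0, e)).comp (h2.prodMk_nhds (tendsto_id.mono_left nhdsWithin_le_nhds))

theorem cont_k2 {G : ℝ × X → Z0} (hG : Continuous G) (h : ∀ e, G (0, e) = G (20, e)) {w : X → ℂ}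
    (hw : Continuous w) : Continuous fun e => k2 (w e) • G (th (w e), e) := by
  refine continuous_iff_continuousAt.2 fun e => ?_
  by_cases he : w e = 0
  · have h1 : ∀ᶠ e' in 𝓝 e, ‖w e'‖ < 1 / 8 :=
      hw.norm.continuousAt.eventually_lt continuousAt_const (by simp [he])
    refine (continuousAt_const (y := (0 : Z0))).congr ?_
    filter_upwards [h1] with e' he'
    rw [k2, cl_zero (by linarith), zero_smul]
  · exact (k2_cont.comp hw).continuousAt.smul (cont_slit hG h hw he)

/-! ### trivial factors and the shift of the index -/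

theorem fac_id (o : ZMod 5 → ℝ) {t t' : ℝ} (h1 : aA 0 t = aA 0 t') (h2 : aB t = aB t')
    (h3 : eta t = eta t') (z : Z0) : fac o t t' z = z := by
  simp [fac, fb, mm, h1, h2, h3, clp_self, ec_zero]

theorem aA_lo {t : ℝ} (h : t ≤ 7) : aA 0 t = 1 := by
  simp [aA, st_zero (by norm_num : (7 : ℝ) < 9) h]

theorem aA_hi {t : ℝ} (h : 9 ≤ t) : aA 0 t = 0 := by
  simp [aA, st_one (by norm_num : (7 : ℝ) < 9) h]

theorem aB_lo {t : ℝ} (h : t ≤ 17) : aB t = 1 := by
  simp [aB, st_zero (by norm_num : (17 : ℝ) < 19) h]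

theorem aB_hi {t : ℝ} (h : 19 ≤ t) : aB t = 0 := by
  simp [aB, st_one (by norm_num : (17 : ℝ) < 19) h]

theorem eta_lo {t : ℝ} (h : t ≤ 5) : eta t = 0 := st_zero (by norm_num) h

theorem eta_hi {t : ℝ} (h : 7 ≤ t) : eta t = 1 := st_one (by norm_num) h

theorem fac_lo (o : ZMod 5 → ℝ) {t t' : ℝ} (h : t ≤ 5) (h' : t' ≤ 5) (z : Z0) :
    fac o t t' z = z :=
  fac_id o (by rw [aA_lo (by linarith), aA_lo (by linarith)])
    (by rw [aB_lo (by linarith), aB_lo (by linarith)]) (by rw [eta_lo h, eta_lo h']) z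

theorem fac_hi (o : ZMod 5 → ℝ) {t t' : ℝ} (h : 19 ≤ t) (h' : 19 ≤ t') (z : Z0) :
    fac o t t' z = z :=
  fac_id o (by rw [aA_hi (by linarith), aA_hi (by linarith)]) (by rw [aB_hi h, aB_hi h'])
    (by rw [eta_hi (by linarith), eta_hi (by linarith)]) z

theorem ev_shift {o o' : ℕ → ZMod 5 → ℝ} (h : ∀ j, o (j + 1) = o' j) {s : ℝ} (hs : 0 ≤ s) (n : ℕ)
    (z : Z0) : ev o 20 s (n + 1) z = ev o' 0 s n z := by
  induction n with
  | zero => exact fac_hi _ (by norm_num) (by norm_num; linarith) z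
  | succ n ih =>
    rw [ev, ih, h, ev]
    congr 1 <;> push_cast <;> ring

theorem ev_slit {o o' : ℕ → ZMod 5 → ℝ} (h : ∀ j, o (j + 1) = o' j) {s : ℝ} (hs : 0 ≤ s) {K : ℕ}
    (hK : s ≤ 20 * K + 2) (z : Z0) : ev o' 0 s (K + 2) z = ev o 20 s (K + 2) z := by
  have hK0 : (0 : ℝ) ≤ K := Nat.cast_nonneg K
  rw [ev_shift h hs, ev, fac_lo] <;> push_cast <;> linarith

theorem tm_nonneg (K : ℕ) (t : ℝ) : 0 ≤ tm K t := le_max_left _ _

theorem tm_le (K : ℕ) (t : ℝ) : tm K t ≤ 20 * K + 2 := max_le (by positivity) (min_le_left _ _)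

theorem wt_shift (L : ℕ → EB5 → ZMod 5 → ℝ) (u : ℝ) (b : EB5) (j : ℕ) :
    wt L u 20 b (j + 1) = wt L u 0 b j := by
  funext i
  rw [wt, wt, cl_zero (x := 2 - 20 / 10) (by norm_num), cl_one (x := 20 / 10) (by norm_num),
    cl_one (x := 2 - 0 / 10) (by norm_num), cl_zero (x := 0 / 10) (by norm_num)]
  simp

theorem m0_cont (K : ℕ) : Continuous fun y : ℝ × U0 => m0 K y.1 y.2 := by
  have h1 : Continuous fun a : ℝ × ℝ × U0 => ev 0 a.1 (tm K a.2.1) (K + 2) a.2.2.2 :=
    ev_cont (o := fun _ => 0) (θ := fun a : ℝ × ℝ × U0 => a.1) (s := fun a => tm K a.2.1)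
      (z := fun a => a.2.2.2) (fun _ _ => continuous_const) (by fun_prop) (by fun_prop)
      (by fun_prop) _
  have h : Continuous fun y : ℝ × U0 => k2 y.2.1 • ev 0 (th y.2.1) (tm K y.1) (K + 2) y.2.2 :=
    cont_k2 h1 (fun e => ev_slit (o := 0) (o' := 0) (fun _ => rfl) (tm_nonneg K e.1) (tm_le K e.1) e.2.2)
      (w := fun y : ℝ × U0 => y.2.1) (by fun_prop)
  have h2 : Continuous fun y : ℝ × U0 => (cl (-y.1) * (1 - k2 y.2.1)) • y.2.2 := by fun_prop
  have h3 : Continuous fun y : ℝ × U0 =>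
      (k1 y.2.1 + cl (-y.1) * (1 - k1 y.2.1)) • (ec (tm K y.1 / 20) * y.2.1) := by fun_prop
  exact h3.prodMk (h.add h2)

theorem h0_cont (K : ℕ) {L : ℕ → EB5 → ZMod 5 → ℝ} (hL : ∀ j i, Continuous fun b => L j b i) :
    Continuous fun y : ℝ × EB5 × U0 => h0 K L y.1 y.2.1 y.2.2 := by
  have h1 : Continuous fun a : ℝ × ℝ × EB5 × U0 =>
      ev (wt L (cl a.2.1) a.1 a.2.2.1) a.1 (20 * K + 2) (K + 2) a.2.2.2.2 := by
    refine ev_cont (o := fun a : ℝ × ℝ × EB5 × U0 => wt L (cl a.2.1) a.1 a.2.2.1)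
      (θ := fun a => a.1) (s := fun _ => 20 * K + 2) (z := fun a => a.2.2.2.2) (fun j i => ?_)
      (by fun_prop) (by fun_prop) (by fun_prop) _
    have h1 : Continuous fun a : ℝ × ℝ × EB5 × U0 => L j a.2.2.1 i := (hL j i).comp (by fun_prop)
    have h2 : Continuous fun a : ℝ × ℝ × EB5 × U0 => L (j - 1) a.2.2.1 i :=
      (hL (j - 1) i).comp (by fun_prop)
    unfold wt
    fun_prop
  have h : Continuous fun y : ℝ × EB5 × U0 => k2 y.2.2.1 •
      ev (wt L (cl y.1) (th y.2.2.1) y.2.1) (th y.2.2.1) (20 * K + 2) (K + 2) y.2.2.2 :=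
    cont_k2 h1 (fun e => ev_slit (wt_shift L _ _) (by positivity) le_rfl _)
      (w := fun y : ℝ × EB5 × U0 => y.2.2.1) (by fun_prop)
  have h2 : Continuous fun y : ℝ × EB5 × U0 => cl (3 - y.1) := by fun_prop
  have h3 : Continuous fun y : ℝ × EB5 × U0 =>
      (cl (2 - y.1) * k1 y.2.2.1) • (ec (1 / 10) * y.2.2.1) := by fun_prop
  refine (h3.prodMk (h2.smul h)).congr fun y => ?_
  simp only [h0, mul_smul]
  rfl

end Vale.Agent.P220Z.Hs.Ev
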