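import Vale.Agent.P220Z.Hs.Cut

/-!
# P220, functions of the argument that are constant near the slit
-/

open Set Filter Topology
open scoped ContDiff

namespace Vale.Agent.P220Z.Hs

variable {E F : Type} [NormedAddCommGroup E] [NormedSpace ℝ E] [NormedAddCommGroup F]
  [NormedSpace ℝ F]

theorem arg_contDiffAt {w : ℂ} (h : w ∈ Complex.slitPlane) : ContDiffAt ℝ ∞ Complex.arg w := by
  have h1 : ContDiffAt ℝ ∞ Complex.log w :=
    ((Complex.contDiffAt_log h (n := ∞)).restrict_scalars ℝ)
  have h2 := Complex.imCLM.contDiff.contDiffAt.comp w h1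
  refine h2.congr_of_eventuallyEq (Eventually.of_forall fun z => ?_)
  simp [Complex.log_im]

/-- near the slit the argument is close to `± π` -/
theorem near_slit {w : ℂ} (h0 : w ≠ 0) (h : w ∉ Complex.slitPlane) {c : ℝ} (hc : c < Real.pi) :
    ∀ᶠ z in 𝓝 w, c ≤ |Complex.arg z| := by
  have hw : w.re < 0 ∧ w.im = 0 := by
    rw [Complex.mem_slitPlane_iff, not_or, not_lt, not_not] at h
    refine ⟨lt_of_le_of_ne h.1 fun h1 => h0 (Complex.ext h1 h.2), h.2⟩
  have hn : -w ∈ Complex.slitPlane := by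
    left
    simpa using hw.1
  have h1 : ContinuousAt (fun z : ℂ => |Complex.arg (-z)|) w :=
    ((Complex.continuousAt_arg hn).comp (f := fun z : ℂ => -z) continuousAt_neg).abs
  have h2 : Complex.arg (-w) = 0 := by
    rw [Complex.arg_eq_zero_iff]
    simp [hw.1.le, hw.2]
  have h3 : ∀ᶠ z in 𝓝 w, |Complex.arg (-z)| < Real.pi - c :=
    h1.eventually_lt continuousAt_const (by simpa [h2] using hc)
  filter_upwards [h3, isOpen_ne.mem_nhds h0] with z hz hz0
  rw [abs_lt] at hz
  rcases lt_trichotomy z.im 0 with h4 | h4 | h4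
  · rw [Complex.arg_neg_eq_arg_add_pi_of_im_neg h4] at hz
    exact le_abs.2 (Or.inr (by linarith))
  · rcases lt_trichotomy z.re 0 with h5 | h5 | h5
    · rw [Complex.arg_eq_pi_iff.2 ⟨h5, h4⟩, abs_of_pos Real.pi_pos]
      exact hc.le
    · exact absurd (Complex.ext h5 h4) hz0
    · have : Complex.arg (-z) = Real.pi := Complex.arg_eq_pi_iff.2 ⟨by simpa using h5, by simpa using h4⟩
      by_cases h6 : c ≤ 0
      · exact h6.trans (abs_nonneg _)
      · linarith [hz.2]
  · rw [Complex.arg_neg_eq_arg_sub_pi_of_im_pos h4] at hz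
    exact le_abs.2 (Or.inl (by linarith))

/-- A smooth function of an angle and of `e` that does not depend on the angle near the slit and
near `w e = 0` is a smooth function of `e`. -/
theorem smooth_slit {G : ℝ × E → F} (hG : ContDiff ℝ ∞ G) {w : E → ℂ} (hw : ContDiff ℝ ∞ w)
    {c δ : ℝ} (hc : c < Real.pi) (hδ : 0 < δ)
    (h1 : ∀ a e, c ≤ |a| → G (a, e) = G (Real.pi, e))
    (h2 : ∀ a e, ‖w e‖ < δ → G (a, e) = G (Real.pi, e)) :
    ContDiff ℝ ∞ fun e => G (Complex.arg (w e), e) := by
  have h0 : ContDiff ℝ ∞ fun e => G (Real.pi, e) := hG.comp (contDiff_const.prodMk contDiff_id)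
  refine contDiff_iff_contDiffAt.2 fun e => ?_
  by_cases he : w e ∈ Complex.slitPlane
  · exact hG.contDiffAt.comp e
      (((arg_contDiffAt he).comp e hw.contDiffAt).prodMk contDiffAt_id)
  refine h0.contDiffAt.congr_of_eventuallyEq ?_
  by_cases hz : w e = 0
  · have : ∀ᶠ e' in 𝓝 e, ‖w e'‖ < δ :=
      hw.continuous.norm.continuousAt.eventually_lt continuousAt_const (by simpa [hz] using hδ)
    filter_upwards [this] with e' he' using h2 _ _ he'
  · filter_upwards [hw.continuous.continuousAt.eventually (near_slit hz he hc)] with e' he'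
      using h1 _ _ he'

/-- rotation shifts the angle, as far as such a function can see -/
theorem rot_slit {α : Type} {G : ℝ → α} {c : ℝ} (hc : c < Real.pi)
    (h1 : ∀ a, c ≤ |a| → G a = G Real.pi) {w : ℂ} (h0 : w ≠ 0) {θ r : ℝ → ℝ}
    (hθ : ContinuousAt θ 0) (hθ0 : θ 0 = 0) (hr : ContinuousAt r 0) (hr0 : 0 < r 0) :
    ∀ᶠ t in 𝓝 (0 : ℝ), G (Complex.arg ((r t : ℂ) * (Complex.exp (θ t * Complex.I) * w))) =
      G (Complex.arg w + θ t) := by
  have hrt : ∀ᶠ t in 𝓝 (0 : ℝ), 0 < r t := continuousAt_const.eventually_lt hr hr0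
  have hcont : ContinuousAt (fun t => Complex.exp (θ t * Complex.I) * w) 0 := by
    have : ContinuousAt (fun t => ((θ t : ℝ) : ℂ)) 0 :=
      Complex.continuous_ofReal.continuousAt.comp hθ
    fun_prop
  by_cases he : w ∈ Complex.slitPlane
  · have ha : |Complex.arg w| < Real.pi := by
      rw [abs_lt]
      exact ⟨Complex.neg_pi_lt_arg w,
        lt_of_le_of_ne (Complex.arg_le_pi w) (Complex.slitPlane_arg_ne_pi he)⟩
    have h3 : ∀ᶠ t in 𝓝 (0 : ℝ), |Complex.arg w + θ t| < Real.pi :=
      (continuousAt_const.add hθ).abs.eventually_lt continuousAt_const (by simpa [hθ0] using ha)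
    filter_upwards [hrt, h3] with t ht h4
    rw [Complex.arg_real_mul _ ht]
    congr 1
    rw [abs_lt] at h4
    have h5 : Complex.exp (θ t * Complex.I) * w =
        (‖w‖ : ℂ) * Complex.exp (((Complex.arg w + θ t : ℝ) : ℂ) * Complex.I) := by
      conv_lhs => rw [← Complex.norm_mul_exp_arg_mul_I w]
      push_cast
      rw [add_mul, Complex.exp_add]
      ring
    rw [h5, Complex.arg_real_mul _ (norm_pos_iff.2 h0), Complex.arg_exp_mul_I,
      toIocMod_eq_self]
    exact ⟨h4.1, by linarith [h4.2]⟩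
  · have hw : Complex.arg w = Real.pi := by
      by_contra h
      exact he (Complex.mem_slitPlane_iff_arg.2 ⟨h, h0⟩)
    have h3 := near_slit h0 he hc
    have h4 : ∀ᶠ t in 𝓝 (0 : ℝ), c ≤ |Complex.arg (Complex.exp (θ t * Complex.I) * w)| := by
      refine hcont.eventually (p := fun z => c ≤ |Complex.arg z|) ?_
      simpa [hθ0] using h3
    have h5 : ∀ᶠ t in 𝓝 (0 : ℝ), c < |Complex.arg w + θ t| :=
      continuousAt_const.eventually_lt (continuousAt_const.add hθ).abs
        (by simpa [hθ0, hw, abs_of_pos Real.pi_pos] using hc)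
    filter_upwards [hrt, h4, h5] with t ht h6 h7
    rw [Complex.arg_real_mul _ ht, h1 _ h6, h1 _ h7.le]

end Vale.Agent.P220Z.Hs
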