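import Vale.Agent.P220Z.Hs.Defs
import Vale.Agent.P220Z.Hs.Slit

/-!
# P220, the suspended horseshoe: smoothness, invariance and bounds of the defining functions
-/

open Set Filter Topology
open scoped ContDiff

namespace Vale.Agent.P220Z.Hs

open Vale.Agent.P220Z.Def

namespace Sm

theorem st_nonneg (a b t : ℝ) : 0 ≤ st a b t := S_nonneg _

theorem st_le_one (a b t : ℝ) : st a b t ≤ 1 := S_le_one _

theorem st_zero {a b t : ℝ} (h : a < b) (ht : t ≤ a) : st a b t = 0 :=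
  S_zero (div_nonpos_of_nonpos_of_nonneg (by linarith) (by linarith))

theorem st_one {a b t : ℝ} (h : a < b) (ht : b ≤ t) : st a b t = 1 :=
  S_one ((one_le_div (by linarith)).2 (by linarith))

theorem st_pos {a b t : ℝ} (h : a < b) (ht : a < t) : 0 < st a b t :=
  S_pos (div_pos (by linarith) (by linarith))

theorem st_lt_one {a b t : ℝ} (h : a < b) (ht : t < b) : st a b t < 1 :=
  S_lt_one ((div_lt_one (by linarith)).2 (by linarith))

theorem st_mono {a b s t : ℝ} (h : a < b) (hs : s ≤ t) : st a b s ≤ st a b t :=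
  S_mono (div_le_div_of_nonneg_right (by linarith) (by linarith))

@[fun_prop] theorem st_smooth (a b : ℝ) : ContDiff ℝ ∞ (st a b) :=
  S_smooth.comp ((contDiff_id.sub contDiff_const).div_const _)

@[fun_prop] theorem ps_smooth : ContDiff ℝ ∞ ps := by
  unfold ps
  fun_prop

@[fun_prop] theorem bp_smooth : ContDiff ℝ ∞ bp := by
  unfold bp
  fun_prop

@[fun_prop] theorem tent_smooth : ContDiff ℝ ∞ tent := by
  unfold tent
  fun_prop

@[fun_prop] theorem ch1_smooth : ContDiff ℝ ∞ ch1 := by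
  unfold ch1
  fun_prop

@[fun_prop] theorem ec_smooth : ContDiff ℝ ∞ ec := by
  have h1 : ContDiff ℝ ∞ fun t : ℝ => ((2 * Real.pi * t : ℝ) : ℂ) :=
    Complex.ofRealCLM.contDiff.comp (contDiff_const.mul contDiff_id)
  exact (Complex.contDiff_exp (𝕜 := ℝ)).comp (h1.mul contDiff_const)

@[fun_prop] theorem aB_smooth : ContDiff ℝ ∞ aB := by
  unfold aB
  fun_prop

@[fun_prop] theorem eta_smooth : ContDiff ℝ ∞ eta := st_smooth _ _

@[fun_prop] theorem chi_smooth : ContDiff ℝ ∞ chi := st_smooth _ _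

@[fun_prop] theorem oo_smooth : ContDiff ℝ ∞ oo := by
  unfold oo
  fun_prop

theorem aA_smooth : ContDiff ℝ ∞ fun y : ℝ × ℝ => aA y.1 y.2 := by
  unfold aA
  fun_prop

theorem mu0_smooth :
    ContDiff ℝ ∞ fun y : (ℝ × ℝ) × ℝ × ℝ × ℝ => mu0 y.1.1 y.1.2 y.2.1 y.2.2.1 y.2.2.2 := by
  unfold mu0 aA
  fun_prop

theorem kk_smooth : ContDiff ℝ ∞ fun y : ℝ × ℝ => kk y.1 y.2 := by
  have h1 : ContDiff ℝ ∞ fun y : ℝ × ℝ => ((ch1 y.2 : ℝ) : ℂ) :=
    Complex.ofRealCLM.contDiff.comp (ch1_smooth.comp contDiff_snd)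
  unfold kk
  fun_prop

theorem nsq_smooth : ContDiff ℝ ∞ fun z : ℂ => ‖z‖ ^ 2 := contDiff_norm_sq ℝ

theorem qq_smooth' :
    ContDiff ℝ ∞ fun y : (ℝ × ℝ) × (ZMod 5 → ℂ) × ℂ => qq y.1.1 y.1.2 y.2.1 y.2.2 := by
  have h1 : ContDiff ℝ ∞ fun y : (ℝ × ℝ) × (ZMod 5 → ℂ) × ℂ => ((y.1.2 : ℝ) : ℂ) :=
    Complex.ofRealCLM.contDiff.comp (by fun_prop)
  refine (ContDiff.sum fun i _ => ?_).add (nsq_smooth.comp ((contDiff_prod fun i _ => ?_).sub
    (h1.mul (by fun_prop))))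
  · refine ContDiff.mul ?_ (((nsq_smooth.comp (by fun_prop)).sub contDiff_const).pow 2)
    split_ifs <;> fun_prop
  · fun_prop

theorem wall_smooth : ContDiff ℝ ∞ wall :=
  (((ps_smooth.comp (nsq_smooth.comp contDiff_fst)).add (ps_smooth.comp (by fun_prop))).add
    (ps_smooth.comp (by fun_prop))).add
    (ps_smooth.comp (ContDiff.sum fun i _ => nsq_smooth.comp (by fun_prop)))

theorem ps_nonneg (t : ℝ) : 0 ≤ ps t := by
  rcases le_total t 64 with h | h
  · rw [ps, st_zero (by norm_num) h, mul_zero]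
  · exact mul_nonneg (by linarith) (st_nonneg _ _ _)

theorem ps_zero {t : ℝ} (h : t ≤ 64) : ps t = 0 := by
  rw [ps, st_zero (by norm_num) h, mul_zero]

theorem ps_one {t : ℝ} (h : 65 ≤ t) : ps t = t - 64 := by
  rw [ps, st_one (by norm_num) h, mul_one]

theorem bp_nonneg (t : ℝ) : 0 ≤ bp t := sub_nonneg.2 (st_le_one _ _ _)

theorem bp_le_one (t : ℝ) : bp t ≤ 1 := sub_le_self _ (st_nonneg _ _ _)

theorem chi_nonneg (n : ℝ) : 0 ≤ chi n := st_nonneg _ _ _

theorem chi_le_one (n : ℝ) : chi n ≤ 1 := st_le_one _ _ _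

theorem chi_zero {n : ℝ} (h : n ≤ 1 / 16) : chi n = 0 := st_zero (by norm_num) h

theorem oo_nonneg (n : ℝ) : 0 ≤ oo n := mul_nonneg zero_le_two (sub_nonneg.2 (st_le_one _ _ _))

theorem nu_nonneg (s t : ℝ) : 0 ≤ nu s t := st_nonneg _ _ _

theorem nu_le_one (s t : ℝ) : nu s t ≤ 1 := st_le_one _ _ _

theorem gate_mem (t : ℝ) : st 1 3 t - st 14 15 t ∈ Icc (0 : ℝ) 1 := by
  refine ⟨?_, by linarith [st_le_one 1 3 t, st_nonneg 14 15 t]⟩
  rcases le_total t 14 with h | h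
  · rw [st_zero (by norm_num) h, sub_zero]
    exact st_nonneg _ _ _
  · rw [st_one (by norm_num) (by linarith)]
    exact sub_nonneg.2 (st_le_one _ _ _)

theorem fac_mem {a b : ℝ} (ha : a ∈ Icc (0 : ℝ) 1) (h0 : 0 ≤ b) (h1 : b ≤ 1) :
    1 - a * (1 - b) ∈ Icc (0 : ℝ) 1 :=
  ⟨by nlinarith [ha.1, ha.2], by nlinarith [ha.1, ha.2]⟩

theorem mu0_mem (σ c t x y : ℝ) : mu0 σ c t x y ∈ Icc (0 : ℝ) 1 := by
  have h1 := fac_mem (a := 1 - st 4 5 t) ⟨sub_nonneg.2 (st_le_one _ _ _),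
    sub_le_self _ (st_nonneg _ _ _)⟩ (bp_nonneg x) (bp_le_one x)
  have h2 := fac_mem (gate_mem t) (bp_nonneg (y + aA σ t * (tent x - c))) (bp_le_one _)
  have h3 := fac_mem (a := st 11 13 t) ⟨st_nonneg _ _ _, st_le_one _ _ _⟩
    (bp_nonneg (x + aB t * (100 * y))) (bp_le_one _)
  exact ⟨mul_nonneg (mul_nonneg h1.1 h2.1) h3.1, mul_le_one₀ (mul_le_one₀ h1.2 h2.1 h2.2) h3.1 h3.2⟩

theorem qq_nonneg' {A : ℝ} (hA : 0 ≤ A) (B : ℝ) (v : ZMod 5 → ℂ) (k : ℂ) : 0 ≤ qq A B v k := by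
  refine add_nonneg (Finset.sum_nonneg fun i _ => mul_nonneg ?_ (sq_nonneg _)) (sq_nonneg _)
  split_ifs
  · exact hA
  · exact zero_le_one

theorem ec_zero : ec 0 = 1 := by simp [ec]

theorem ec_one : ec 1 = 1 := by simp [ec]

theorem mu0_lo {t : ℝ} (ht : t ≤ 1) (σ c x y : ℝ) : mu0 σ c t x y = bp x := by
  rw [mu0, st_zero (a := 4) (by norm_num) (by linarith), st_zero (a := 1) (by norm_num) ht,
    st_zero (a := 14) (by norm_num) (by linarith), st_zero (a := 11) (by norm_num) (by linarith)]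
  ring

theorem mu0_hi {t : ℝ} (ht : 19 ≤ t) (σ c x y : ℝ) : mu0 σ c t x y = bp x := by
  rw [mu0, aB, st_one (a := 4) (by norm_num) (by linarith),
    st_one (a := 1) (by norm_num) (by linarith), st_one (a := 14) (by norm_num) (by linarith),
    st_one (a := 11) (by norm_num) (by linarith), st_one (a := 17) (by norm_num) ht]
  simp

theorem kk_lo {t : ℝ} (ht : t ≤ 5) (x : ℝ) : kk t x = 1 := by
  rw [kk, eta, st_zero (by norm_num) ht, ec_zero]
  simp

theorem kk_hi {t : ℝ} (ht : 7 ≤ t) (x : ℝ) : kk t x = 1 := by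
  rw [kk, eta, st_one (by norm_num) ht, ec_one]
  simp

theorem th_pos (w : ℂ) : 0 < th w := by
  have h := Complex.neg_pi_lt_arg w
  have h1 : -10 < 10 * Complex.arg w / Real.pi := by
    rw [lt_div_iff₀ Real.pi_pos]
    linarith
  rw [th]
  linarith

theorem th_le (w : ℂ) : th w ≤ 20 := by
  have h := Complex.arg_le_pi w
  have h1 : 10 * Complex.arg w / Real.pi ≤ 10 := by
    rw [div_le_iff₀ Real.pi_pos]
    linarith
  rw [th]
  linarith

theorem ang_cases {a : ℝ} (h : 9 / 10 * Real.pi ≤ |a|) :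
    10 + 10 * a / Real.pi ≤ 1 ∨ 19 ≤ 10 + 10 * a / Real.pi := by
  rcases le_abs.1 h with h | h
  · have : 9 ≤ 10 * a / Real.pi := by
      rw [le_div_iff₀ Real.pi_pos]
      linarith
    exact Or.inr (by linarith)
  · have : 10 * a / Real.pi ≤ -9 := by
      rw [div_le_iff₀ Real.pi_pos]
      linarith
    exact Or.inl (by linarith)

/-- a smooth function of the time that takes the same value at both ends -/
theorem contDiffAt_th {E F : Type} [NormedAddCommGroup E] [NormedSpace ℝ E] [NormedAddCommGroup F]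
    [NormedSpace ℝ F] {G : ℝ × E → F} (hG : ContDiff ℝ ∞ G) {w : E → ℂ} (hw : ContDiff ℝ ∞ w)
    (h1 : ∀ t e, t ≤ 1 ∨ 19 ≤ t → G (t, e) = G (20, e)) {e : E} (he : w e ≠ 0) :
    ContDiffAt ℝ ∞ (fun e => G (th (w e), e)) e := by
  by_cases hs : w e ∈ Complex.slitPlane
  · refine hG.contDiffAt.comp e (ContDiffAt.prodMk ?_ contDiffAt_id)
    exact contDiffAt_const.add
      ((contDiffAt_const.mul ((arg_contDiffAt hs).comp e hw.contDiffAt)).div_const _)
  · refine (hG.comp (contDiff_const.prodMk contDiff_id)).contDiffAt.congr_of_eventuallyEq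
      (f := fun e => G (20, e)) ?_
    filter_upwards [hw.continuous.continuousAt.eventually
      (near_slit he hs (c := 9 / 10 * Real.pi) (by linarith [Real.pi_pos]))] with e' he'
    exact h1 _ _ (ang_cases he')

/-- the second angle -/
theorem th2_eq {w : ℂ} (h : 9 / 10 * Real.pi ≤ |Complex.arg w|) :
    th w - 20 * st 4 6 (th w) = 10 * Complex.arg (-w) / Real.pi := by
  have hp := Real.pi_pos
  rcases le_abs.1 h with h1 | h1
  · have h2 : 9 ≤ 10 * Complex.arg w / Real.pi := by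
      rw [le_div_iff₀ hp]
      linarith
    rw [st_one (by norm_num) (by rw [th]; linarith), th,
      Complex.arg_neg_eq_arg_sub_pi_iff.2 ?_]
    · field_simp
      ring
    · rcases (Complex.arg_nonneg_iff.1 (show 0 ≤ Complex.arg w by linarith)).eq_or_lt with h3 | h3
      · refine Or.inr ⟨h3.symm, lt_of_not_ge fun h4 => ?_⟩
        rw [Complex.arg_eq_zero_iff.2 ⟨h4, h3.symm⟩] at h1
        linarith
      · exact Or.inl h3
  · have h2 : 10 * Complex.arg w / Real.pi ≤ -9 := by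
      rw [div_le_iff₀ hp]
      linarith
    rw [st_zero (by norm_num) (by rw [th]; linarith), th,
      Complex.arg_neg_eq_arg_add_pi_of_im_neg (Complex.arg_neg_iff.1 (by linarith))]
    field_simp
    ring

theorem contDiffAt_th2 {w : ℂ} (h0 : w ≠ 0) :
    ContDiffAt ℝ ∞ (fun w => th w - 20 * st 4 6 (th w)) w := by
  by_cases hs : w ∈ Complex.slitPlane
  · have h1 : ContDiffAt ℝ ∞ th w :=
      contDiffAt_const.add ((contDiffAt_const.mul (arg_contDiffAt hs)).div_const _)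
    exact h1.sub (contDiffAt_const.mul ((st_smooth 4 6).contDiffAt.comp w h1))
  · have hn : -w ∈ Complex.slitPlane := by
      rw [Complex.mem_slitPlane_iff, not_or, not_lt, not_not] at hs
      left
      simpa using lt_of_le_of_ne hs.1 fun h1 => h0 (Complex.ext h1 hs.2)
    have h1 : ContDiffAt ℝ ∞ (fun w : ℂ => 10 * Complex.arg (-w) / Real.pi) w :=
      (contDiffAt_const.mul ((arg_contDiffAt hn).comp w contDiffAt_id.neg)).div_const _
    refine h1.congr_of_eventuallyEq ?_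
    filter_upwards [near_slit h0 hs (c := 9 / 10 * Real.pi) (by linarith [Real.pi_pos])] with z hz
    exact th2_eq hz

/-- the factor `chi` kills the singularity on the axis -/
theorem smooth_chi_mul {E : Type} [NormedAddCommGroup E] [NormedSpace ℝ E] {f : E → ℝ} {w : E → ℂ}
    (hw : ContDiff ℝ ∞ w) (hf : ∀ e, w e ≠ 0 → ContDiffAt ℝ ∞ f e) :
    ContDiff ℝ ∞ fun e => chi (‖w e‖ ^ 2) * f e := by
  refine contDiff_iff_contDiffAt.2 fun e => ?_
  have h1 := nsq_smooth.comp hw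
  by_cases he : w e = 0
  · refine (contDiffAt_const (c := (0 : ℝ))).congr_of_eventuallyEq ?_
    have h2 : ∀ᶠ e' in 𝓝 e, ‖w e'‖ ^ 2 < 1 / 16 :=
      h1.continuous.continuousAt.eventually_lt continuousAt_const (by simp [he])
    filter_upwards [h2] with e' he'
    rw [chi_zero he'.le, zero_mul]
  · exact (chi_smooth.comp h1).contDiffAt.mul (hf e he)

theorem nu_one {s : ℝ} (hs : 7 ≤ s) {t : ℝ} (ht : t ≤ 20) : nu s t = 1 := by
  refine st_one (by norm_num) ?_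
  rcases le_total t 6 with h | h
  · linarith [st_nonneg 4 6 t]
  · rw [st_one (by norm_num) h]
    linarith

theorem sum_av (g : G5) (v : ZMod 5 → ℂ) (f : ℝ → ℝ) : ∑ i, f ‖av g v i‖ = ∑ i, f ‖v i‖ := by
  have h := Equiv.sum_comp (Equiv.subRight g.toAdd.2) fun i => f ‖v i‖
  simpa [av, Circle.norm_coe] using h

theorem om_pow5 (a : ZMod 5) : ((om a : Circle) : ℂ) ^ 5 = 1 := by
  have h : (5 : ℕ) • a = 0 := by
    revert a
    decide
  rw [← Circle.coe_pow, om, ← AddChar.map_nsmul_eq_pow, h, AddChar.map_zero_eq_one, Circle.coe_one]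

theorem prod_av (g : G5) (v : ZMod 5 → ℂ) : ∏ i, av g v i = ∏ i, v i := by
  have h := Equiv.prod_comp (Equiv.subRight g.toAdd.2) v
  simp only [av, Finset.prod_mul_distrib, Finset.prod_const, Finset.card_univ, ZMod.card, om_pow5,
    one_mul]
  exact h

theorem qq_av' (g : G5) (B : ℝ) (v : ZMod 5 → ℂ) (k : ℂ) : qq 1 B (av g v) k = qq 1 B v k := by
  simp only [qq, ite_self, one_mul, prod_av]
  rw [sum_av g v fun r => (r ^ 2 - 1) ^ 2]

end Sm

open Sm

theorem FF_smooth : ContDiff ℝ ∞ fun y : Par × U0 => FF y.1 y.2 := by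
  have hw : ContDiff ℝ ∞ fun y : Par × U0 => y.2.1 := by fun_prop
  refine ((wall_smooth.comp contDiff_snd).add (smooth_chi_mul hw fun e he => ?_)).sub contDiff_const
  have h0 := ContDiffAt.comp (f := fun y : Par × U0 => y.2.1) e (contDiffAt_th2 he) hw.contDiffAt
  have h0' : ContDiffAt ℝ ∞ (fun y : Par × U0 => y.1.2.2.2.2) e := by fun_prop
  have h1 : ContDiffAt ℝ ∞ (fun y : Par × U0 => nu y.1.2.2.2.2 (th y.2.1)) e :=
    (st_smooth 0 1).contDiffAt.comp e (h0'.sub h0)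
  have h2 := contDiffAt_th (G := fun y : ℝ × Par × U0 =>
      mu0 y.2.1.2.2.1 y.2.1.2.2.2.1 y.1 y.2.2.2.1.1 y.2.2.2.1.2)
    (mu0_smooth.comp (f := fun y : ℝ × Par × U0 =>
      ((y.2.1.2.2.1, y.2.1.2.2.2.1), y.1, y.2.2.2.1.1, y.2.2.2.1.2)) (by fun_prop)) hw
    (fun t e h => by
      simp only
      rw [mu0_hi (t := 20) (by norm_num)]
      exact h.elim (fun h => mu0_lo h _ _ _ _) fun h => mu0_hi h _ _ _ _) he
  have h3 := contDiffAt_th (G := fun y : ℝ × Par × U0 => kk y.1 y.2.2.2.1.1)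
    (kk_smooth.comp (f := fun y : ℝ × Par × U0 => (y.1, y.2.2.2.1.1)) (by fun_prop)) hw
    (fun t e h => by
      simp only
      rw [kk_hi (t := 20) (by norm_num)]
      exact h.elim (fun h => kk_lo (by linarith) _) fun h => kk_hi (by linarith) _) he
  have h4 := qq_smooth'.contDiffAt.comp e (f := fun y : Par × U0 =>
    ((y.1.1, y.1.2.1), y.2.2.2, kk (th y.2.1) y.2.2.1.1))
    (ContDiffAt.prodMk (by fun_prop) (ContDiffAt.prodMk (by fun_prop) h3))
  exact (h1.mul h2).mul (h4.add (oo_smooth.comp (nsq_smooth.comp hw)).contDiffAt)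

theorem F0_eq {s : ℝ} (hs : 7 ≤ s) (u : U0) : F0 u = FF (1, 1, 0, 0, s) u := by
  simp only [F0, FF, nu_one hs (th_le _), one_mul]

theorem F0_smooth : ContDiff ℝ ∞ F0 := by
  have h : F0 = (fun y : Par × U0 => FF y.1 y.2) ∘ fun u => ((1, 1, 0, 0, 7), u) :=
    funext (F0_eq le_rfl)
  rw [h]
  exact FF_smooth.comp (contDiff_const.prodMk contDiff_id)

theorem wall_nonneg (u : U0) : 0 ≤ wall u :=
  add_nonneg (add_nonneg (add_nonneg (ps_nonneg _) (ps_nonneg _)) (ps_nonneg _)) (ps_nonneg _)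

theorem wall_le {a : Par} (ha : 0 ≤ a.1) (u : U0) : wall u - 1 / 4 ≤ FF a u := by
  have h := mul_nonneg (chi_nonneg (‖u.1‖ ^ 2)) (mul_nonneg (mul_nonneg
    (nu_nonneg a.2.2.2.2 (th u.1)) (mu0_mem a.2.2.1 a.2.2.2.1 (th u.1) u.2.1.1 u.2.1.2).1)
    (add_nonneg (qq_nonneg' ha a.2.1 u.2.2 (kk (th u.1) u.2.1.1)) (oo_nonneg (‖u.1‖ ^ 2))))
  rw [FF]
  linarith

theorem lt_of_ps {t : ℝ} (h : ps t ≤ 1 / 4) : t < 65 := by
  by_contra h1
  rw [ps_one (not_lt.1 h1)] at h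
  linarith [not_lt.1 h1]

theorem bd_of_wall {u : U0} (h : wall u ≤ 1 / 4) : ‖u.1‖ ^ 2 < 65 ∧ u.2.1.1 ^ 2 < 65 ∧
    u.2.1.2 ^ 2 < 65 ∧ ∑ i, ‖u.2.2 i‖ ^ 2 < 65 := by
  have h1 := ps_nonneg (‖u.1‖ ^ 2)
  have h2 := ps_nonneg (u.2.1.1 ^ 2)
  have h3 := ps_nonneg (u.2.1.2 ^ 2)
  have h4 := ps_nonneg (∑ i, ‖u.2.2 i‖ ^ 2)
  rw [wall] at h
  exact ⟨lt_of_ps (by linarith), lt_of_ps (by linarith), lt_of_ps (by linarith),
    lt_of_ps (by linarith)⟩

theorem norm_lt_of_wall {u : U0} (h : wall u ≤ 1 / 4) : ‖u‖ < 9 := by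
  obtain ⟨h1, h2, h3, h4⟩ := bd_of_wall h
  have h5 : ∀ r : ℝ, r ^ 2 < 65 → |r| < 9 := fun r hr => abs_lt_of_sq_lt_sq (by linarith) (by norm_num)
  simp only [Prod.norm_def, max_lt_iff, Real.norm_eq_abs]
  refine ⟨(le_abs_self _).trans_lt (h5 _ h1), ⟨h5 _ h2, h5 _ h3⟩,
    (pi_norm_lt_iff (by norm_num)).2 fun i => (le_abs_self _).trans_lt (h5 _ ?_)⟩
  exact (Finset.single_le_sum (f := fun i => ‖u.2.2 i‖ ^ 2) (fun _ _ => sq_nonneg _)
    (Finset.mem_univ i)).trans_lt h4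

theorem FF_pos {a : Par} (ha : 0 ≤ a.1) {u : U0} (hu : 9 ≤ ‖u‖) : 0 < FF a u := by
  by_contra h
  exact absurd (norm_lt_of_wall (by linarith [wall_le ha u, not_lt.1 h])) (not_lt.2 hu)

theorem co_bdd (r : ℝ) : ∃ R, ∀ u : UU, R ≤ ‖u‖ → r ≤ ‖co u‖ := by
  refine ⟨(‖(co.symm : U0 →L[ℝ] UU)‖ + 1) * |r|, fun u hu => ?_⟩
  have h1 := (co.symm : U0 →L[ℝ] UU).le_opNorm (co u)
  simp only [ContinuousLinearEquiv.coe_coe, ContinuousLinearEquiv.symm_apply_apply] at h1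
  have h2 := norm_nonneg (co.symm : U0 →L[ℝ] UU)
  have h3 := norm_nonneg (co u)
  have h4 : |r| ≤ ‖co u‖ := by
    by_contra h5
    nlinarith [not_le.1 h5]
  exact (le_abs_self r).trans h4

theorem FF_bdd : ∃ R, ∀ a : Par, 0 ≤ a.1 → ∀ u : UU, R ≤ ‖u‖ → 0 < FF a (co u) :=
  (co_bdd 9).imp fun _ h _ ha u hu => FF_pos ha (h u hu)

theorem wall_act (g : G5) (u : U0) : wall (act0 g u) = wall u := by
  simp only [wall, act0]
  rw [sum_av g u.2.2 fun r => r ^ 2]

theorem F0_act (g : G5) (u : U0) : F0 (act0 g u) = F0 u := by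
  rw [F0, F0, wall_act]
  simp only [act0, qq_av']

theorem phi0_smooth : ContDiff ℝ ∞ phi0 := F0_smooth.comp co.contDiff

theorem phi0_inv (g : G5) (u : UU) : phi0 (rhoU g u) = phi0 u := F0_act g (co u)

theorem phi0_bdd : ∃ R, ∀ u : UU, R ≤ ‖u‖ → 0 < phi0 u :=
  FF_bdd.imp fun _ h u hu =>
    (h (1, 1, 0, 0, 7) zero_le_one u hu).trans_eq (F0_eq le_rfl (co u)).symm

theorem F0_zero : F0 0 = -1 / 4 := by
  simp [F0, wall, ps_zero, chi_zero]
  norm_num

theorem phi0_zero : phi0 0 < 0 := by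
  rw [phi0, map_zero, F0_zero]
  norm_num

end Vale.Agent.P220Z.Hs
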