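import Vale.Agent.P220Z.Hs.Sk
import Vale.Agent.P220Z.Hs.Smo
import Vale.Agent.P220Z.Hs.EvA

/-!
# P220, the suspended horseshoe: the interface of the maps
-/

open Set
open scoped ContDiff

namespace Vale.Agent.P220Z.Hs

open Vale.Agent.P220Z.Def

namespace HF

/-- the action on the fibre coordinates -/
noncomputable def az (g : G5) (z : Z0) : Z0 := (z.1, av g z.2)

theorem sum_shift (f : ZMod 5 → ℝ) (a : ZMod 5) : ∑ i, f (i - a) = ∑ i, f i :=
  Equiv.sum_comp (Equiv.subRight a) f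

theorem fac_az (g : G5) (o : ZMod 5 → ℝ) (t t' : ℝ) (z : Z0) :
    fac (fun i => o (i - g.toAdd.2)) t t' (az g z) = az g (fac o t t' z) := by
  refine Prod.ext ?_ (funext fun i => ?_)
  · simp only [fac, az, sum_shift o]
  · simp only [fac, az, av, mm, sum_shift fun i => min (o i) 1]
    ring

theorem ev_az (g : G5) (o : ℕ → ZMod 5 → ℝ) (θ s : ℝ) (n : ℕ) (z : Z0) :
    ev (fun j i => o j (i - g.toAdd.2)) θ s n (az g z) = az g (ev o θ s n z) := by
  induction n with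
  | zero => rfl
  | succ n ih => rw [ev, ev, ih, fac_az]

theorem az_smul (g : G5) (c : ℝ) (z : Z0) : az g (c • z) = c • az g z := by
  refine Prod.ext rfl (funext fun i => ?_)
  simp [az, av, mul_left_comm]

theorem az_add (g : G5) (z z' : Z0) : az g (z + z') = az g z + az g z' := by
  refine Prod.ext rfl (funext fun i => ?_)
  simp [az, av, mul_add]

theorem act0_eq (g : G5) (u : U0) : act0 g u = (u.1, az g u.2) := rfl

theorem m0_act (g : G5) (K : ℕ) (t : ℝ) (u : U0) : m0 K t (act0 g u) = act0 g (m0 K t u) := by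
  have h := ev_az g 0 (th u.1) (tm K t) (K + 2) u.2
  simp only [act0_eq, m0, az_add, az_smul, ← h]
  rfl

theorem h0_act {K : ℕ} {L : ℕ → EB5 → ZMod 5 → ℝ} (hL : IsWt K L) (g : G5) (t : ℝ) {b : EB5}
    (hb : b ∈ B5) (u : U0) : h0 K L t (β5 g b) (act0 g u) = act0 g (h0 K L t b u) := by
  have h1 : wt L (cl t) (th u.1) (β5 g b) =
      fun j i => wt L (cl t) (th u.1) b j (i - g.toAdd.2) := by
    funext j i
    simp only [wt, hL.eq _ g b hb]
  simp only [act0_eq, h0, az_smul, h1, ev_az]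

theorem symm_act (g : G5) (u : U0) : co.symm (act0 g u) = rhoU g (co.symm u) := by
  rw [ContinuousLinearEquiv.symm_apply_eq, co_rhoU, ContinuousLinearEquiv.apply_symm_apply]

theorem ev_zero (o : ℕ → ZMod 5 → ℝ) (θ : ℝ) (n : ℕ) (z : Z0) : ev o θ 0 n z = z := by
  induction n with
  | zero => rfl
  | succ n ih => rw [ev, ih, add_zero, Ev.fac_id _ rfl rfl rfl]

theorem m0_start (K : ℕ) (u : U0) : m0 K (-1) u = u := by
  have h1 : tm K (-1) = 0 := max_eq_left ((min_le_right _ _).trans (by norm_num))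
  have h2 : cl (- -1) = 1 := Ev.cl_one (by norm_num)
  simp only [m0, h1, h2, ev_zero, zero_div, Ev.ec_zero, one_mul, ← add_smul, add_sub_cancel,
    one_smul]

theorem h0_start (K : ℕ) (L : ℕ → EB5 → ZMod 5 → ℝ) (b : EB5) (u : U0) :
    h0 K L 0 b u = m0 K (20 * K + 2) u := by
  have hK : (0 : ℝ) ≤ K := Nat.cast_nonneg K
  have h1 : tm K (20 * K + 2) = 20 * K + 2 := by
    rw [tm, min_self, max_eq_right (by linarith)]
  have h2 : cl (-(20 * (K : ℝ) + 2)) = 0 := Ev.cl_zero (by linarith)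
  have h3 : ec ((20 * (K : ℝ) + 2) / 20) = ec (1 / 10) := by
    rw [show (20 * (K : ℝ) + 2) / 20 = K + 1 / 10 by ring, Ev.ec_add, Ev.ec_nat, one_mul]
  have h4 : wt L (cl 0) (th u.1) b = 0 := by
    funext j i
    simp [wt, Ev.cl_zero le_rfl]
  simp only [h0, m0, h1, h2, h3, h4, sub_zero, Ev.cl_one (show (1 : ℝ) ≤ 2 by norm_num),
    Ev.cl_one (show (1 : ℝ) ≤ 3 by norm_num), one_mul, zero_mul, add_zero, zero_smul]

theorem h0_end (K : ℕ) (L : ℕ → EB5 → ZMod 5 → ℝ) (b : EB5) (u : U0) : h0 K L 3 b u = 0 := by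
  simp only [h0, sub_self, Ev.cl_zero le_rfl, Ev.cl_zero (show (2 : ℝ) - 3 ≤ 0 by norm_num),
    zero_mul, zero_smul]
  rfl

theorem h0_axis (K : ℕ) (L : ℕ → EB5 → ZMod 5 → ℝ) (t : ℝ) (b : EB5) {u : U0}
    (h : ‖u.1‖ ≤ 1 / 8) : h0 K L t b u = 0 := by
  have h1 : k1 u.1 = 0 := Ev.cl_zero (by linarith)
  have h2 : k2 u.1 = 0 := Ev.cl_zero (by linarith)
  simp only [h0, h1, h2, mul_zero, zero_smul]
  rfl

theorem ec_tenth : ec (1 / 10) = Tb.e10 := by
  rw [ec, Tb.e10]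
  congr 1
  push_cast
  ring

theorem ok0 : Ok (1, 1, 0, 0, 7) :=
  ⟨⟨zero_le_one, le_rfl⟩, ⟨zero_le_one, le_rfl⟩, ⟨le_rfl, zero_le_one⟩, le_rfl, Or.inr rfl,
    Or.inl rfl, Or.inl le_rfl⟩

theorem phi0_reg (hr : StReg) (x : UU) (h : phi0 x = 0) : fderiv ℝ phi0 x ≠ 0 := by
  have h1 : F0 = FF (1, 1, 0, 0, 7) := funext (F0_eq le_rfl)
  intro h2
  refine hr _ ok0 (co x) (h1 ▸ h) ?_
  rw [← h1]
  have h3 := ((F0_smooth.differentiable (by simp) (co x)).hasFDerivAt.comp x co.hasFDerivAt).fderiv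
  refine ContinuousLinearMap.ext fun v => ?_
  obtain ⟨v, rfl⟩ := co.surjective v
  exact congrArg (fun A : UU →L[ℝ] ℝ => A v) (h3.symm.trans h2)

theorem phi0_symm (u : U0) : phi0 (co.symm u) = F0 u := by
  rw [phi0, ContinuousLinearEquiv.apply_symm_apply]

end HF

open HF

theorem stHs (hc : StCont) (hm : StMem) (hr : StReg) : StHs := by
  intro K L hL
  obtain ⟨c1, c2⟩ := hc K L hL
  have c3 : Continuous (mU K) := co.symm.continuous.comp (c1.comp
    (f := fun y : ℝ × UU => ((20 * K + 3) * y.1 - 1, co y.2)) (by fun_prop))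
  have c4 : Continuous (hU K L) := co.symm.continuous.comp (c2.comp
    (f := fun y : ℝ × EB5 × UU => (3 * y.1, y.2.1, co y.2.2)) (by fun_prop))
  refine ⟨phi0_smooth, phi0_bdd, phi0_reg hr, phi0_inv, phi0_zero.le, c3.continuousOn,
    fun τ _ x hx => ?_, fun g τ _ x _ => ?_, fun x _ => ?_, c4.continuousOn,
    fun u _ b hb x hx => ?_, fun g u _ b hb x _ => ?_, fun b _ x _ => ?_, fun b _ x _ => ?_,
    fun u _ b _ x _ => ?_, fun u _ b _ x _ hx => ?_⟩
  · exact (phi0_symm _).trans_le (hm K L hL _ _ hx).1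
  · simp only [mU, co_rhoU, m0_act, symm_act]
  · simp only [mU, mul_zero, zero_sub, m0_start, ContinuousLinearEquiv.symm_apply_apply]
  · exact (phi0_symm _).trans_le ((hm K L hL _ _ hx).2 b hb)
  · simp only [hU, co_rhoU, h0_act hL g _ hb, symm_act]
  · simp only [hU, mU, mul_zero, mul_one, h0_start]
    rw [show 20 * (K : ℝ) + 3 - 1 = 20 * K + 2 by ring]
  · simp only [hU, mul_one, h0_end, map_zero]
  · refine ⟨cl (2 - 3 * u) * k1 (co x).1, ⟨mul_nonneg (Ev.cl_nonneg _) (Ev.cl_nonneg _),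
      mul_le_one₀ (Ev.cl_le_one _) (Ev.cl_nonneg _) (Ev.cl_le_one _)⟩, ?_⟩
    change (co (co.symm (h0 K L (3 * u) b (co x)))).1 = _ * _ * (co x).1
    rw [ContinuousLinearEquiv.apply_symm_apply, ← ec_tenth]
    simp only [h0, Complex.real_smul, mul_assoc]
  · simp only [hU, h0_axis K L _ b (show ‖(co x).1‖ ≤ 1 / 8 from hx), map_zero]

end Vale.Agent.P220Z.Hs
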