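import Vale.Agent.P220Z.Hs.Defs

/-!
# P220, the function that vanishes on the torus
-/

open Set
open scoped ContDiff

namespace Vale.Agent.P220Z.Hs

open Vale.Agent.P220Z.Def

theorem qq_smooth {E : Type} [NormedAddCommGroup E] [NormedSpace ℝ E] {A B : E → ℝ}
    {v : E → ZMod 5 → ℂ} {k : E → ℂ} (hA : ContDiff ℝ ∞ A) (hB : ContDiff ℝ ∞ B)
    (hv : ContDiff ℝ ∞ v) (hk : ContDiff ℝ ∞ k) :
    ContDiff ℝ ∞ fun e => qq (A e) (B e) (v e) (k e) := by
  have hi : ∀ i, ContDiff ℝ ∞ fun e => v e i := fun i => contDiff_pi.1 hv i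
  unfold qq
  refine (ContDiff.sum fun i _ => ContDiff.mul ?_ ?_).add ?_
  · split_ifs
    · exact hA
    · exact contDiff_const
  · exact (((hi i).norm_sq ℝ).sub contDiff_const).pow 2
  · refine ContDiff.norm_sq ℝ (ContDiff.sub (contDiff_prod fun i _ => hi i) ?_)
    exact (Complex.ofRealCLM.contDiff.comp hB).mul hk

theorem qq_cont {E : Type} [TopologicalSpace E] {A B : E → ℝ}
    {v : E → ZMod 5 → ℂ} {k : E → ℂ} (hA : Continuous A) (hB : Continuous B)
    (hv : Continuous v) (hk : Continuous k) :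
    Continuous fun e => qq (A e) (B e) (v e) (k e) := by
  have h : ContDiff ℝ ∞ fun e : ℝ × ℝ × (ZMod 5 → ℂ) × ℂ => qq e.1 e.2.1 e.2.2.1 e.2.2.2 :=
    qq_smooth (by fun_prop) (by fun_prop) (by fun_prop) (by fun_prop)
  exact h.continuous.comp (hA.prodMk (hB.prodMk (hv.prodMk hk)))

theorem qq_nonneg {A : ℝ} (hA : 0 ≤ A) (B : ℝ) (v : ZMod 5 → ℂ) (k : ℂ) : 0 ≤ qq A B v k := by
  unfold qq
  refine add_nonneg (Finset.sum_nonneg fun i _ => mul_nonneg ?_ (sq_nonneg _)) (sq_nonneg _)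
  split_ifs
  exacts [hA, zero_le_one]

theorem om_pow_five (a : ZMod 5) : (om a : ℂ) ^ 5 = 1 := by
  rw [← Circle.coe_pow, om, ← AddChar.map_nsmul_eq_pow]
  have : (5 : ℕ) • a = 0 := by
    rw [nsmul_eq_mul]
    have : ((5 : ℕ) : ZMod 5) = 0 := by decide
    rw [this, zero_mul]
  simp [this]

theorem prod_av (g : G5) (v : ZMod 5 → ℂ) : ∏ i, av g v i = ∏ i, v i := by
  simp only [av, Finset.prod_mul_distrib, Finset.prod_const, Finset.card_univ, ZMod.card,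
    om_pow_five, one_mul]
  exact Equiv.prod_comp (Equiv.subRight g.toAdd.2) v

theorem sum_av (g : G5) (v : ZMod 5 → ℂ) (f : ℝ → ℝ) :
    ∑ i, f ‖av g v i‖ = ∑ i, f ‖v i‖ := by
  simp only [av, norm_mul, Circle.norm_coe, one_mul]
  exact Equiv.sum_comp (Equiv.subRight g.toAdd.2) fun i => f ‖v i‖

theorem qq_av (g : G5) (B : ℝ) (v : ZMod 5 → ℂ) (k : ℂ) : qq 1 B (av g v) k = qq 1 B v k := by
  simp only [qq, ite_self, one_mul, prod_av]
  rw [sum_av g v fun r => (r ^ 2 - 1) ^ 2]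

theorem qq_mul (A B : ℝ) {m : ZMod 5 → ℂ} (hm : ∀ i, ‖m i‖ = 1) (v : ZMod 5 → ℂ) (k : ℂ) :
    qq A B (fun i => m i * v i) ((∏ i, m i) * k) = qq A B v k := by
  have h : ‖∏ i, m i‖ = 1 := by simp [norm_prod, hm]
  simp only [qq, norm_mul, hm, one_mul, Finset.prod_mul_distrib]
  rw [mul_left_comm (B : ℂ), ← mul_sub, norm_mul, h, one_mul]

theorem qq_zero_right (A : ℝ) (v : ZMod 5 → ℂ) (k k' : ℂ) : qq A 0 v k = qq A 0 v k' := by
  simp [qq]

theorem prod_emb (l : ZMod 5) (c : ℂ) : ∏ i : ZMod 5, (om (l * i) : ℂ) * c = c ^ 5 := by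
  rw [Finset.prod_mul_distrib, Finset.prod_const, Finset.card_univ, ZMod.card]
  have h : ∏ i : ZMod 5, (om (l * i) : ℂ) = 1 := by
    have h1 : ∀ s : Finset (ZMod 5), ∏ i ∈ s, (om (l * i) : ℂ) = om (∑ i ∈ s, l * i) := by
      intro s
      induction s using Finset.induction_on with
      | empty => simp [om]
      | insert a s ha ih =>
        rw [Finset.prod_insert ha, Finset.sum_insert ha, ih]
        simp [om, AddChar.map_add_eq_mul]
    have h2 : ∑ i : ZMod 5, i = 0 := by decide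
    rw [h1, ← Finset.mul_sum, h2]
    simp [om]
  rw [h, one_mul]

theorem qq_emb (l : ZMod 5) (c k : ℂ) :
    qq 1 1 (fun i => (om (l * i) : ℂ) * c) k = 5 * (‖c‖ ^ 2 - 1) ^ 2 + ‖c ^ 5 - k‖ ^ 2 := by
  simp only [qq, ite_self, one_mul, prod_emb, norm_mul, Circle.norm_coe, Finset.sum_const,
    Finset.card_univ, ZMod.card, Complex.ofReal_one]
  simp

theorem qq_term {A B : ℝ} (hA : 0 ≤ A) (v : ZMod 5 → ℂ) (k : ℂ) {i : ZMod 5} (hi : i ≠ 0) :
    (‖v i‖ ^ 2 - 1) ^ 2 ≤ qq A B v k := by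
  unfold qq
  refine le_add_of_le_of_nonneg ?_ (sq_nonneg _)
  have h := Finset.single_le_sum
    (f := fun j : ZMod 5 => (if j = 0 then A else 1) * (‖v j‖ ^ 2 - 1) ^ 2)
    (fun j _ => mul_nonneg (by split_ifs; exacts [hA, zero_le_one]) (sq_nonneg _))
    (Finset.mem_univ i)
  simpa [hi] using h

theorem qq_last {A B : ℝ} (hA : 0 ≤ A) (v : ZMod 5 → ℂ) (k : ℂ) :
    ‖∏ i, v i - B * k‖ ^ 2 ≤ qq A B v k := by
  unfold qq
  exact le_add_of_nonneg_left (Finset.sum_nonneg fun j _ =>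
    mul_nonneg (by split_ifs; exacts [hA, zero_le_one]) (sq_nonneg _))

theorem qq_coord {A B : ℝ} (hA : 0 ≤ A) {v : ZMod 5 → ℂ} {k : ℂ} (h : qq A B v k ≤ 1 / 4)
    {i : ZMod 5} (hi : i ≠ 0) : 1 / 2 ≤ ‖v i‖ ^ 2 ∧ ‖v i‖ ^ 2 ≤ 3 / 2 := by
  have h1 := (qq_term (B := B) hA v k hi).trans h
  constructor <;> nlinarith

theorem prod_five (f : ZMod 5 → ℝ) : ∏ i, f i = f 0 * (f 1 * f 2 * f 3 * f 4) := by
  have h : ∏ i : Fin 5, f i = _ := Fin.prod_univ_five (fun i : Fin 5 => f i)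
  exact h.trans (by
    show f 0 * f 1 * f 2 * f 3 * f 4 = _
    ring)

theorem sum_five (f : ZMod 5 → ℝ) : ∑ i, f i = f 0 + (f 1 + f 2 + f 3 + f 4) := by
  have h : ∑ i : Fin 5, f i = _ := Fin.sum_univ_five (fun i : Fin 5 => f i)
  exact h.trans (by
    show f 0 + f 1 + f 2 + f 3 + f 4 = _
    ring)

theorem qq_bdd {A B : ℝ} (hA : 0 ≤ A) {v : ZMod 5 → ℂ} {k : ℂ} (hk : ‖(B : ℂ) * k‖ ≤ 1)
    (h : qq A B v k ≤ 1 / 4) : ∑ i, ‖v i‖ ^ 2 ≤ 42 := by
  obtain ⟨a1, b1⟩ := qq_coord hA h (i := 1) (by decide)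
  obtain ⟨a2, b2⟩ := qq_coord hA h (i := 2) (by decide)
  obtain ⟨a3, b3⟩ := qq_coord hA h (i := 3) (by decide)
  obtain ⟨a4, b4⟩ := qq_coord hA h (i := 4) (by decide)
  have h1 : ‖∏ i, v i - B * k‖ ≤ 1 / 2 := by
    have := (qq_last (B := B) hA v k).trans h
    nlinarith [norm_nonneg (∏ i, v i - B * k)]
  have h2 : ‖∏ i, v i‖ ≤ 3 / 2 := by
    have := norm_add_le (∏ i, v i - B * k) (B * k)
    rw [sub_add_cancel] at this
    linarith
  have h3 : ∏ i, ‖v i‖ ^ 2 ≤ 9 / 4 := by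
    rw [Finset.prod_pow, ← norm_prod]
    nlinarith [norm_nonneg (∏ i, v i)]
  rw [prod_five] at h3
  have h4 : 1 / 4 ≤ ‖v 1‖ ^ 2 * ‖v 2‖ ^ 2 := by nlinarith
  have h5 : 1 / 8 ≤ ‖v 1‖ ^ 2 * ‖v 2‖ ^ 2 * ‖v 3‖ ^ 2 := by nlinarith
  have h6 : 1 / 16 ≤ ‖v 1‖ ^ 2 * ‖v 2‖ ^ 2 * ‖v 3‖ ^ 2 * ‖v 4‖ ^ 2 := by nlinarith
  have h7 : ‖v 0‖ ^ 2 ≤ 36 := by nlinarith [sq_nonneg ‖v 0‖]
  rw [sum_five]
  linarith

/-- the derivative when one coordinate moves -/
theorem qq_deriv (A B : ℝ) (v : ZMod 5 → ℂ) (k : ℂ) (i : ZMod 5) (δ : ℂ) :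
    fderiv ℝ (fun v => qq A B v k) v (Pi.single i δ) =
      (if i = 0 then A else 1) * (4 * (‖v i‖ ^ 2 - 1) * ((starRingEnd ℂ) (v i) * δ).re) +
        2 * ((starRingEnd ℂ) (∏ j, v j - B * k) * (δ * ∏ j ∈ Finset.univ.erase i, v j)).re := by
  have hs : ContDiff ℝ ∞ fun v : ZMod 5 → ℂ => qq A B v k :=
    qq_smooth contDiff_const contDiff_const contDiff_id contDiff_const
  have hl : HasDerivAt (fun t : ℝ => v + t • (Pi.single i δ : ZMod 5 → ℂ)) (Pi.single i δ) 0 := by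
    simpa using ((hasDerivAt_id (0 : ℝ)).smul_const (Pi.single i δ : ZMod 5 → ℂ)).const_add v
  have h1 := ((hs.differentiable (by simp)) (v + (0 : ℝ) • (Pi.single i δ : ZMod 5 → ℂ))).hasFDerivAt
    |>.comp_hasDerivAt (0 : ℝ) hl
  rw [zero_smul, add_zero] at h1
  refine h1.unique ?_
  have e : ((fun v => qq A B v k) ∘ fun t : ℝ => v + t • (Pi.single i δ : ZMod 5 → ℂ)) =
      fun t : ℝ => (if i = 0 then A else 1) * (‖v i + t • δ‖ ^ 2 - 1) ^ 2 +
        (∑ j ∈ Finset.univ.erase i, (if j = 0 then A else 1) * (‖v j‖ ^ 2 - 1) ^ 2) +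
        ‖(∏ j, v j - B * k) + t • (δ * ∏ j ∈ Finset.univ.erase i, v j)‖ ^ 2 := by
    funext t
    have hj : ∀ j ∈ Finset.univ.erase i, (v + t • (Pi.single i δ : ZMod 5 → ℂ)) j = v j := by
      intro j hj
      simp [Pi.single_eq_of_ne (Finset.ne_of_mem_erase hj)]
    have hi : (v + t • (Pi.single i δ : ZMod 5 → ℂ)) i = v i + t • δ := by simp
    simp only [Function.comp, qq]
    rw [← Finset.add_sum_erase _ _ (Finset.mem_univ i), ← Finset.mul_prod_erase _ _ (Finset.mem_univ i),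
      ← Finset.mul_prod_erase _ v (Finset.mem_univ i), hi, Finset.prod_congr rfl hj,
      Finset.sum_congr rfl fun j h => by rw [hj j h]]
    congr 3
    rw [Complex.real_smul, Complex.real_smul]
    ring
  rw [e]
  have hn : ∀ a d : ℂ, HasDerivAt (fun t : ℝ => ‖a + t • d‖ ^ 2)
      (2 * ((starRingEnd ℂ) a * d).re) 0 := by
    intro a d
    have h := (((hasDerivAt_id (0 : ℝ)).smul_const d).const_add a).norm_sq
    simpa [Complex.inner, mul_comm] using h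
  have h2 := (((((hn (v i) δ).sub_const 1).pow 2).const_mul (if i = 0 then A else 1)).add_const
    (∑ j ∈ Finset.univ.erase i, (if j = 0 then A else 1) * (‖v j‖ ^ 2 - 1) ^ 2)).add
    (hn (∏ j, v j - B * k) (δ * ∏ j ∈ Finset.univ.erase i, v j))
  refine h2.congr_deriv ?_
  simp only [zero_smul, add_zero, Nat.cast_ofNat, Nat.add_one_sub_one, pow_one]
  ring

theorem qq_crit {A B : ℝ} (hA : 0 ≤ A) {v : ZMod 5 → ℂ} {k : ℂ}
    (hq : A = 0 ∨ (B = 1 ∧ ‖k‖ = 1)) (h : qq A B v k ≤ 1 / 4)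
    (h0 : fderiv ℝ (fun v => qq A B v k) v = 0) : qq A B v k = 0 := by
  have hd : ∀ i δ, (if i = 0 then A else 1) *
      (4 * (‖v i‖ ^ 2 - 1) * ((starRingEnd ℂ) (v i) * δ).re) +
      2 * ((starRingEnd ℂ) (∏ j, v j - B * k) * (δ * ∏ j ∈ Finset.univ.erase i, v j)).re = 0 := by
    intro i δ
    rw [← qq_deriv, h0]
    rfl
  have hr : ∀ i, (if i = 0 then A else 1) * (4 * (‖v i‖ ^ 2 - 1) * ‖v i‖ ^ 2) +
      2 * ((starRingEnd ℂ) (∏ j, v j - B * k) * ∏ j, v j).re = 0 := by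
    intro i
    have := hd i (v i)
    rwa [Finset.mul_prod_erase _ v (Finset.mem_univ i), Complex.conj_mul', ← Complex.ofReal_pow,
      Complex.ofReal_re] at this
  have fin : (∀ i, (if i = 0 then A else 1) * (‖v i‖ ^ 2 - 1) = 0) → ∏ j, v j - B * k = 0 →
      qq A B v k = 0 := by
    intro h1 h2
    rw [qq, h2, Finset.sum_eq_zero fun i _ => by rw [sq, ← mul_assoc, h1 i, zero_mul]]
    simp
  have hne : ∀ i, i ≠ 0 → ‖v i‖ ^ 2 ≠ 0 := fun i hi => by linarith [(qq_coord hA h hi).1]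
  rcases hq with hq | ⟨hB, hk⟩
  · have hp : ∏ j ∈ Finset.univ.erase 0, v j ≠ 0 := Finset.prod_ne_zero_iff.2 fun j hj h1 =>
      hne j (Finset.ne_of_mem_erase hj) (by simp [h1])
    have h1 := hd 0 ((∏ j, v j - B * k) / ∏ j ∈ Finset.univ.erase 0, v j)
    rw [div_mul_cancel₀ _ hp, Complex.conj_mul', ← Complex.ofReal_pow, Complex.ofReal_re] at h1
    have h2 : ∏ j, v j - B * k = 0 := by simpa [hq] using h1
    refine fin (fun i => ?_) h2
    by_cases hi : i = 0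
    · simp [hi, hq]
    · have h3 := hr i
      rw [h2] at h3
      have h4 : (‖v i‖ ^ 2 - 1) * ‖v i‖ ^ 2 = 0 := by
        simp only [hi, if_false, map_zero, zero_mul, Complex.zero_re] at h3
        linarith
      simp [hi, (mul_eq_zero.1 h4).resolve_right (hne i hi)]
  · subst hB
    simp only [Complex.ofReal_one, one_mul] at hd hr fin
    set p := ∏ j, v j with hp
    have hkk : (starRingEnd ℂ) k * k = 1 := by rw [Complex.conj_mul', hk]; simp
    have h1 : ‖p - k‖ ^ 2 ≤ 1 / 4 := by simpa using (qq_last (B := 1) hA v k).trans h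
    have h2 : ((starRingEnd ℂ) k * p).im = 0 := by
      have h3 := hd 0 (Complex.I * v 0)
      rw [mul_assoc Complex.I, Finset.mul_prod_erase _ v (Finset.mem_univ 0), ← hp] at h3
      simp only [map_sub, Complex.mul_re, Complex.mul_im, Complex.conj_re, Complex.conj_im,
        Complex.I_re, Complex.I_im, Complex.sub_re, Complex.sub_im] at h3 ⊢
      linarith
    obtain ⟨ρ, hρ⟩ : ∃ ρ : ℝ, p = ρ * k := by
      refine ⟨((starRingEnd ℂ) k * p).re, ?_⟩
      rw [Complex.conj_eq_iff_re.1 (Complex.conj_eq_iff_im.2 h2), mul_right_comm, hkk, one_mul]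
    have h3 : (ρ - 1) ^ 2 ≤ 1 / 4 := by
      have : p - k = ((ρ - 1 : ℝ) : ℂ) * k := by rw [hρ]; push_cast; ring
      rwa [this, norm_mul, hk, mul_one, Complex.norm_real, Real.norm_eq_abs, sq_abs] at h1
    have h4 : 0 < ρ := by nlinarith
    have h5 : ((starRingEnd ℂ) (p - k) * p).re = (ρ - 1) * ρ := by
      have : (starRingEnd ℂ) (p - k) * p = (((ρ - 1) * ρ : ℝ) : ℂ) := by
        rw [hρ, map_sub, map_mul, Complex.conj_ofReal]
        push_cast
        linear_combination ((ρ : ℂ) - 1) * ρ * hkk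
      rw [this, Complex.ofReal_re]
    have h6 : ∏ j, ‖v j‖ ^ 2 = ρ ^ 2 := by
      rw [Finset.prod_pow, ← norm_prod, ← hp, hρ, norm_mul, hk, mul_one, Complex.norm_real,
        Real.norm_eq_abs, sq_abs]
    have hw : ∀ i : ZMod 5, 0 ≤ if i = 0 then A else 1 := fun i => by
      split_ifs
      exacts [hA, zero_le_one]
    simp only [h5] at hr
    have h7 : ρ = 1 := by
      rcases lt_trichotomy ρ 1 with h8 | h8 | h8
      · have h9 : ∀ i, 1 ≤ ‖v i‖ ^ 2 := fun i => by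
          by_contra h10
          have := mul_nonpos_of_nonneg_of_nonpos (hw i)
            (b := 4 * (‖v i‖ ^ 2 - 1) * ‖v i‖ ^ 2) (by nlinarith [sq_nonneg ‖v i‖])
          nlinarith [hr i]
        have := Finset.prod_le_prod (s := Finset.univ) (f := fun _ : ZMod 5 => (1 : ℝ))
          (fun _ _ => zero_le_one) fun i _ => h9 i
        rw [Finset.prod_const_one] at this
        nlinarith
      · exact h8
      · have h9 : ∀ i, ‖v i‖ ^ 2 ≤ 1 := fun i => by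
          by_contra h10
          have := mul_nonneg (hw i)
            (b := 4 * (‖v i‖ ^ 2 - 1) * ‖v i‖ ^ 2) (by nlinarith [sq_nonneg ‖v i‖])
          nlinarith [hr i]
        have := Finset.prod_le_one (s := Finset.univ) (fun i _ => sq_nonneg ‖v i‖) fun i _ => h9 i
        nlinarith
    subst h7
    refine fin (fun i => ?_) (by simp [hρ])
    have h8 : ‖v i‖ ^ 2 ≠ 0 := fun h9 => by
      rw [Finset.prod_eq_zero (Finset.mem_univ i) h9] at h6
      simp at h6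
    refine (mul_eq_zero.1 ?_).resolve_right h8
    linarith [hr i]

end Vale.Agent.P220Z.Hs
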