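import Vale.Agent.P220Z.Hs.Sk
import Vale.Agent.P220Z.Hs.Smo
import Vale.Agent.P220Z.Hs.Q

/-!
# P220, the suspended horseshoe: the domain is joined to the ball
-/

open Set
open scoped ContDiff

namespace Vale.Agent.P220Z.Hs

open Vale.Agent.P220Z.Def Sm

theorem stSm : StSm := FF_smooth

theorem stQ : StQ := by
  intro A hA B hB hq k hk v h
  refine ⟨qq_bdd hA.1 ?_ h, fun h0 h1 => h0.ne' (qq_crit hA.1 ?_ h h1)⟩
  · rcases hk with hk | hk
    · rw [norm_mul, hk, mul_one, Complex.norm_real, Real.norm_of_nonneg hB.1]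
      exact hB.2
    · simp [hk]
  · refine hq.imp_right fun h2 => ⟨h2, hk.resolve_right ?_⟩
    rw [h2]
    exact one_ne_zero

namespace Pa

/-- a segment of good parameters gives a path of domains -/
theorem seg (hr : StReg) {γ : ℝ → Par} (hγ : ContDiff ℝ ∞ γ) (a b : ℝ)
    (h : ∀ t ∈ uIcc a b, Ok (γ t)) :
    Top.Joined (fun u : UU => FF (γ a) (co u)) fun u => FF (γ b) (co u) := by
  have h2 : ContDiff ℝ ∞ fun y : ℝ × UU => ((γ y.1, co y.2) : Par × U0) :=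
    (hγ.comp contDiff_fst).prodMk (co.contDiff.comp contDiff_snd)
  have h3 := FF_smooth.comp h2
  refine Top.joined_of_family (ψ := fun y : ℝ × UU => FF (γ y.1) (co y.2)) h3 a b
    (FF_bdd.imp fun R hR t ht u hu => hR _ (h t ht).hA.1 u hu) fun t ht u hu h0 => ?_
  refine hr _ (h t ht) _ hu ?_
  have h1 : fderiv ℝ (FF (γ t) ∘ co) u = 0 := h0
  rw [co.comp_right_fderiv] at h1
  refine ContinuousLinearMap.ext fun v => ?_
  simpa using congrArg (fun L : UU →L[ℝ] ℝ => L (co.symm v)) h1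

theorem nu_end (w : ℂ) : nu (-16) (th w) = 0 := by
  refine st_zero zero_lt_one ?_
  rcases le_total (th w) 4 with h | h
  · rw [st_zero (by norm_num) h]
    linarith [th_pos w]
  · linarith [st_le_one 4 6 (th w)]

/-- the derivative of the wall along a ray -/
theorem ps_ray (n : ℝ) : ∃ d, HasDerivAt (fun r : ℝ => ps (r ^ 2 * n)) d 1 ∧ 0 ≤ d ∧
    (0 < ps n → 0 < d) := by
  have h1 : HasDerivAt (fun r : ℝ => r ^ 2 * n - 64) (2 * n) 1 := by
    simpa using ((hasDerivAt_pow 2 (1 : ℝ)).mul_const n).sub_const 64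
  have h2 := h1.P
  have e : (fun r : ℝ => ps (r ^ 2 * n)) = fun r => P (r ^ 2 * n - 64) := by
    funext r
    norm_num [ps, st, P]
  have e1 : ps n = P (n - 64) := by simpa using congrFun e 1
  refine ⟨_, e ▸ h2, ?_, fun h => ?_⟩
  · rcases le_total n 64 with h | h
    · simp [P'_zero (sub_nonpos.2 h)]
    · exact mul_nonneg (P'_nonneg _) (by linarith)
  · have h3 := pos_of_P (e1 ▸ h.ne')
    exact mul_pos (P'_pos (by simpa using h3)) (by linarith)

theorem star : Top.Joined (fun u : UU => wall (co u) - 1 / 4) fun x => ‖x‖ ^ 2 - 1 := by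
  have hs : ContDiff ℝ ∞ fun u : UU => wall (co u) - 1 / 4 :=
    (wall_smooth.comp co.contDiff).sub contDiff_const
  refine Top.joined_ball_of_star hs ((co_bdd 9).imp fun R hR u hu => ?_) ?_ fun x hx => ?_
  · by_contra h
    exact absurd (norm_lt_of_wall (u := co u) (by linarith [not_lt.1 h])) (not_lt.2 (hR u hu))
  · simp [wall, ps_zero]
  have hl : HasDerivAt (fun r : ℝ => r • x) x 1 := by
    simpa using (hasDerivAt_id (1 : ℝ)).smul_const x
  have h1 := ((hs.differentiable (by simp)) ((1 : ℝ) • x)).hasFDerivAt.comp_hasDerivAt (1 : ℝ) hl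
  rw [one_smul] at h1
  obtain ⟨d1, a1, b1, c1⟩ := ps_ray (‖(co x).1‖ ^ 2)
  obtain ⟨d2, a2, b2, c2⟩ := ps_ray ((co x).2.1.1 ^ 2)
  obtain ⟨d3, a3, b3, c3⟩ := ps_ray ((co x).2.1.2 ^ 2)
  obtain ⟨d4, a4, b4, c4⟩ := ps_ray (∑ i, ‖(co x).2.2 i‖ ^ 2)
  have h2 := (((a1.add a2).add a3).add a4).sub_const (1 / 4)
  have e : ((fun u : UU => wall (co u) - 1 / 4) ∘ fun r : ℝ => r • x) = fun r : ℝ =>
      ps (r ^ 2 * ‖(co x).1‖ ^ 2) + ps (r ^ 2 * (co x).2.1.1 ^ 2) +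
        ps (r ^ 2 * (co x).2.1.2 ^ 2) + ps (r ^ 2 * ∑ i, ‖(co x).2.2 i‖ ^ 2) - 1 / 4 := by
    funext r
    simp only [Function.comp, map_smul, wall, Prod.smul_fst, Prod.smul_snd, Pi.smul_apply,
      norm_smul, smul_eq_mul, mul_pow, Real.norm_eq_abs, sq_abs, Finset.mul_sum]
  rw [e] at h1
  rw [h1.unique h2]
  have p1 := ps_nonneg (‖(co x).1‖ ^ 2)
  have p2 := ps_nonneg ((co x).2.1.1 ^ 2)
  have p3 := ps_nonneg ((co x).2.1.2 ^ 2)
  have p4 := ps_nonneg (∑ i, ‖(co x).2.2 i‖ ^ 2)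
  simp only [wall] at hx
  rcases p1.lt_or_eq with q1 | q1
  · linarith [c1 q1]
  rcases p2.lt_or_eq with q2 | q2
  · linarith [c2 q2]
  rcases p3.lt_or_eq with q3 | q3
  · linarith [c3 q3]
  linarith [c4 (by linarith)]

end Pa

theorem stPath (hr : StReg) : StPath := by
  have z : (0 : ℝ) ∈ Icc (0 : ℝ) 1 := ⟨le_rfl, zero_le_one⟩
  have o : (1 : ℝ) ∈ Icc (0 : ℝ) 1 := ⟨zero_le_one, le_rfl⟩
  have h1 := Pa.seg hr (γ := fun t => (t, 1, 0, 0, 7)) (by fun_prop) 1 0 fun t ht =>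
    ⟨by rwa [uIcc_of_ge zero_le_one] at ht, o, z, le_rfl, Or.inr rfl, Or.inl rfl, Or.inl le_rfl⟩
  have h2 := Pa.seg hr (γ := fun t => (0, t, 0, 0, 7)) (by fun_prop) 1 0 fun t ht =>
    ⟨z, by rwa [uIcc_of_ge zero_le_one] at ht, z, le_rfl, Or.inl rfl, Or.inl rfl, Or.inl le_rfl⟩
  have h3 := Pa.seg hr (γ := fun t => (0, 0, t, 0, 7)) (by fun_prop) 0 1 fun t ht =>
    ⟨z, z, by rwa [uIcc_of_le zero_le_one] at ht, le_rfl, Or.inl rfl, Or.inl rfl, Or.inl le_rfl⟩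
  have h4 := Pa.seg hr (γ := fun t => (0, 0, 1, t, 7)) (by fun_prop) 0 100 fun t ht =>
    ⟨z, z, o, by rw [uIcc_of_le (by norm_num)] at ht; exact ht.1, Or.inl rfl,
      Or.inr ⟨rfl, zero_lt_one⟩, Or.inl le_rfl⟩
  have h5 := Pa.seg hr (γ := fun t => (0, 0, 1, 100, t)) (by fun_prop) 7 (-16) fun t _ =>
    ⟨z, z, o, by norm_num, Or.inl rfl, Or.inr ⟨rfl, zero_lt_one⟩, Or.inr le_rfl⟩
  have e0 : phi0 = fun u : UU => FF (1, 1, 0, 0, 7) (co u) := funext fun u => F0_eq le_rfl _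
  have e1 : (fun u : UU => FF (0, 0, 1, 100, -16) (co u)) = fun u => wall (co u) - 1 / 4 := by
    funext u
    simp only [FF, Pa.nu_end, zero_mul, mul_zero, add_zero]
  rw [e1] at h5
  rw [StPath, e0]
  exact ((((h1.trans h2).trans h3).trans h4).trans h5).trans Pa.star

end Vale.Agent.P220Z.Hs
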