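import Vale.Agent.P220Z.Hs.Reg
import Vale.Agent.P220Z.Hs.Sk

/-!
# P220, horseshoe model: the block REG
-/

namespace Vale.Agent.P220Z.Hs

theorem stReg : StReg := FF_reg

end Vale.Agent.P220Z.Hs
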