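import Vale.Agent.P220Z.Hs.M1
import Vale.Agent.P220Z.Top.Fld
import Vale.Agent.P220Z.Dyn.Step
import Vale.Agent.P220Z.Def.Nw

/-!
# P220, the suspended horseshoe: the strata
-/

open Set
open scoped ContDiff

namespace Vale.Agent.P220Z.Hs

open Vale.Agent.P220Z.Def

namespace St

/-- a short step against the gradient pushes the domain into its interior -/
theorem push {U : Type} [NormedAddCommGroup U] [InnerProductSpace ℝ U] [FiniteDimensional ℝ U]
    {φ : U → ℝ} (h : Top.IsReg φ) : ∃ t₀ > 0, ∀ t ∈ Ioo (0 : ℝ) t₀, ∃ e > 0, ∀ x, φ x ≤ 0 →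
      φ (x - t • gradient φ x) ≤ -e := by
  obtain ⟨R, hR⟩ := h.bdd
  have hg := (Top.contDiff_gradient h.smooth).continuous
  obtain ⟨C, hC⟩ := h.compact.exists_bound_of_continuousOn hg.continuousOn
  obtain ⟨L, hL0, hL⟩ := Top.exists_lip (h.smooth.fderiv_right (m := ∞) (by simp)) (R + |C|)
  refine ⟨min 1 (1 / (L + 1)), lt_min one_pos (by positivity), fun t ht => ?_⟩
  have h1 : t < 1 := ht.2.trans_le (min_le_left _ _)
  have h2 : t * (L + 1) < 1 := (lt_div_iff₀ (by positivity)).1 (ht.2.trans_le (min_le_right _ _))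
  have key : ∀ x, φ x ≤ 0 → 0 < -φ (x - t • gradient φ x) := fun x hx => by
    have a1 : ‖x‖ ≤ R := le_of_not_ge fun a => absurd (hR x a) (not_lt.2 hx)
    have a2 : ‖gradient φ x‖ ≤ |C| := (hC x hx).trans (le_abs_self C)
    have a3 : ‖-(t • gradient φ x)‖ = t * ‖gradient φ x‖ := by
      rw [norm_neg, norm_smul, Real.norm_of_nonneg ht.1.le]
    have a4 := Dyn.descent' (h.smooth.differentiable (by simp))
      (convex_closedBall (0 : U) (R + |C|)) hL0
      (fun w hw w' hw' => hL w w' (mem_closedBall_zero_iff.1 hw) (mem_closedBall_zero_iff.1 hw'))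
      (w := x) (h := -(t • gradient φ x))
      (mem_closedBall_zero_iff.2 (by linarith [abs_nonneg C]))
      (mem_closedBall_zero_iff.2 ((norm_add_le _ _).trans (by
        rw [a3]
        nlinarith [norm_nonneg (gradient φ x)])))
    rw [a3, map_neg, map_smul, ← Top.inner_gradient, real_inner_self_eq_norm_sq,
      ← sub_eq_add_neg, smul_eq_mul] at a4
    have a5 : 0 < t * (1 - t * L) := mul_pos ht.1 (by nlinarith [ht.1])
    rcases hx.eq_or_lt with a6 | a6
    · have a7 : 0 < ‖gradient φ x‖ := norm_pos_iff.2 fun a => h.reg x a6 (by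
        ext v
        rw [← Top.inner_gradient, a, inner_zero_left]
        rfl)
      nlinarith [mul_pos a5 (pow_pos a7 2)]
    · nlinarith [mul_nonneg a5.le (sq_nonneg ‖gradient φ x‖)]
  obtain ⟨e, he, h3⟩ := h.compact.exists_forall_le' (a := 0)
    (f := fun x => -φ (x - t • gradient φ x))
    (h.smooth.continuous.comp (by fun_prop)).neg.continuousOn key
  exact ⟨e, he, fun x hx => by linarith [h3 x hx]⟩

theorem co_io (l : ZMod 5) (u : U1) : co (ioU l u) = emb l u := co.apply_symm_apply _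

theorem left (l : ZMod 5) (u : U1) : prU (ioU l u) = u := by
  rw [prU_apply, co_io]
  simp [emb, om_zero]

theorem isSt : Tb.IsSt rhoU ioU fun _ => prU := by
  refine ⟨left, fun l x => ⟨?_, fun h => ⟨prU x, co.injective ?_⟩⟩, fun l z => co.injective ?_⟩
  · rintro ⟨u, rfl⟩
    refine co.injective ?_
    rw [co_rhoU, co_io]
    refine Prod.ext rfl (Prod.ext rfl (funext fun i => ?_))
    show (om l : ℂ) * (om (l * (i - 1)) * u.2.2) = om (l * i) * u.2.2
    rw [← mul_assoc, ← om_add, mul_sub, mul_one, add_sub_cancel]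
  · have h1 : ∀ i, (om l : ℂ) * (co x).2.2 (i - 1) = (co x).2.2 i := fun i =>
      congrArg (fun y : UU => (co y).2.2 i) h
    have h2 : ∀ n : ℕ, (om (l * n) : ℂ) * (co x).2.2 0 = (co x).2.2 n := fun n => by
      induction n with
      | zero => simp [om_zero]
      | succ n ih =>
        rw [Nat.cast_succ, ← h1 (n + 1), add_sub_cancel_right, ← ih, mul_add, mul_one, add_comm, om_add,
          mul_assoc]
    rw [co_io]
    refine Prod.ext rfl (Prod.ext rfl (funext fun i => ?_))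
    have h3 := h2 i.val
    rw [ZMod.natCast_zmod_val] at h3
    exact h3
  · rw [co_rhoU, co_io, co_io]
    refine Prod.ext rfl (Prod.ext rfl (funext fun i => ?_))
    show (om 1 : ℂ) * (om (l * (i - 0)) * z.2.2) = om (l * i) * (om 1 * z.2.2)
    rw [sub_zero, mul_left_comm]

theorem phi_io (l : ZMod 5) (u : U1) : phi0 (ioU l u) = F1 u := by
  rw [phi0, co_io, M1.F0_emb]

theorem isReg (hr : StReg) : Top.IsReg phi0 := by
  refine ⟨phi0_smooth, phi0_bdd, fun x hx h0 => ?_⟩
  have h1 : FF (1, 1, 0, 0, 7) = phi0 ∘ co.symm := funext fun u => by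
    rw [Function.comp_apply, phi0, co.apply_symm_apply, F0_eq le_rfl]
  refine hr (1, 1, 0, 0, 7) ⟨by simp, by simp, by simp, le_rfl, Or.inr rfl, Or.inl rfl,
    Or.inl le_rfl⟩ (co x) (by rw [← F0_eq le_rfl]; exact hx) ?_
  rw [h1, co.symm.comp_right_fderiv, co.symm_apply_apply, h0, ContinuousLinearMap.zero_comp]

theorem grad_rho (g : G5) (x : UU) : gradient phi0 (rhoU g x) = rhoU g (gradient phi0 x) :=
  Top.gradient_equi (phi0_smooth.differentiable (by simp)) (rhoU g) (phi0_inv g) x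

theorem io_grad (l : ZMod 5) (u : U1) :
    ioU l (prU (gradient phi0 (ioU l u))) = gradient phi0 (ioU l u) := by
  obtain ⟨v, hv⟩ : gradient phi0 (ioU l u) ∈ range (ioU l) := by
    rw [isSt.fix, ← grad_rho, (isSt.fix l _).1 ⟨u, rfl⟩]
  rw [← hv, left]

theorem grad_rot (l : ZMod 5) (u : U1) : prU (gradient phi0 (ioU l (Tb.rot1 1 u))) =
    Tb.rot1 1 (prU (gradient phi0 (ioU l u))) := by
  rw [← isSt.act, grad_rho]
  rfl

theorem isPush (hr : StReg) (l : ZMod 5) : IsPush fun u => prU (gradient phi0 (ioU l u)) := by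
  have hs : ContDiff ℝ ∞ (gradient phi0) := Top.contDiff_gradient phi0_smooth
  refine ⟨prU.continuous.comp (hs.continuous.comp (ioU l).continuous), grad_rot l, ?_, ?_⟩
  · obtain ⟨L, hL0, hL⟩ := Top.exists_lip hs (‖ioU l‖ * 9)
    refine ⟨‖prU‖ * (L * ‖ioU l‖), fun u hu => ?_⟩
    have h1 := (M1.norm_lt hu).le
    have h2 : ‖((u.1, u.2.1, 0) : U1)‖ ≤ 9 := by
      refine le_trans ?_ h1
      simp only [Prod.norm_def, norm_zero]
      exact max_le_max le_rfl (max_le_max le_rfl (norm_nonneg _))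
    have h3 : (prU (gradient phi0 (ioU l (u.1, u.2.1, 0)))).2.2 = 0 := by
      have a1 := congrArg (fun z : U1 => z.2.2) (grad_rot l (u.1, u.2.1, 0))
      simp only [Tb.rot1_apply, mul_zero] at a1
      by_contra a2
      have a3 : om 1 = om 0 := Circle.ext (by
        rw [om_zero]
        exact mul_right_cancel₀ a2 (a1.symm.trans (one_mul _).symm))
      exact absurd (ZMod.injective_toCircle a3) (by decide)
    have hb : ∀ z : U1, ‖z‖ ≤ 9 → ‖ioU l z‖ ≤ ‖ioU l‖ * 9 := fun z hz =>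
      (ioU l).le_opNorm_of_le hz
    have h4 := hL _ _ (hb _ h1) (hb _ h2)
    have h5 : ‖u - (u.1, u.2.1, 0)‖ = ‖u.2.2‖ := by simp [Prod.norm_def]
    have h6 := (ioU l).le_opNorm (u - (u.1, u.2.1, 0))
    have h7 := prU.le_opNorm (gradient phi0 (ioU l u) - gradient phi0 (ioU l (u.1, u.2.1, 0)))
    rw [h5, map_sub] at h6
    calc ‖(prU (gradient phi0 (ioU l u))).2.2‖
        = ‖(prU (gradient phi0 (ioU l u) - gradient phi0 (ioU l (u.1, u.2.1, 0)))).2.2‖ := by
          rw [map_sub, Prod.snd_sub, Prod.snd_sub, h3, sub_zero]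
      _ ≤ ‖prU (gradient phi0 (ioU l u) - gradient phi0 (ioU l (u.1, u.2.1, 0)))‖ :=
          (norm_snd_le _).trans (norm_snd_le _)
      _ ≤ ‖prU‖ * (L * (‖ioU l‖ * ‖u.2.2‖)) :=
          h7.trans (mul_le_mul_of_nonneg_left (h4.trans (mul_le_mul_of_nonneg_left h6 hL0))
            (norm_nonneg _))
      _ = _ := by ring
  · obtain ⟨t₀, h0, h⟩ := push (isReg hr)
    refine ⟨t₀, h0, fun t ht => ?_⟩
    obtain ⟨e, he, h1⟩ := h t ht
    refine ⟨e, he, fun u hu => ?_⟩
    rw [← phi_io l, map_sub, map_smul, io_grad]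
    exact h1 _ (by rwa [phi_io])

theorem norm_prp (l : ZMod 5) (u : U1) : ‖ioU l (Tb.prp u)‖ = √5 * ‖u.2.2‖ := by
  have h1 : ‖ioU l (Tb.prp u)‖ ^ 2 = 5 * ‖u.2.2‖ ^ 2 := by
    have a1 : ∀ i, (ioU l (Tb.prp u)).fst i = 0 := fun i => by fin_cases i <;> rfl
    have a2 : ∀ i, (ioU l (Tb.prp u)).snd i = om (l * i) * u.2.2 := fun i => rfl
    rw [WithLp.prod_norm_sq_eq_of_L2, EuclideanSpace.norm_sq_eq, EuclideanSpace.norm_sq_eq]
    simp [a1, a2, Circle.norm_coe]
  rw [← Real.sqrt_sq (norm_nonneg (ioU l (Tb.prp u))), h1, Real.sqrt_mul (by norm_num),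
    Real.sqrt_sq (norm_nonneg _)]

theorem smap_eq (l : ZMod 5) (K : ℕ) (j : ZMod 5) (t d : ℝ) :
    Tb.smap phi0 (mU K) (ioU l) prU j t d =
      sm1 K (fun u => prU (gradient phi0 (ioU l u))) j t (d / √5) := by
  funext y
  have h1 : mU K (y.1, ioU l y.2) = ioU l (m1 K ((20 * K + 3) * y.1 - 1) y.2) := by
    rw [mU, co_io, M1.m0_emb]
    rfl
  rw [Tb.smap, sm1, h1, Tb.stp, map_sub, map_smul, left, norm_prp, div_div]

end St

theorem stSt (hr : StReg) : StSt :=
  ⟨St.isSt, fun l => ⟨St.phi_io l, St.isPush hr l, St.smap_eq l⟩⟩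

end Vale.Agent.P220Z.Hs
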