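import Vale.Agent.P220Z.Hs.Sk
import Vale.Agent.P220Z.Hs.Smo
import Vale.Agent.P220Z.Rig.Ful

/-!
# P220, the suspended horseshoe: all zeros of the loop are on the handle
-/

open Set Topology

namespace Vale.Agent.P220Z.Hs

open Vale.Agent.P220Z.Def Sm

namespace Wa

theorem cl_mem (x : ℝ) : cl x ∈ Icc (0 : ℝ) 1 :=
  ⟨le_max_left _ _, max_le zero_le_one (min_le_left _ _)⟩

theorem cl_zero {x : ℝ} (h : x ≤ 0) : cl x = 0 := max_eq_left ((min_le_right _ _).trans h)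

theorem le_of_cl {x : ℝ} (h : cl x = 1) : 1 ≤ x := by
  by_contra h1
  have : cl x < 1 := max_lt one_pos ((min_le_right _ _).trans_lt (not_le.1 h1))
  exact this.ne h

theorem clp_self (y : ℝ) : clp y y = y := by
  rw [clp, min_eq_right ((le_abs_self y).trans (le_max_right _ _)), max_eq_right]
  linarith [neg_abs_le y, le_max_right 8 |y|]

theorem norm_ec (t : ℝ) : ‖ec t‖ = 1 := Complex.norm_exp_ofReal_mul_I _

theorem ch1_mem (x : ℝ) : ch1 x ∈ Icc (0 : ℝ) 1 :=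
  ⟨mul_nonneg (st_nonneg _ _ _) (sub_nonneg.2 (st_le_one _ _ _)),
    mul_le_one₀ (st_le_one _ _ _) (sub_nonneg.2 (st_le_one _ _ _))
      (sub_le_self _ (st_nonneg _ _ _))⟩

theorem norm_mm (l : ZMod 5 → ℝ) (t t' x : ℝ) (i : ZMod 5) : ‖mm l t t' x i‖ ≤ 1 := by
  have h := ch1_mem x
  have e : ∀ z : ℂ, 1 + ch1 x * (z - 1) = ((1 - ch1 x : ℝ) : ℂ) + ch1 x * z := fun z => by
    push_cast
    ring
  rw [mm, e]
  refine (norm_add_le _ _).trans ?_
  rw [norm_mul, norm_ec, Complex.norm_real, Complex.norm_real, Real.norm_of_nonneg h.1,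
    Real.norm_of_nonneg (sub_nonneg.2 h.2)]
  linarith

theorem norm_evm (θ s : ℝ) (n : ℕ) (p : ℝ × ℝ) : ‖evm θ s n p‖ ≤ 1 := by
  induction n with
  | zero => simp [evm]
  | succ n ih =>
    rw [evm, norm_mul]
    exact mul_le_one₀ (norm_mm _ _ _ _ _) (norm_nonneg _) ih

theorem evm_zero (θ : ℝ) (n : ℕ) (p : ℝ × ℝ) : evm θ 0 n p = 1 := by
  induction n with
  | zero => rfl
  | succ n ih => simp [evm, ih, mm, ec_zero]

theorem int_of_ec {t : ℝ} (h : ec t = 1) : ∃ n : ℤ, t = n := by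
  obtain ⟨n, hn⟩ := Complex.exp_eq_one_iff.1 h
  refine ⟨n, ?_⟩
  have h1 := congrArg Complex.im hn
  simp at h1
  have := Real.pi_pos
  exact mul_left_cancel₀ (a := 2 * Real.pi) (by positivity) (by linarith)

/-- the multiplier of the last coordinate -/
noncomputable def M (K : ℕ) (t : ℝ) (u : U1) : ℂ := (m1 K t (u.1, u.2.1, 1)).2.2

theorem M_eq (K : ℕ) (t : ℝ) (u : U1) : M K t u =
    k2 u.1 * evm (th u.1) (tm K t) (K + 2) u.2.1 + (cl (-t) * (1 - k2 u.1) : ℝ) := by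
  simp [M, m1]

theorem m1_c (K : ℕ) (t : ℝ) (u : U1) : (m1 K t u).2.2 = M K t u * u.2.2 := by
  rw [M_eq]
  simp [m1]
  ring

theorem norm_M (K : ℕ) (t : ℝ) (u : U1) : ‖M K t u‖ ≤ 1 := by
  have h1 : k2 u.1 ∈ Icc (0 : ℝ) 1 := cl_mem _
  have h2 := cl_mem (-t)
  have h3 := norm_evm (th u.1) (tm K t) (K + 2) u.2.1
  rw [M_eq]
  refine (norm_add_le _ _).trans ?_
  rw [norm_mul, Complex.norm_real, Complex.norm_real, Real.norm_of_nonneg h1.1,
    Real.norm_of_nonneg (mul_nonneg h2.1 (sub_nonneg.2 h1.2))]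
  nlinarith [h1.1, h1.2, h2.1, h2.2, mul_nonneg h1.1 (sub_nonneg.2 h3),
    mul_nonneg (sub_nonneg.2 h2.2) (sub_nonneg.2 h1.2)]

theorem om_ne {j : ZMod 5} (hj : j ≠ 0) : (om j : ℂ) ≠ 1 := fun h =>
  hj (ZMod.injective_toCircle (Subtype.ext (h.trans (by simp))))

theorem handle_nonneg (u : U1) : 0 ≤ chi (‖u.1‖ ^ 2) * (mu0 0 0 (th u.1) u.2.1.1 u.2.1.2 *
    (5 * (‖u.2.2‖ ^ 2 - 1) ^ 2 + ‖u.2.2 ^ 5 - kk (th u.1) u.2.1.1‖ ^ 2 + oo (‖u.1‖ ^ 2))) :=
  mul_nonneg (chi_nonneg _) (mul_nonneg (mu0_mem _ _ _ _ _).1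
    (add_nonneg (by positivity) (oo_nonneg _)))

theorem abs_le_of_ps {x : ℝ} (h : ps (x ^ 2) ≤ 1 / 4) : |x| ≤ 9 := by
  by_contra h1
  have h2 : 81 ≤ x ^ 2 := by nlinarith [not_le.1 h1, sq_abs x]
  rw [ps_one (by linarith)] at h
  linarith

theorem abs_le {u : U1} (h : F1 u ≤ 0) : |u.2.1.1| ≤ 9 ∧ |u.2.1.2| ≤ 9 := by
  have h1 := handle_nonneg u
  have h2 := ps_nonneg (‖u.1‖ ^ 2)
  have h3 := ps_nonneg (u.2.1.1 ^ 2)
  have h4 := ps_nonneg (u.2.1.2 ^ 2)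
  have h5 := ps_nonneg (5 * ‖u.2.2‖ ^ 2)
  rw [F1] at h
  exact ⟨abs_le_of_ps (by linarith), abs_le_of_ps (by linarith)⟩

theorem chi_one {w : ℂ} (h : 1 / 2 ≤ ‖w‖) : chi (‖w‖ ^ 2) = 1 :=
  st_one (by norm_num) (by nlinarith)

/-- the weight of the handle is continuous -/
theorem cont_mu (h : Continuous F1) :
    Continuous fun u : U1 => chi (‖u.1‖ ^ 2) * mu0 0 0 (th u.1) u.2.1.1 u.2.1.2 := by
  have e : ∀ u : U1, chi (‖u.1‖ ^ 2) * mu0 0 0 (th u.1) u.2.1.1 u.2.1.2 =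
      (2 * F1 (u.1, u.2.1, 0) - F1 (u.1, u.2.1, 1) - F1 (u.1, u.2.1, -1)) / 8 := fun u => by
    have h1 := parallelogram_law_with_norm ℝ (1 : ℂ) (kk (th u.1) u.2.1.1)
    have h2 : ‖(-1 : ℂ) ^ 5 - kk (th u.1) u.2.1.1‖ = ‖1 + kk (th u.1) u.2.1.1‖ := by
      rw [← norm_neg]
      congr 1
      ring
    simp only [F1, h2, norm_zero, norm_one, norm_neg, one_pow, ne_eq, OfNat.ofNat_ne_zero,
      not_false_eq_true, zero_pow, zero_sub, mul_zero, mul_one,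
      ps_zero (show (0 : ℝ) ≤ 64 by norm_num), ps_zero (show (5 : ℝ) ≤ 64 by norm_num)]
    rw [norm_one] at h1
    linear_combination (chi (‖u.1‖ ^ 2) * mu0 0 0 (th u.1) u.2.1.1 u.2.1.2 / 8) * h1
  simp only [e]
  fun_prop

theorem isOpen_handle (h : Continuous F1) :
    IsOpen {u : U1 | 1 / 2 < ‖u.1‖ ∧ 1 / 2 < mu0 0 0 (th u.1) u.2.1.1 u.2.1.2} := by
  have h1 := (isOpen_lt continuous_const (continuous_norm.comp continuous_fst) :
    IsOpen {u : U1 | 1 / 2 < ‖u.1‖}).inter (isOpen_lt (continuous_const (y := 1 / 2)) (cont_mu h))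
  convert h1 using 1
  ext u
  exact and_congr_right fun hu => by rw [mem_ofPred_eq, chi_one (le_of_lt hu), one_mul]

/-- the limit set -/
theorem limit (hp : StPer) {K : ℕ} {j : ZMod 5} (hj : j ≠ 0) {t : ℝ} (ht : t ≤ 20 * K + 2) {u : U1}
    (hu : F1 u ≤ 0) (h1 : (m1 K t u).1 = u.1) (h2 : (m1 K t u).2.1 = u.2.1)
    (h3 : M K t u = om j) : 1 / 2 < ‖u.1‖ ∧ mu0 0 0 (th u.1) u.2.1.1 u.2.1.2 = 1 := by
  have k1m : k1 u.1 ∈ Icc (0 : ℝ) 1 := cl_mem _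
  have k2m : k2 u.1 ∈ Icc (0 : ℝ) 1 := cl_mem _
  have hn : ‖M K t u‖ = 1 := by rw [h3, Circle.norm_coe]
  rcases le_or_gt t 0 with h0 | h0
  · have e : tm K t = 0 := max_eq_left ((min_le_right _ _).trans h0)
    have h4 := M_eq K t u
    rw [e, evm_zero, mul_one, ← Complex.ofReal_add] at h4
    rw [h4, Complex.norm_real, Real.norm_of_nonneg (add_nonneg k2m.1
      (mul_nonneg (cl_mem _).1 (sub_nonneg.2 k2m.2)))] at hn
    exact absurd (by rw [← h3, h4, hn, Complex.ofReal_one]) (om_ne hj)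
  have e : tm K t = t := by rw [tm, min_eq_right ht, max_eq_right h0.le]
  have c0 : cl (-t) = 0 := cl_zero (by linarith)
  have h4 := M_eq K t u
  rw [e, c0, zero_mul, Complex.ofReal_zero, add_zero] at h4
  have e2 : k2 u.1 = 1 := by
    rw [h4, norm_mul, Complex.norm_real, Real.norm_of_nonneg k2m.1] at hn
    nlinarith [norm_evm (th u.1) t (K + 2) u.2.1, k2m.1, k2m.2]
  have hw : u.1 ≠ 0 := fun h => by
    have := le_of_cl e2
    rw [h, norm_zero] at this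
    linarith
  simp only [m1, e, c0, zero_mul, add_zero, e2, one_smul, zero_smul] at h1 h2
  have e1 : k1 u.1 = 1 := by
    have := congrArg norm h1
    rw [norm_smul, norm_mul, norm_ec, one_mul, Real.norm_of_nonneg k1m.1] at this
    exact (mul_left_eq_self₀.1 this).resolve_right (norm_ne_zero_iff.2 hw)
  rw [e1, one_smul] at h1
  obtain ⟨n, hn'⟩ := int_of_ec ((mul_left_eq_self₀.1 h1).resolve_right hw)
  have n0 : 0 < n := by
    have : (0 : ℝ) < n := by linarith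
    exact_mod_cast this
  obtain ⟨i, rfl⟩ := Int.eq_ofNat_of_zero_le n0.le
  have e3 : t = 20 * i := by
    push_cast at hn'
    linarith
  have i2 : i < K + 2 := by
    have : (i : ℝ) < K + 2 := by linarith
    exact_mod_cast this
  rw [h3, e3] at h4
  rw [e3] at h2
  have hr : 1 / 2 ≤ ‖u.1‖ := by linarith [le_of_cl e1]
  rcases hp _ ⟨th_pos u.1, th_le u.1⟩ i (K + 2) (by omega) i2 _ (abs_le hu).1 (abs_le hu).2 h2
    with h5 | h5
  · refine ⟨hr.lt_of_ne fun h6 => ?_, h5.1⟩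
    have h7 : oo (‖u.1‖ ^ 2) = 2 := by
      rw [oo, ← h6, st_zero (by norm_num) (by norm_num)]
      ring
    rw [F1, chi_one hr, h5.1, h7] at hu
    nlinarith [ps_nonneg (‖u.1‖ ^ 2), ps_nonneg (u.2.1.1 ^ 2), ps_nonneg (u.2.1.2 ^ 2),
      ps_nonneg (5 * ‖u.2.2‖ ^ 2), sq_nonneg (‖u.2.2‖ ^ 2 - 1),
      sq_nonneg ‖u.2.2 ^ 5 - kk (th u.1) u.2.1.1‖]
  · rw [h5.2, e2, Complex.ofReal_one, one_mul] at h4
    exact absurd h4 (om_ne hj)

/-- the estimate for the multiplier -/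
theorem mult {c m y ζ : ℂ} {t δ L : ℝ} (hc : c ≠ 0) (hζ : ‖ζ‖ = 1) (hm : ‖m‖ ≤ 1) (ht : 0 < t)
    (hδ : 0 < δ) (hy : ‖y‖ ≤ L * ‖m * c‖)
    (h : ζ * c - (m * c - t * y) + ζ * ((δ / ‖c‖ : ℝ) * c) = 0) : ‖ζ - m‖ ≤ 2 * |L| * t := by
  have h0 : 0 < ‖c‖ := norm_pos_iff.2 hc
  have h1 : ‖m * c‖ ≤ ‖c‖ := by
    rw [norm_mul]
    exact mul_le_of_le_one_left h0.le hm
  have h2 : ‖t * y‖ ≤ |L| * t * ‖c‖ := by
    rw [norm_mul, Complex.norm_real, Real.norm_of_nonneg ht.le]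
    have := hy.trans (mul_le_mul (le_abs_self L) h1 (norm_nonneg _) (abs_nonneg L))
    nlinarith
  have h3 : ‖ζ * ((δ / ‖c‖ : ℝ) * c)‖ = δ := by
    rw [norm_mul, norm_mul, hζ, Complex.norm_real, Real.norm_of_nonneg (div_pos hδ h0).le, one_mul,
      div_mul_cancel₀ _ h0.ne']
  have h4 : ‖ζ * ((1 + δ / ‖c‖ : ℝ) * c)‖ = ‖c‖ + δ := by
    rw [norm_mul, norm_mul, hζ, Complex.norm_real, Real.norm_of_nonneg (by positivity), one_mul,
      add_mul, one_mul, div_mul_cancel₀ _ h0.ne']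
  have h5 : ζ * ((1 + δ / ‖c‖ : ℝ) * c) = m * c - t * y := by
    push_cast at h ⊢
    linear_combination h
  have h6 := norm_sub_le (m * c) (t * y)
  rw [← h5, h4] at h6
  have h7 : (ζ - m) * c = -(t * y + ζ * ((δ / ‖c‖ : ℝ) * c)) := by linear_combination h
  have h8 := norm_add_le (t * y) (ζ * ((δ / ‖c‖ : ℝ) * c))
  rw [← norm_neg, ← h7, h3, norm_mul] at h8
  exact le_of_mul_le_mul_right (by linarith) h0

end Wa

open Wa in
theorem stWa (hp : StPer) (hm : StM1) : StWa := by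
  intro K Y j hj hY
  obtain ⟨hc, hmem, hF, hE⟩ := hm K
  obtain ⟨L, hL⟩ := hY.lip
  obtain ⟨B, hB⟩ := hE.exists_bound_of_continuousOn hY.cont.continuousOn
  have hT : Continuous fun y : ℝ × U1 => m1 K ((20 * K + 3) * y.1 - 1) y.2 :=
    hc.comp (f := fun y : ℝ × U1 => ((20 * K + 3) * y.1 - 1, y.2)) (by fun_prop)
  have hM : Continuous fun y : ℝ × U1 => M K ((20 * K + 3) * y.1 - 1) y.2 :=
    (hc.comp (f := fun y : ℝ × U1 => ((20 * K + 3) * y.1 - 1, y.2.1, y.2.2.1, 1))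
      (by fun_prop)).snd.snd
  obtain ⟨η, hη, key⟩ := Rig.small_d (Icc (0 : ℝ) 1 ×ˢ {u | F1 u ≤ 0}) (isCompact_Icc.prod hE)
    (fun y : ℝ × U1 => ((y.2.1 - (m1 K ((20 * K + 3) * y.1 - 1) y.2).1,
      y.2.2.1 - (m1 K ((20 * K + 3) * y.1 - 1) y.2).2.1,
      om j - M K ((20 * K + 3) * y.1 - 1) y.2) : U1))
    ((continuous_snd.fst.sub hT.fst).prodMk ((continuous_snd.snd.fst.sub hT.snd.fst).prodMk
      (continuous_const.sub hM))).continuousOn
    {y | 1 / 2 < ‖y.2.1‖ ∧ 1 / 2 < mu0 0 0 (th y.2.1) y.2.2.1.1 y.2.2.1.2} fun y hy h0 => by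
      simp only [Prod.mk_eq_zero, sub_eq_zero] at h0
      have := limit hp hj (t := (20 * K + 3) * y.1 - 1)
        (by nlinarith [hy.1.2, (Nat.cast_nonneg K : (0 : ℝ) ≤ K)]) hy.2 h0.1.symm h0.2.1.symm
        h0.2.2.symm
      exact mem_nhdsWithin_of_mem_nhds (((isOpen_handle hF).preimage continuous_snd).mem_nhds
        ⟨this.1, by rw [this.2]; norm_num⟩)
  have hC : 0 < |B| + 2 * |L| + 1 := by positivity
  refine ⟨η / (|B| + 2 * |L| + 1), div_pos hη hC, fun t ht => ⟨1, one_pos, fun δ hδ y hy h0 => ?_⟩⟩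
  refine ⟨hy, key y ⟨Ioo_subset_Icc_self hy.1, hy.2.1.le⟩ ?_⟩
  have h1 := (lt_div_iff₀ hC).1 ht.2
  set u' := m1 K ((20 * K + 3) * y.1 - 1) y.2 with hu'
  have h2 : ‖t • Y u'‖ ≤ η := by
    rw [norm_smul, Real.norm_of_nonneg ht.1.le]
    nlinarith [hB u' (hmem _ _ hy.2.1.le), le_abs_self B, abs_nonneg L, ht.1]
  have h3 : y.2.1 - u'.1 = -(t • Y u').1 := by
    have := congrArg Prod.fst h0
    simp only [sm1, Tb.prp, Tb.rot1_apply, ← hu', Prod.fst_add, Prod.fst_sub, Prod.smul_fst,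
      smul_zero, add_zero, Prod.fst_zero] at this
    rw [Prod.smul_fst]
    linear_combination this
  have h4 : y.2.2.1 - u'.2.1 = -(t • Y u').2.1 := by
    have := congrArg (fun z : U1 => z.2.1) h0
    simp only [sm1, Tb.prp, Tb.rot1_apply, ← hu', Prod.fst_add, Prod.fst_sub, Prod.smul_fst,
      Prod.snd_add, Prod.snd_sub, Prod.smul_snd, smul_zero, add_zero, Prod.fst_zero,
      Prod.snd_zero] at this
    rw [Prod.smul_snd, Prod.smul_fst, eq_neg_iff_add_eq_zero, ← this]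
    abel
  have h5 : ‖(om j : ℂ) - M K ((20 * K + 3) * y.1 - 1) y.2‖ ≤ 2 * |L| * t := by
    have := congrArg (fun z : U1 => z.2.2) h0
    simp only [sm1, Tb.prp, Tb.rot1_apply, ← hu', Prod.smul_snd, Prod.snd_add, Prod.snd_sub,
      Prod.snd_zero, Complex.real_smul] at this
    have e : (om j : ℂ) * om (-j) = 1 := by simp [om, AddChar.map_neg_eq_inv]
    have h6 := hL u' (hmem _ _ hy.2.1.le)
    have h7 : u'.2.2 = _ := m1_c K _ y.2
    rw [h7] at h6 this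
    refine mult hy.2.2 (Circle.norm_coe _) (norm_M _ _ _) ht.1 hδ.1 h6 ?_
    linear_combination (om j : ℂ) * this +
      (M K ((20 * K + 3) * y.1 - 1) y.2 * y.2.2.2 - t * (Y u').2.2) * e
  rw [h3, h4, Prod.norm_mk, Prod.norm_mk, norm_neg, norm_neg]
  refine max_le ((norm_fst_le _).trans h2) (max_le
    ((norm_fst_le _).trans ((norm_snd_le _).trans h2)) (h5.trans ?_))
  nlinarith [abs_nonneg B, ht.1]

end Vale.Agent.P220Z.Hs
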