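import Vale.Agent.P220Z.Hs.EvDefs

/-!
# P220, horseshoe model: one factor with the weights zero does not increase the handle term
-/

open Set

namespace Vale.Agent.P220Z.Hs

namespace Fc

theorem st_nonneg (a b t : ℝ) : 0 ≤ st a b t := Real.smoothTransition.nonneg _

theorem st_le_one (a b t : ℝ) : st a b t ≤ 1 := Real.smoothTransition.le_one _

theorem st_zero {a b t : ℝ} (h : a < b) (ht : t ≤ a) : st a b t = 0 :=
  Real.smoothTransition.zero_of_nonpos (div_nonpos_of_nonpos_of_nonneg (by linarith) (by linarith))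

theorem st_one {a b t : ℝ} (h : a < b) (ht : b ≤ t) : st a b t = 1 :=
  Real.smoothTransition.one_of_one_le ((one_le_div (by linarith)).2 (by linarith))

theorem st_mono {a b t t' : ℝ} (h : a < b) (ht : t ≤ t') : st a b t ≤ st a b t' :=
  Real.smoothTransition.monotone (div_le_div_of_nonneg_right (by linarith) (by linarith))

theorem bp_nonneg (t : ℝ) : 0 ≤ bp t := sub_nonneg.2 (st_le_one _ _ _)

theorem bp_le_one (t : ℝ) : bp t ≤ 1 := sub_le_self _ (st_nonneg _ _ _)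

theorem bp_one {t : ℝ} (h : |t| ≤ 1) : bp t = 1 := by
  have h1 : t ^ 2 ≤ 1 := by
    rw [← sq_abs]
    nlinarith [abs_nonneg t]
  rw [bp, st_zero (by norm_num) h1, sub_zero]

theorem bp_zero {t : ℝ} (h : 2 ≤ |t|) : bp t = 0 := by
  have h1 : 4 ≤ t ^ 2 := by
    rw [← sq_abs]
    nlinarith
  rw [bp, st_one (by norm_num) h1, sub_self]

theorem lt_of_bp {t : ℝ} (h : bp t ≠ 0) : |t| < 2 := by
  by_contra h'
  exact h (bp_zero (not_lt.1 h'))

theorem tent_far {x : ℝ} (h : 1 / 4 ≤ |x|) : tent x = 100 * (1 / 2 - |x|) := by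
  rcases le_total 0 x with h0 | h0
  · rw [abs_of_nonneg h0] at h ⊢
    rw [tent, st_one (by norm_num) h]
    ring
  · rw [abs_of_nonpos h0] at h ⊢
    rw [tent, st_zero (by norm_num) (by linarith)]
    ring

theorem tent_near {x : ℝ} (h : |x| ≤ 1 / 4) : 25 ≤ tent x := by
  have h0 := st_nonneg (-1 / 4) (1 / 4) x
  have h1 := st_le_one (-1 / 4) (1 / 4) x
  obtain ⟨h2, h3⟩ := abs_le.1 h
  have h4 : x * (2 * st (-1 / 4) (1 / 4) x - 1) ≤ 1 / 4 := by nlinarith
  rw [tent]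
  linarith

/-- a small value of the tent puts the point on one of the two strips -/
theorem strip {x : ℝ} (h : |tent x| < 20) : 3 / 10 < |x| ∧ |x| < 7 / 10 := by
  obtain ⟨h1, h2⟩ := abs_lt.1 h
  rcases le_total |x| (1 / 4) with h0 | h0
  · linarith [tent_near h0]
  · rw [tent_far h0] at h1 h2
    constructor <;> linarith

theorem ch1_cases {x : ℝ} (h1 : 1 / 4 ≤ |x|) (h2 : |x| ≤ 3 / 4) : ch1 x = 0 ∨ ch1 x = 1 := by
  rcases le_total 0 x with h0 | h0
  · left
    rw [ch1, st_one (a := -1 / 4) (by norm_num) h0, sub_self, mul_zero]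
  · right
    rw [abs_of_nonpos h0] at h1 h2
    rw [ch1, st_one (by norm_num) (by linarith), st_zero (by norm_num) (by linarith)]
    norm_num

theorem clp_self (y : ℝ) : clp y y = y := by
  have h1 : y ≤ max 8 |y| := (le_abs_self y).trans (le_max_right _ _)
  have h2 : -max 8 |y| ≤ y := by linarith [neg_abs_le y, le_max_right 8 |y|]
  rw [clp, min_eq_right h1, max_eq_right h2]

/-- a clamped point is far out, and stays far out when it is moved on in the same direction -/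
theorem clp_cases (y T : ℝ) {d : ℝ} (hd : 0 ≤ d) :
    clp y (y + d * T) = y + d * T ∨ ∀ a, 0 ≤ a → 8 ≤ |clp y (y + d * T) + a * T| := by
  have h1 : y ≤ max 8 |y| := (le_abs_self y).trans (le_max_right _ _)
  have h2 : -max 8 |y| ≤ y := by linarith [neg_abs_le y, le_max_right 8 |y|]
  have h3 : (8 : ℝ) ≤ max 8 |y| := le_max_left _ _
  rcases le_or_gt (y + d * T) (max 8 |y|) with h4 | h4
  · rcases le_or_gt (-max 8 |y|) (y + d * T) with h5 | h5
    · left
      rw [clp, min_eq_right h4, max_eq_right h5]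
    · right
      intro a ha
      have hT : T ≤ 0 := by
        by_contra h
        have := mul_nonneg hd (not_le.1 h).le
        linarith
      have := mul_nonpos_of_nonneg_of_nonpos ha hT
      rw [clp, min_eq_right h4, max_eq_left h5.le]
      exact le_abs.2 (Or.inr (by linarith))
  · right
    intro a ha
    have hT : 0 ≤ T := by
      by_contra h
      have := mul_nonpos_of_nonneg_of_nonpos hd (not_le.1 h).le
      linarith
    have := mul_nonneg ha hT
    rw [clp, min_eq_left h4.le, max_eq_right (by linarith)]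
    exact le_abs.2 (Or.inl (by linarith))

theorem bp_clp (y T : ℝ) {d a : ℝ} (hd : 0 ≤ d) (ha : 0 ≤ a) :
    bp (clp y (y + d * T) + a * T) ≤ bp (y + (d + a) * T) := by
  rcases clp_cases y T hd with h | h
  · rw [h, add_mul, add_assoc]
  · rw [bp_zero (by linarith [h a ha])]
    exact bp_nonneg _

theorem aA_eq (t : ℝ) : aA 0 t = 1 - st 7 9 t := by simp [aA]

theorem aA_nonneg (t : ℝ) : 0 ≤ aA 0 t := by
  rw [aA_eq]
  exact sub_nonneg.2 (st_le_one _ _ _)

theorem aA_anti {t t' : ℝ} (h : t ≤ t') : 0 ≤ aA 0 t - aA 0 t' := by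
  rw [aA_eq, aA_eq]
  linarith [st_mono (a := 7) (b := 9) (by norm_num) h]

theorem aA_one {t : ℝ} (h : t ≤ 7) : aA 0 t = 1 := by
  rw [aA_eq, st_zero (by norm_num) h, sub_zero]

theorem aA_zero {t : ℝ} (h : 9 ≤ t) : aA 0 t = 0 := by
  rw [aA_eq, st_one (by norm_num) h, sub_self]

theorem aB_nonneg (t : ℝ) : 0 ≤ aB t := sub_nonneg.2 (st_le_one _ _ _)

theorem aB_anti {t t' : ℝ} (h : t ≤ t') : 0 ≤ aB t - aB t' := by
  rw [aB, aB]
  linarith [st_mono (a := 17) (b := 19) (by norm_num) h]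

theorem aB_one {t : ℝ} (h : t ≤ 17) : aB t = 1 := by
  rw [aB, st_zero (by norm_num) h, sub_zero]

theorem aB_zero {t : ℝ} (h : 19 ≤ t) : aB t = 0 := by
  rw [aB, st_one (by norm_num) h, sub_self]

/-- the three factors of the weight -/
noncomputable def f1 (t : ℝ) (p : ℝ × ℝ) : ℝ := 1 - (1 - st 4 5 t) * (1 - bp p.1)

/-- the second factor -/
noncomputable def f2 (t : ℝ) (p : ℝ × ℝ) : ℝ :=
  1 - (st 1 3 t - st 14 15 t) * (1 - bp (p.2 + aA 0 t * tent p.1))

/-- the third factor -/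
noncomputable def f3 (t : ℝ) (p : ℝ × ℝ) : ℝ :=
  1 - st 11 13 t * (1 - bp (p.1 + aB t * (100 * p.2)))

theorem mu0_eq (t : ℝ) (p : ℝ × ℝ) : mu0 0 0 t p.1 p.2 = f1 t p * f2 t p * f3 t p := by
  simp only [mu0, f1, f2, f3, sub_zero]

theorem unit_aux {a b : ℝ} (h0 : 0 ≤ a) (h1 : a ≤ 1) (h2 : 0 ≤ b) (h3 : b ≤ 1) :
    0 ≤ 1 - a * (1 - b) ∧ 1 - a * (1 - b) ≤ 1 := by
  constructor <;> nlinarith

theorem mono_aux {a a' b b' : ℝ} (h0 : 0 ≤ a) (h1 : a ≤ a') (h2 : b' ≤ b) (h3 : b ≤ 1) :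
    1 - a' * (1 - b') ≤ 1 - a * (1 - b) := by
  nlinarith

theorem be_mem (t : ℝ) : 0 ≤ st 1 3 t - st 14 15 t ∧ st 1 3 t - st 14 15 t ≤ 1 := by
  refine ⟨?_, by linarith [st_le_one 1 3 t, st_nonneg 14 15 t]⟩
  rcases le_total t 14 with h | h
  · rw [st_zero (a := 14) (by norm_num) h, sub_zero]
    exact st_nonneg _ _ _
  · rw [st_one (a := 1) (by norm_num) (by linarith)]
    exact sub_nonneg.2 (st_le_one _ _ _)

theorem f1_mem (t : ℝ) (p : ℝ × ℝ) : 0 ≤ f1 t p ∧ f1 t p ≤ 1 :=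
  unit_aux (sub_nonneg.2 (st_le_one _ _ _)) (sub_le_self _ (st_nonneg _ _ _)) (bp_nonneg _)
    (bp_le_one _)

theorem f2_mem (t : ℝ) (p : ℝ × ℝ) : 0 ≤ f2 t p ∧ f2 t p ≤ 1 :=
  unit_aux (be_mem t).1 (be_mem t).2 (bp_nonneg _) (bp_le_one _)

theorem f3_mem (t : ℝ) (p : ℝ × ℝ) : 0 ≤ f3 t p ∧ f3 t p ≤ 1 :=
  unit_aux (st_nonneg _ _ _) (st_le_one _ _ _) (bp_nonneg _) (bp_le_one _)

theorem mu0_nonneg (t : ℝ) (p : ℝ × ℝ) : 0 ≤ mu0 0 0 t p.1 p.2 := by
  rw [mu0_eq]
  exact mul_nonneg (mul_nonneg (f1_mem t p).1 (f2_mem t p).1) (f3_mem t p).1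

theorem mu0_le_one (t : ℝ) (p : ℝ × ℝ) : mu0 0 0 t p.1 p.2 ≤ 1 := by
  rw [mu0_eq]
  exact mul_le_one₀ (mul_le_one₀ (f1_mem t p).2 (f2_mem t p).1 (f2_mem t p).2) (f3_mem t p).1
    (f3_mem t p).2

theorem fb_snd (t t' : ℝ) (p : ℝ × ℝ) :
    (fb 0 t t' p).2 = clp p.2 (p.2 + (aA 0 t - aA 0 t') * tent p.1) := by
  simp only [fb, sub_zero]

theorem fb_fst (t t' : ℝ) (p : ℝ × ℝ) :
    (fb 0 t t' p).1 = clp p.1 (p.1 + (aB t - aB t') * (100 * (fb 0 t t' p).2)) := rfl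

theorem fb_fst_early {t t' : ℝ} (h : t ≤ t') (h' : t' ≤ 17) (p : ℝ × ℝ) :
    (fb 0 t t' p).1 = p.1 := by
  rw [fb_fst, aB_one h', aB_one (h.trans h'), sub_self, zero_mul, add_zero, clp_self]

theorem fb_snd_late {t t' : ℝ} (h : t ≤ t') (h' : 9 ≤ t) (p : ℝ × ℝ) :
    (fb 0 t t' p).2 = p.2 := by
  rw [fb_snd, aA_zero h', aA_zero (h'.trans h), sub_self, zero_mul, add_zero, clp_self]

theorem bp_first {t t' : ℝ} (h : t ≤ t') (h' : t' ≤ 17) (p : ℝ × ℝ) :
    bp ((fb 0 t t' p).2 + aA 0 t' * tent (fb 0 t t' p).1) ≤ bp (p.2 + aA 0 t * tent p.1) := by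
  rw [fb_fst_early h h', fb_snd]
  have := bp_clp p.2 (tent p.1) (aA_anti h) (aA_nonneg t')
  rwa [sub_add_cancel] at this

theorem bp_second {t t' : ℝ} (h : t ≤ t') (p : ℝ × ℝ) :
    bp ((fb 0 t t' p).1 + aB t' * (100 * (fb 0 t t' p).2)) ≤
      bp (p.1 + aB t * (100 * (fb 0 t t' p).2)) := by
  rw [fb_fst]
  have := bp_clp p.1 (100 * (fb 0 t t' p).2) (aB_anti h) (aB_nonneg t')
  rwa [sub_add_cancel] at this

theorem f3_le {t t' : ℝ} (h : t ≤ t') (p : ℝ × ℝ) : f3 t' (fb 0 t t' p) ≤ f3 t p := by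
  rcases le_total t 11 with h1 | h1
  · have : f3 t p = 1 := by rw [f3, st_zero (by norm_num) h1, zero_mul, sub_zero]
    rw [this]
    exact (f3_mem _ _).2
  · refine mono_aux (st_nonneg _ _ _) (st_mono (by norm_num) h) ?_ (bp_le_one _)
    have := bp_second h p
    rwa [fb_snd_late h (by linarith)] at this ⊢

/-- a point that is alive after the time `13` passed the first shear near the axis -/
theorem late {t t' : ℝ} (h : t ≤ t') (h1 : t ≤ 17) (h2 : 13 ≤ t') {p : ℝ × ℝ} (hx : |p.1| ≤ 9)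
    (h3 : f3 t' (fb 0 t t' p) ≠ 0) : |p.2 + aA 0 t * tent p.1| < 1 := by
  have h4 : bp (p.1 + aB t * (100 * (fb 0 t t' p).2)) ≠ 0 := by
    intro h0
    apply h3
    have h5 := bp_second h p
    rw [f3, st_one (by norm_num) h2, le_antisymm (h5.trans h0.le) (bp_nonneg _)]
    norm_num
  have h5 := abs_lt.1 (lt_of_bp h4)
  rw [aB_one h1] at h5
  have h6 := abs_le.1 hx
  have h7 : |(fb 0 t t' p).2| < 1 := abs_lt.2 ⟨by linarith, by linarith⟩
  rw [fb_snd, aA_zero (t := t') (by linarith), sub_zero] at h7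
  rcases clp_cases p.2 (tent p.1) (aA_nonneg t) with h8 | h8
  · rwa [h8] at h7
  · have := h8 0 le_rfl
    rw [zero_mul, add_zero] at this
    linarith

theorem f2_le {t t' : ℝ} (h : t ≤ t') {p : ℝ × ℝ} (hx : |p.1| ≤ 9)
    (h3 : f3 t' (fb 0 t t' p) ≠ 0) : f2 t' (fb 0 t t' p) ≤ f2 t p := by
  rcases le_total t' 14 with h1 | h1
  · refine mono_aux (be_mem t).1 ?_ (bp_first h (by linarith) p) (bp_le_one _)
    rw [st_zero (a := 14) (by norm_num) h1, st_zero (a := 14) (by norm_num) (h.trans h1)]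
    linarith [st_mono (a := 1) (b := 3) (by norm_num) h]
  · have : f2 t p = 1 := by
      rcases le_total t 17 with h2 | h2
      · rw [f2, bp_one (late h h2 (by linarith) hx h3).le, sub_self, mul_zero, sub_zero]
      · rw [f2, st_one (by norm_num) (by linarith), st_one (by norm_num) (by linarith), sub_self,
          zero_mul, sub_zero]
    rw [this]
    exact (f2_mem _ _).2

/-- a point that starts before the time `7` and is alive after the time `3` lies on a strip -/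
theorem alive {t t' : ℝ} (h : t ≤ t') (h1 : t ≤ 7) (h2 : 3 ≤ t') {p : ℝ × ℝ} (hx : |p.1| ≤ 9)
    (hy : |p.2| ≤ 9) (h3 : f2 t' (fb 0 t t' p) ≠ 0) (h4 : f3 t' (fb 0 t t' p) ≠ 0) :
    |p.2 + tent p.1| < 2 ∧ 3 / 10 < |p.1| ∧ |p.1| < 7 / 10 := by
  have h5 : |p.2 + tent p.1| < 2 := by
    rcases le_total t' 14 with h6 | h6
    · have h7 := bp_first h (by linarith) p
      rw [aA_one h1, one_mul] at h7
      refine lt_of_bp fun h0 => h3 ?_
      rw [f2, st_one (by norm_num) h2, st_zero (by norm_num) h6,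
        le_antisymm (h7.trans h0.le) (bp_nonneg _)]
      norm_num
    · have h7 := late h (by linarith) (by linarith) hx h4
      rw [aA_one h1, one_mul] at h7
      linarith
  refine ⟨h5, strip ?_⟩
  obtain ⟨h6, h7⟩ := abs_lt.1 h5
  obtain ⟨h8, h9⟩ := abs_le.1 hy
  exact abs_lt.2 ⟨by linarith, by linarith⟩

theorem f1_le {t t' : ℝ} (h : t ≤ t') {p : ℝ × ℝ} (hx : |p.1| ≤ 9) (hy : |p.2| ≤ 9)
    (h3 : f2 t' (fb 0 t t' p) ≠ 0) (h4 : f3 t' (fb 0 t t' p) ≠ 0) :
    f1 t' (fb 0 t t' p) ≤ f1 t p := by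
  rcases le_total t' 4 with h1 | h1
  · rw [f1, f1, fb_fst_early h (by linarith), st_zero (by norm_num) h1,
      st_zero (by norm_num) (h.trans h1)]
  · have : f1 t p = 1 := by
      rcases le_total t 5 with h2 | h2
      · have h5 := (alive h (by linarith) (by linarith) hx hy h3 h4).2.2
        rw [f1, bp_one (by linarith), sub_self, mul_zero, sub_zero]
      · rw [f1, st_one (by norm_num) h2, sub_self, zero_mul, sub_zero]
    rw [this]
    exact (f1_mem _ _).2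

/-- The weight does not increase. -/
theorem mu0_fb {t t' : ℝ} (h : t ≤ t') {p : ℝ × ℝ} (hx : |p.1| ≤ 9) (hy : |p.2| ≤ 9) :
    mu0 0 0 t' (fb 0 t t' p).1 (fb 0 t t' p).2 ≤ mu0 0 0 t p.1 p.2 := by
  by_cases h0 : mu0 0 0 t' (fb 0 t t' p).1 (fb 0 t t' p).2 = 0
  · rw [h0]
    exact mu0_nonneg t p
  rw [mu0_eq] at h0
  rw [mu0_eq, mu0_eq]
  have h3 := right_ne_zero_of_mul (left_ne_zero_of_mul h0)
  have h4 := right_ne_zero_of_mul h0
  exact mul_le_mul (mul_le_mul (f1_le h hx hy h3 h4) (f2_le h hx h4) (f2_mem _ _).1 (f1_mem _ _).1)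
    (f3_le h p) (f3_mem _ _).1 (mul_nonneg (f1_mem _ _).1 (f2_mem _ _).1)

theorem ec_zero : ec 0 = 1 := by simp [ec]

theorem ec_one : ec 1 = 1 := by
  rw [ec, mul_one]
  push_cast
  exact Complex.exp_two_pi_mul_I

theorem ec_add (a b : ℝ) : ec (a + b) = ec a * ec b := by
  rw [ec, ec, ec, ← Complex.exp_add]
  congr 1
  push_cast
  ring

theorem norm_ec (a : ℝ) : ‖ec a‖ = 1 := Complex.norm_exp_ofReal_mul_I _

theorem ec_pow (a : ℝ) : ec (a / 5) ^ 5 = ec a := by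
  rw [ec, ec, ← Complex.exp_nat_mul]
  congr 1
  push_cast
  ring

theorem kk_early {t : ℝ} (h : t ≤ 5) (x : ℝ) : kk t x = 1 := by
  rw [kk, eta, st_zero (by norm_num) h, ec_zero, sub_self, mul_zero, add_zero]

theorem kk_late {t : ℝ} (h : 7 ≤ t) (x : ℝ) : kk t x = 1 := by
  rw [kk, eta, st_one (by norm_num) h, ec_one, sub_self, mul_zero, add_zero]

theorem qq_nonneg (v : ZMod 5 → ℂ) (k : ℂ) : 0 ≤ qq 1 1 v k := by
  refine add_nonneg (Finset.sum_nonneg fun i _ => ?_) (sq_nonneg _)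
  rw [ite_self, one_mul]
  exact sq_nonneg _

theorem qq_smul {m : ℂ} (hm : ‖m‖ = 1) (v : ZMod 5 → ℂ) (k : ℂ) :
    qq 1 1 (fun i => m * v i) (m ^ 5 * k) = qq 1 1 v k := by
  have h1 : ∏ i, m * v i = m ^ 5 * ∏ i, v i := by
    rw [Finset.prod_mul_distrib, Finset.prod_const, Finset.card_univ, ZMod.card]
  have h2 : m ^ 5 * ∏ i, v i - ((1 : ℝ) : ℂ) * (m ^ 5 * k) =
      m ^ 5 * (∏ i, v i - ((1 : ℝ) : ℂ) * k) := by ring
  simp only [qq, h1, h2, norm_mul, norm_pow, hm, one_pow, one_mul]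

theorem fac_fst (t t' : ℝ) (z : Z0) : (fac 0 t t' z).1 = fb 0 t t' z.1 := by
  simp [fac]

theorem fac_snd (t t' : ℝ) (z : Z0) :
    (fac 0 t t' z).2 = fun i => (1 + ch1 z.1.1 * (ec ((eta t' - eta t) / 5) - 1)) * z.2 i := by
  funext i
  simp [fac, mm]

/-- On living points the distance to the torus does not change. -/
theorem qq_fac {t t' : ℝ} (h : t ≤ t') {z : Z0} (hx : |z.1.1| ≤ 9) (hy : |z.1.2| ≤ 9)
    (h0 : mu0 0 0 t' (fb 0 t t' z.1).1 (fb 0 t t' z.1).2 ≠ 0) :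
    qq 1 1 (fac 0 t t' z).2 (kk t' (fb 0 t t' z.1).1) = qq 1 1 z.2 (kk t z.1.1) := by
  rw [fac_snd]
  rcases le_total 7 t with h1 | h1
  · rw [kk_late h1, kk_late (h1.trans h), eta, eta, st_one (by norm_num) h1,
      st_one (by norm_num) (h1.trans h)]
    simp [ec_zero]
  rcases le_total t' 5 with h2 | h2
  · rw [kk_early h2, kk_early (h.trans h2), eta, eta, st_zero (by norm_num) h2,
      st_zero (by norm_num) (h.trans h2)]
    simp [ec_zero]
  rw [mu0_eq] at h0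
  obtain ⟨-, h3, h4⟩ := alive h h1 (by linarith) hx hy
    (right_ne_zero_of_mul (left_ne_zero_of_mul h0)) (right_ne_zero_of_mul h0)
  have h5 : kk t' (fb 0 t t' z.1).1 = kk t' z.1.1 := by
    rcases le_total t' 7 with h6 | h6
    · rw [fb_fst_early h (by linarith)]
    · rw [kk_late h6, kk_late h6]
  rw [h5, kk, kk]
  rcases ch1_cases (x := z.1.1) (by linarith) (by linarith) with h6 | h6
  · simp [h6]
  · have h7 := qq_smul (norm_ec ((eta t' - eta t) / 5)) z.2 (ec (eta t))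
    rw [ec_pow, ← ec_add, sub_add_cancel] at h7
    simpa [h6] using h7

end Fc

/-- The factor with the weights zero does not increase the handle term. -/
theorem stFac : StFac := by
  intro t t' o z h ho hx hy
  simp only [Gt, Fc.fac_fst]
  have h1 := add_nonneg (Fc.qq_nonneg z.2 (kk t z.1.1)) ho
  by_cases h0 : mu0 0 0 t' (fb 0 t t' z.1).1 (fb 0 t t' z.1).2 = 0
  · rw [h0, zero_mul]
    exact mul_nonneg (Fc.mu0_nonneg t z.1) h1
  · rw [Fc.qq_fac h hx hy h0]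
    exact mul_le_mul_of_nonneg_right (Fc.mu0_fb h hx hy) h1

end Vale.Agent.P220Z.Hs
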