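import Vale.Agent.P220Z.Hs.Sk
import Vale.Agent.P220Z.Hs.Smo
import Vale.Agent.P220Z.Hs.Fac
import Vale.Agent.P220Z.Hs.EvA

/-!
# P220, the suspended horseshoe: periodic points of the planar map
-/

open Set

namespace Vale.Agent.P220Z.Hs

namespace Pe

theorem mm_eq (t t' x : ℝ) : mm 0 t t' x 0 = 1 + ch1 x * (ec ((eta t' - eta t) / 5) - 1) := by
  simp [mm]

theorem fb_id {t t' : ℝ} (h1 : aA 0 t = aA 0 t') (h2 : aB t = aB t') (p : ℝ × ℝ) :
    fb 0 t t' p = p := by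
  simp [fb, h1, h2, Ev.clp_self]

theorem mm_id {t t' : ℝ} (h : eta t = eta t') (x : ℝ) : mm 0 t t' x 0 = 1 := by
  simp [mm_eq, h, Ev.ec_zero]

theorem mm_dead {x : ℝ} (h : ch1 x = 0) (t t' : ℝ) : mm 0 t t' x 0 = 1 := by
  simp [mm_eq, h]

theorem fb_lo {t t' : ℝ} (h : t ≤ 7) (h' : t' ≤ 7) (p : ℝ × ℝ) : fb 0 t t' p = p :=
  fb_id (by rw [Ev.aA_lo h, Ev.aA_lo h'])
    (by rw [Ev.aB_lo (by linarith), Ev.aB_lo (by linarith)]) p

theorem mm_lo {t t' : ℝ} (h : t ≤ 5) (h' : t' ≤ 5) (x : ℝ) : mm 0 t t' x 0 = 1 :=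
  mm_id (by rw [Ev.eta_lo h, Ev.eta_lo h']) x

theorem evb_zero (θ : ℝ) (N : ℕ) (p : ℝ × ℝ) : evb θ 0 N p = p := by
  induction N with
  | zero => rfl
  | succ n ih => rw [evb, ih, add_zero, fb_id rfl rfl]

theorem evm_zero (θ : ℝ) (N : ℕ) (p : ℝ × ℝ) : evm θ 0 N p = 1 := by
  induction N with
  | zero => rfl
  | succ n ih => rw [evm, ih, add_zero, mm_id rfl, mul_one]

theorem ch1_mem (x : ℝ) : 0 ≤ ch1 x ∧ ch1 x ≤ 1 :=
  ⟨mul_nonneg (Fc.st_nonneg _ _ _) (sub_nonneg.2 (Fc.st_le_one _ _ _)),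
    mul_le_one₀ (Fc.st_le_one _ _ _) (sub_nonneg.2 (Fc.st_le_one _ _ _))
      (sub_le_self _ (Fc.st_nonneg _ _ _))⟩

theorem norm_mix {a : ℝ} (h0 : 0 ≤ a) (h1 : a ≤ 1) {e : ℂ} (he : ‖e‖ = 1) :
    ‖1 + a * (e - 1)‖ ≤ 1 := by
  have h : (1 : ℂ) + a * (e - 1) = ((1 - a : ℝ) : ℂ) + a * e := by
    push_cast
    ring
  rw [h]
  refine (norm_add_le _ _).trans ?_
  rw [norm_mul, he, Complex.norm_real, Complex.norm_real, Real.norm_of_nonneg h0,
    Real.norm_of_nonneg (by linarith)]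
  linarith

theorem norm_mm (t t' x : ℝ) : ‖mm 0 t t' x 0‖ ≤ 1 := by
  rw [mm_eq]
  exact norm_mix (ch1_mem x).1 (ch1_mem x).2 (Ev.norm_ec _)

theorem norm_evm (θ s : ℝ) (N : ℕ) (p : ℝ × ℝ) : ‖evm θ s N p‖ ≤ 1 := by
  induction N with
  | zero => simp [evm]
  | succ n ih =>
    rw [evm, norm_mul]
    exact mul_le_one₀ (norm_mm _ _ _) (norm_nonneg _) ih

theorem norm_kk (t x : ℝ) : ‖kk t x‖ ≤ 1 := norm_mix (ch1_mem x).1 (ch1_mem x).2 (Ev.norm_ec _)

section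
variable {X : Type} [TopologicalSpace X] {θ s : X → ℝ} {p : X → ℝ × ℝ}

theorem evb_cont (hθ : Continuous θ) (hs : Continuous s) (hp : Continuous p) (n : ℕ) :
    Continuous fun x => evb (θ x) (s x) n (p x) := by
  induction n with
  | zero => exact hp
  | succ n ih => exact Ev.fb_cont continuous_const (by fun_prop) (by fun_prop) ih

theorem evm_cont (hθ : Continuous θ) (hs : Continuous s) (hp : Continuous p) (n : ℕ) :
    Continuous fun x => evm (θ x) (s x) n (p x) := by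
  induction n with
  | zero => exact continuous_const
  | succ n ih =>
    exact (Ev.mm_cont (l := fun _ => 0) (fun _ => continuous_const) (by fun_prop) (by fun_prop)
      (evb_cont hθ hs hp n).fst 0).mul ih

end

variable {θ s B : ℝ} {p : ℝ × ℝ} {i m n : ℕ}

theorem bd_fst (hB : 8 ≤ B) (h : |(evb θ s m p).1| ≤ B) (hn : m ≤ n) : |(evb θ s n p).1| ≤ B := by
  induction n, hn using Nat.le_induction with
  | base => exact h
  | succ n _ ih => exact (Ev.abs_clp _ _).trans (max_le hB ih)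

theorem bd_snd (hB : 8 ≤ B) (h : |(evb θ s m p).2| ≤ B) (hn : m ≤ n) : |(evb θ s n p).2| ≤ B := by
  induction n, hn using Nat.le_induction with
  | base => exact h
  | succ n _ ih => exact (Ev.abs_clp _ _).trans (max_le hB ih)

theorem evb_tail (hθ : θ ≤ 20) (hn : i + 1 ≤ n) :
    evb θ (20 * i) n p = evb θ (20 * i) (i + 1) p ∧
      evm θ (20 * i) n p = evm θ (20 * i) (i + 1) p := by
  induction n, hn using Nat.le_induction with
  | base => exact ⟨rfl, rfl⟩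
  | succ n hn ih =>
    have h1 : (i : ℝ) + 1 ≤ n := by exact_mod_cast hn
    have h0 : (0 : ℝ) ≤ i := Nat.cast_nonneg i
    rw [evb, evm, fb_lo (by linarith) (by linarith), mm_lo (by linarith) (by linarith), one_mul]
    exact ih

/-- the weight before the factor `n` -/
noncomputable def wa (θ s : ℝ) (p : ℝ × ℝ) (n : ℕ) : ℝ :=
  mu0 0 0 (θ - 20 * n) (evb θ s n p).1 (evb θ s n p).2

/-- the weight after the factor `n` -/
noncomputable def wb (θ s : ℝ) (p : ℝ × ℝ) (n : ℕ) : ℝ :=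
  mu0 0 0 (θ + s - 20 * n) (evb θ s (n + 1) p).1 (evb θ s (n + 1) p).2

theorem wb_le (hs : 0 ≤ s) (hx : |p.1| ≤ 9) (hy : |p.2| ≤ 9) (n : ℕ) : wb θ s p n ≤ wa θ s p n :=
  Fc.mu0_fb (by linarith) (bd_fst (m := 0) (by norm_num) hx n.zero_le)
    (bd_snd (m := 0) (by norm_num) hy n.zero_le)

theorem wa_bp (hθ : θ ≤ 20) (hn : 1 ≤ n) : wa θ s p n = bp (evb θ s n p).1 := by
  have h1 : (1 : ℝ) ≤ n := by exact_mod_cast hn
  exact Sm.mu0_lo (by linarith) _ _ _ _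

theorem wb_eq (hθ : θ ∈ Ioc (0 : ℝ) 20) (hn : n < i) :
    wb θ (20 * i) p n = wa θ (20 * i) p (n + 1) := by
  have h1 : (n : ℝ) + 1 ≤ i := by exact_mod_cast hn
  rw [wa_bp hθ.2 (Nat.le_add_left 1 n)]
  exact Sm.mu0_hi (by linarith [hθ.1]) _ _ _ _

theorem wa_anti (hθ : θ ∈ Ioc (0 : ℝ) 20) (hx : |p.1| ≤ 9) (hy : |p.2| ≤ 9) (hm : m ≤ n)
    (hn : n ≤ i) : wa θ (20 * i) p n ≤ wa θ (20 * i) p m := by
  induction n, hm using Nat.le_induction with
  | base => exact le_rfl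
  | succ n _ ih =>
    rw [← wb_eq hθ hn]
    exact (wb_le (by positivity) hx hy n).trans (ih (Nat.le_of_succ_le hn))

theorem ch1_of_bp {x : ℝ} (h : bp x = 0) : ch1 x = 0 := by
  rcases le_total 0 x with h0 | h0
  · rw [ch1, Fc.st_one (a := -1 / 4) (by norm_num) h0, sub_self, mul_zero]
  rcases le_total x (-1) with h1 | h1
  · rw [ch1, Fc.st_zero (a := -1) (by norm_num) h1, zero_mul]
  · rw [Fc.bp_one (abs_le.2 ⟨h1, by linarith⟩)] at h
    exact absurd h one_ne_zero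

theorem alive' {t t' : ℝ} (h : t ≤ t') (h1 : t ≤ 7) (h2 : 3 ≤ t') (hx : |p.1| ≤ 9) (hy : |p.2| ≤ 9)
    (h0 : mu0 0 0 t' (fb 0 t t' p).1 (fb 0 t t' p).2 ≠ 0) :
    |p.2 + tent p.1| < 2 ∧ 3 / 10 < |p.1| ∧ |p.1| < 7 / 10 := by
  rw [Fc.mu0_eq] at h0
  exact Fc.alive h h1 h2 hx hy (right_ne_zero_of_mul (left_ne_zero_of_mul h0))
    (right_ne_zero_of_mul h0)

/-- along a periodic orbit the weight is constant -/
theorem wa_const (hθ : θ ∈ Ioc (0 : ℝ) 20) (hx : |p.1| ≤ 9) (hy : |p.2| ≤ 9)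
    (hp : evb θ (20 * i) (i + 1) p = p) (hn : n ≤ i) :
    wa θ (20 * i) p n = mu0 0 0 θ p.1 p.2 ∧ wb θ (20 * i) p n = mu0 0 0 θ p.1 p.2 := by
  have h0 : wa θ (20 * i) p 0 = mu0 0 0 θ p.1 p.2 := by simp [wa, evb]
  have h1 : wb θ (20 * i) p i = mu0 0 0 θ p.1 p.2 := by rw [wb, hp, add_sub_cancel_right]
  have h2 : ∀ n ≤ i, wa θ (20 * i) p n = mu0 0 0 θ p.1 p.2 := fun n hn =>
    le_antisymm (h0 ▸ wa_anti hθ hx hy n.zero_le hn)
      (h1 ▸ (wb_le (by positivity) hx hy i).trans (wa_anti hθ hx hy hn le_rfl))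
  refine ⟨h2 n hn, ?_⟩
  rcases hn.eq_or_lt with rfl | hn
  · exact h1
  · rw [wb_eq hθ hn, h2 _ hn]

end Pe

open Pe

theorem stPer : StPer := by
  intro θ hθ i N hi hN p hx hy hp
  obtain ⟨e1, e2⟩ := evb_tail (p := p) hθ.2 hN
  rw [e1] at hp
  rw [e2]
  have hi' : (1 : ℝ) ≤ i := by exact_mod_cast hi
  have hc := fun n (hn : n ≤ i) => wa_const hθ hx hy hp hn
  have hxi := bd_fst (θ := θ) (s := 20 * i) (m := 0) (by norm_num) hx i.zero_le
  have hyi := bd_snd (θ := θ) (s := 20 * i) (m := 0) (by norm_num) hy i.zero_le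
  have hl : fb 0 (θ - 20 * i) θ (evb θ (20 * i) i p) = p := by
    rw [evb, add_sub_cancel_right] at hp
    exact hp
  have hf : evb θ (20 * i) 1 p = fb 0 θ (θ + 20 * i) p := by simp [evb]
  have hxe : θ ≤ 17 → p.1 = (evb θ (20 * i) i p).1 := fun h =>
    (congrArg Prod.fst hl).symm.trans (Fc.fb_fst_early (by linarith) h _)
  by_cases h0 : mu0 0 0 θ p.1 p.2 = 0
  · refine Or.inr ⟨h0, ?_⟩
    have h1 : ∀ n, 1 ≤ n → n ≤ i → ch1 (evb θ (20 * i) n p).1 = 0 := fun n h1 h2 =>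
      ch1_of_bp (by rw [← wa_bp hθ.2 h1, (hc n h2).1, h0])
    have h2 : ∀ n ≤ i + 1, evm θ (20 * i) n p = 1 := by
      intro n hn
      induction n with
      | zero => rfl
      | succ n ih =>
        rw [evm, ih (Nat.le_of_succ_le hn), mul_one]
        rcases Nat.eq_zero_or_pos n with rfl | h
        · rcases le_total θ 7 with h7 | h7
          · exact mm_dead ((congrArg ch1 (hxe (by linarith))).trans (h1 i hi le_rfl)) _ _
          · exact mm_id (by rw [Ev.eta_hi (by simpa using h7), Ev.eta_hi (by simp; linarith)]) _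
        · exact mm_dead (h1 n h (Nat.le_of_succ_le_succ hn)) _ _
    exact h2 _ le_rfl
  left
  have hx1 : |(evb θ (20 * i) 1 p).1| < 2 :=
    Fc.lt_of_bp (by rw [← wa_bp hθ.2 le_rfl, (hc 1 hi).1]; exact h0)
  have hA : 3 ≤ θ → |(evb θ (20 * i) i p).2 + tent (evb θ (20 * i) i p).1| < 2 ∧
      3 / 10 < |(evb θ (20 * i) i p).1| ∧ |(evb θ (20 * i) i p).1| < 7 / 10 := fun h =>
    alive' (t := θ - 20 * i) (by linarith) (by linarith [hθ.2]) h hxi hyi (by rw [hl]; exact h0)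
  refine ⟨?_, ?_, ?_⟩
  · rw [← (hc i le_rfl).1, wa_bp hθ.2 hi]
    refine Fc.bp_one ?_
    rcases le_total θ 3 with h3 | h3
    · have h4 := (hc 0 i.zero_le).2
      rw [wb, zero_add, hf, Nat.cast_zero, mul_zero, sub_zero] at h4
      have h5 := alive' (t := θ) (t' := θ + 20 * i) (by linarith) (by linarith)
        (by linarith [hθ.1]) hx hy (by rw [h4]; exact h0)
      rw [← hxe (by linarith)]
      linarith [h5.2.2]
    · linarith [(hA h3).2.2]
  · rw [← hp]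
    exact bd_fst le_rfl (hx1.le.trans (by norm_num)) (Nat.le_add_left 1 i)
  · rcases le_total θ 17 with h7 | h7
    · have h4 : |(evb θ (20 * i) 1 p).2| ≤ 8 := by
        rw [hf] at hx1 ⊢
        rw [Fc.fb_fst, Ev.aB_lo h7, Ev.aB_hi (by linarith [hθ.1])] at hx1
        rw [Ev.clp_eq (hx1.trans (by norm_num)), abs_lt] at hx1
        obtain ⟨h5, h6⟩ := abs_le.1 hx
        exact abs_le.2 ⟨by linarith [hx1.1], by linarith [hx1.2]⟩
      rw [← hp]
      exact bd_snd le_rfl h4 (Nat.le_add_left 1 i)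
    · have h4 := abs_lt.1 (hA (by linarith)).1
      rw [← hl, Fc.fb_snd, Ev.aA_lo (by linarith [hθ.2]), Ev.aA_hi (by linarith), sub_zero, one_mul,
        clp]
      have h8 : (8 : ℝ) ≤ max 8 |(evb θ (20 * i) i p).2| := le_max_left _ _
      rw [min_eq_right (by linarith [h4.2]), max_eq_right (by linarith [h4.1])]
      exact abs_le.2 ⟨by linarith [h4.1], by linarith [h4.2]⟩

end Vale.Agent.P220Z.Hs
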