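import Vale.Agent.P220Z.Hs.WbA
import Vale.Agent.P220Z.Hs.Per

/-!
# P220, deformation to the model: the exact zeros
-/

open Set

namespace Vale.Agent.P220Z.Hs.Wb

open Vale.Agent.P220Z.Def

namespace Zr

theorem int_of_ec {t : ℝ} (h : ec t = 1) : ∃ n : ℤ, t = n := by
  obtain ⟨n, hn⟩ := Complex.exp_eq_one_iff.1 h
  refine ⟨n, ?_⟩
  have h1 := congrArg Complex.im hn
  simp only [Complex.mul_im, Complex.ofReal_re, Complex.I_im, Complex.ofReal_im, Complex.I_re,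
    Complex.mul_re, Complex.intCast_re, Complex.intCast_im, Complex.re_ofNat,
    Complex.im_ofNat] at h1
  have h2 : Real.pi * (t - n) = 0 := by linarith
  linarith [(mul_eq_zero.1 h2).resolve_left Real.pi_ne_zero]

/-- a positive multiple of a number of norm one that has norm one -/
theorem eq_one {r : ℝ} (hr : 0 < r) {e : ℂ} (he : ‖e‖ = 1) (h : ‖e * r‖ = 1) : r = 1 := by
  rwa [norm_mul, he, one_mul, Complex.norm_real, Real.norm_of_nonneg hr.le] at h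

theorem om_ne {j : ZMod 5} (hj : j ≠ 0) : (om j : ℂ) ≠ 1 := fun h =>
  hj (ZMod.injective_toCircle (Circle.ext (by simpa [om] using h)))

theorem norm_rt {c : ℂ} (hc : c ≠ 0) (k : ℂ) : ‖rt c k‖ = 1 := by
  rw [rt, norm_mul, norm_mul, Fc.norm_ec, Complex.norm_real, norm_inv, norm_norm,
    inv_mul_cancel₀ (norm_ne_zero_iff.2 hc), one_mul]

theorem rt_pow {c k : ℂ} (hc : c ≠ 0) (hk : ‖k‖ = 1) : rt c k ^ 5 = k := by
  set z := c ^ 5 * (starRingEnd ℂ) k with hz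
  have hkk : (starRingEnd ℂ) k * k = 1 := by rw [Complex.conj_mul', hk]; simp
  have h1 : -(Complex.arg z / (10 * Real.pi)) = -(Complex.arg z / (2 * Real.pi)) / 5 := by ring
  have h2 : ec (-(Complex.arg z / (2 * Real.pi))) * Complex.exp (Complex.arg z * Complex.I) = 1 := by
    rw [ec, ← Complex.exp_add]
    have : 2 * Real.pi * -(Complex.arg z / (2 * Real.pi)) = -Complex.arg z := by
      field_simp
    simp [this]
  have h3 := Complex.norm_mul_exp_arg_mul_I z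
  have h4 : ‖z‖ = ‖c‖ ^ 5 := by rw [hz, norm_mul, Complex.norm_conj, hk, mul_one, norm_pow]
  have h5 : ((‖c‖ : ℝ) : ℂ) ≠ 0 := by simpa using hc
  have h6 : c ^ 5 = z * k := by rw [hz, mul_assoc, hkk, mul_one]
  rw [rt, ← hz, h1, mul_pow, mul_pow, Fc.ec_pow, h6]
  rw [h4] at h3
  push_cast at h3 ⊢
  generalize ec (-(Complex.arg z / (2 * Real.pi))) = e at h2
  generalize Complex.exp (Complex.arg z * Complex.I) = f at h2 h3
  rw [← h3]
  field_simp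
  linear_combination k * h2

theorem exists_oo : ∃ r : ℝ, 1 / 2 ≤ r ∧ r ≤ 1 ∧ oo (r ^ 2) = 1 / 4 := by
  have h1 : ContinuousOn (fun r : ℝ => oo (r ^ 2)) (Icc (1 / 2) 1) :=
    (Sm.oo_smooth.continuous.comp (continuous_pow 2)).continuousOn
  have h2 : oo ((1 / 2) ^ 2) = 2 := by
    rw [oo, Sm.st_zero (by norm_num) (by norm_num)]
    norm_num
  obtain ⟨r, hr, h3⟩ := intermediate_value_Icc' (by norm_num) h1
    (show (1 / 4 : ℝ) ∈ _ from ⟨by simp only [oo_zero le_rfl]; norm_num, by simp only [h2]; norm_num⟩)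
  exact ⟨r, hr.1, hr.2, h3⟩

theorem F1_alive {u : U1} (h1 : 1 / 2 ≤ ‖u.1‖) (h2 : ‖u.1‖ ≤ 1) (hx : |u.2.1.1| ≤ 8)
    (hy : |u.2.1.2| ≤ 8) (hm : mu0 0 0 (th u.1) u.2.1.1 u.2.1.2 = 1) :
    F1 u = ps (5 * ‖u.2.2‖ ^ 2) + 5 * (‖u.2.2‖ ^ 2 - 1) ^ 2 +
      ‖u.2.2 ^ 5 - kk (th u.1) u.2.1.1‖ ^ 2 + oo (‖u.1‖ ^ 2) - 1 / 4 := by
  have h3 : ∀ x : ℝ, |x| ≤ 8 → ps (x ^ 2) = 0 := fun x h =>
    Sm.ps_zero (by nlinarith [abs_nonneg x, sq_abs x])
  rw [F1, chi_one h1, hm, h3 _ hx, h3 _ hy, h3 ‖u.1‖ (by rw [abs_norm]; linarith)]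
  ring

end Zr

open Zr

theorem zero (hM : StM1) (hP : StPer) {K : ℕ} {j : ZMod 5} (hj : j ≠ 0) {a b τ : ℝ}
    (ha : a ∈ Icc (0 : ℝ) 1) (hb : b ∈ Icc (0 : ℝ) 1) {u : U1} (hu : u ∈ CC)
    (h : u = Tb.rot1 (-j) (m1 K ((20 * K + 3) * τ - 1) (piU a b u))) :
    τ ∈ Ioo (0 : ℝ) 1 ∧ mu0 0 0 (th u.1) u.2.1.1 u.2.1.2 = 1 ∧ (a = 1 → b = 1 → F1 u < 0) := by
  set t : ℝ := (20 * K + 3) * τ - 1 with ht
  rw [m1_far K t (half_le_piU a hb hu), th_piU a hb (w_ne hu), Tb.rot1_apply] at h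
  have e1 : u.1 = ec (tm K t / 20) * ((1 - b + b * ‖u.1‖⁻¹ : ℝ) * u.1) := congrArg (·.1) h
  have e2 : u.2.1 = evb (th u.1) (tm K t) (K + 2) u.2.1 := congrArg (·.2.1) h
  have e3 : u.2.2 = (om (-j) : ℂ) * (evm (th u.1) (tm K t) (K + 2) u.2.1 *
      ((1 - b + b * ‖u.2.2‖⁻¹ : ℝ) * u.2.2 * ec (-(a * al u / (10 * Real.pi))))) :=
    congrArg (·.2.2) h
  have p1 := sc_pos hb (norm_pos_iff.2 (w_ne hu))
  have p2 := sc_pos hb (norm_pos_iff.2 (c_ne hu))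
  have f1 : ec (tm K t / 20) * (1 - b + b * ‖u.1‖⁻¹ : ℝ) = 1 :=
    mul_right_cancel₀ (w_ne hu) (by rw [mul_assoc, ← e1, one_mul])
  have f2 := eq_one p1 (Fc.norm_ec _) (by rw [f1, norm_one])
  rw [f2, Complex.ofReal_one, mul_one] at f1
  obtain ⟨z, hz⟩ := int_of_ec f1
  have hK : (0 : ℝ) ≤ K := Nat.cast_nonneg K
  obtain ⟨n, rfl⟩ := Int.eq_ofNat_of_zero_le (a := z)
    (by exact_mod_cast (hz ▸ div_nonneg (Ev.tm_nonneg K t) (by norm_num) : (0 : ℝ) ≤ z))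
  have f3 : tm K t = 20 * (n : ℝ) := by
    rw [Int.cast_natCast] at hz
    linarith
  have f4 : n < K + 1 := by
    have : (n : ℝ) < K + 1 := by linarith [Ev.tm_le K t]
    exact_mod_cast this
  have f5 : (n : ℝ) ≤ K := by exact_mod_cast Nat.lt_succ_iff.1 f4
  rcases n.eq_zero_or_pos with hn | hn
  · exfalso
    rw [f3, hn, Nat.cast_zero, mul_zero, Pe.evm_zero, one_mul] at e3
    have g1 : (om (-j) : ℂ) * ec (-(a * al u / (10 * Real.pi))) *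
        (1 - b + b * ‖u.2.2‖⁻¹ : ℝ) = 1 :=
      mul_right_cancel₀ (c_ne hu) (by linear_combination -e3)
    have g2 := eq_one p2 (by rw [norm_mul, Circle.norm_coe, one_mul, Fc.norm_ec])
      ((congrArg norm g1).trans norm_one)
    rw [g2, Complex.ofReal_one, mul_one] at g1
    have g3 : -(a * al u / (10 * Real.pi)) = -(a * al u / (2 * Real.pi)) / 5 := by ring
    have g4 := congrArg (· ^ 5) g1
    simp only [mul_pow, Sm.om_pow5, one_mul, one_pow] at g4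
    rw [g3, Fc.ec_pow] at g4
    obtain ⟨m, hm⟩ := int_of_ec g4
    have g5 : |a * al u / (2 * Real.pi)| < 1 := by
      rw [abs_div, abs_mul, abs_of_nonneg ha.1, abs_of_pos Real.two_pi_pos,
        div_lt_one Real.two_pi_pos]
      have : |al u| ≤ Real.pi := Complex.abs_arg_le_pi _
      nlinarith [abs_nonneg (al u), ha.1, ha.2, Real.pi_pos]
    have g6 : m = 0 := by
      rw [← abs_neg, hm] at g5
      exact Int.abs_lt_one_iff.1 (by exact_mod_cast g5)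
    rw [g3, hm, g6, Int.cast_zero, zero_div, Fc.ec_zero, mul_one] at g1
    exact om_ne (neg_ne_zero.2 hj) g1
  have hn' : (1 : ℝ) ≤ n := by exact_mod_cast hn
  have g1 : t = 20 * (n : ℝ) := by
    rw [tm] at f3
    rcases max_choice 0 (min (20 * (K : ℝ) + 2) t) with h1 | h1
    · linarith
    rcases min_choice (20 * (K : ℝ) + 2) t with h2 | h2 <;> linarith
  obtain ⟨hx, hy⟩ := abs_le_nine hu.1
  rw [f3] at e2 e3 f1
  obtain ⟨g2, g3, g4⟩ := (hP _ ⟨Ev.th_pos u.1, Ev.th_le u.1⟩ n (K + 2) hn (by omega) _ hx hy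
    e2.symm).resolve_right fun h1 => by linarith [h1.1, hu.2.2]
  refine ⟨⟨?_, ?_⟩, g2, fun ha1 hb1 => ?_⟩
  · by_contra h1
    nlinarith [not_lt.1 h1]
  · by_contra h1
    nlinarith [not_lt.1 h1]
  subst ha1 hb1
  have w1 : ‖u.1‖ = 1 := by simpa using f2
  obtain ⟨r, r1, r2, r3⟩ := exists_oo
  have r0 : 0 < r := by linarith
  have w2 : ‖(r : ℂ) * u.1‖ = r := by
    rw [norm_mul, w1, mul_one, Complex.norm_real, Real.norm_of_nonneg r0.le]
  have k1 := norm_rt (c_ne hu) (kk (th u.1) u.2.1.1)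
  have k2 := rt_pow (c_ne hu) (norm_k hu)
  have e4 : u.2.2 = (om (-j) : ℂ) * (evm (th u.1) (20 * n) (K + 2) u.2.1 *
      rt u.2.2 (kk (th u.1) u.2.1.1)) := by
    simpa [rt, al] using e3
  have s0 : ∀ c : ℂ, F1 ((r : ℂ) * u.1, u.2.1, c) = ps (5 * ‖c‖ ^ 2) + 5 * (‖c‖ ^ 2 - 1) ^ 2 +
      ‖c ^ 5 - kk (th u.1) u.2.1.1‖ ^ 2 := fun c => by
    rw [F1_alive (u := ((r : ℂ) * u.1, u.2.1, c)) (r1.trans w2.ge) (w2.le.trans r2) g3 g4
      (by simp only [th_sc r0]; exact g2)]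
    simp only [th_sc r0, w2, r3]
    ring
  have s1 : F1 ((r : ℂ) * u.1, u.2.1, rt u.2.2 (kk (th u.1) u.2.1.1)) = 0 := by
    rw [s0, k1, k2, Sm.ps_zero (by norm_num)]
    norm_num
  have s2 := (hM K).2.1 t _ s1.le
  rw [← F1_rot (-j), m1_far K t (by simp only [w2]; exact r1), f3, f1, Tb.rot1_apply] at s2
  simp only [th_sc r0, one_mul, ← e2, ← e4] at s2
  rw [s0] at s2
  rw [F1_alive hu.2.1 w1.le g3 g4 g2, oo_zero w1.ge]
  linarith

end Vale.Agent.P220Z.Hs.Wb
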