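import Vale.Agent.P220Z.Hs.WbC
import Vale.Agent.P220Z.Hs.WbZ

/-!
# P220, deformation to the model
-/

namespace Vale.Agent.P220Z.Hs

theorem stWb (hM : StM1) : StWb :=
  Wb.stWb_of hM fun _ _ hj _ _ _ ha hb _ hu h => Wb.zero hM stPer hj ha hb hu h

end Vale.Agent.P220Z.Hs
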