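import Vale.Agent.P220Z.Hs.WcDefs
import Vale.Agent.P220Z.Hs.Cut

/-!
# The index of the product map in the window
-/

open Set Filter Topology

namespace Vale.Agent.P220Z.Hs

open Vale.Agent.P205.TI.Deg Vale.Agent.P220Z.Deg Vale.Agent.P220Z.Def

namespace Idx

theorem ec_add (s t : ℝ) : ec (s + t) = ec s * ec t := by
  rw [ec, ec, ec, ← Complex.exp_add]
  congr 1
  push_cast
  ring

theorem ec_zero : ec 0 = 1 := by simp [ec]

theorem norm_ec (t : ℝ) : ‖ec t‖ = 1 := Complex.norm_exp_ofReal_mul_I _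

theorem ec_ne (t : ℝ) : ec t ≠ 0 := Complex.exp_ne_zero _

theorem continuous_ec : Continuous ec := by
  unfold ec
  fun_prop

theorem ec_eq_one_iff {t : ℝ} : ec t = 1 ↔ ∃ n : ℤ, t = n := by
  rw [ec, Complex.exp_eq_one_iff]
  refine exists_congr fun n => ⟨fun h => ?_, fun h => ?_⟩
  · have h1 := congrArg Complex.im h
    simp at h1
    exact mul_left_cancel₀ Real.two_pi_pos.ne' (by linarith)
  · rw [h]
    push_cast
    ring

theorem ec_eq_one {t : ℝ} (h : |t| < 1) (h1 : ec t = 1) : t = 0 := by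
  obtain ⟨n, rfl⟩ := ec_eq_one_iff.1 h1
  have : |n| < 1 := by exact_mod_cast h
  exact_mod_cast Int.abs_lt_one_iff.1 this

theorem ec_deriv (t : ℝ) : HasDerivAt ec (ec t * (2 * Real.pi * Complex.I)) t := by
  have h := (((hasDerivAt_id t).const_mul (2 * Real.pi)).ofReal_comp.mul_const Complex.I).cexp
  refine h.congr_deriv ?_
  simp [ec]

theorem unit_eq {w : ℂ} (h : w ≠ 0) : ((‖w‖⁻¹ : ℝ) : ℂ) * w = ec (th w / 20 - 1 / 2) := by
  have h1 : (‖w‖ : ℂ) ≠ 0 := by simpa using h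
  have h2 : 2 * Real.pi * (th w / 20 - 1 / 2) = Complex.arg w := by
    rw [th]
    field_simp
    ring
  rw [ec, h2, Complex.ofReal_inv, inv_mul_eq_iff_eq_mul₀ h1, Complex.norm_mul_exp_arg_mul_I]

theorem th_ec {t : ℝ} (h : t ∈ Ioc (0 : ℝ) 20) : th (ec (t / 20 - 1 / 2)) = t := by
  have hp := Real.pi_pos
  rw [th, ec, Complex.arg_exp_mul_I, (toIocMod_eq_self _).2 ⟨by nlinarith [h.1], by nlinarith [h.2]⟩]
  field_simp
  ring

theorem S_half : S (1 / 2) = 1 / 2 := by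
  have h := expNegInvGlue.pos_of_pos (x := 1 / 2) (by norm_num)
  rw [S, Real.smoothTransition, show (1 : ℝ) - 1 / 2 = 1 / 2 by norm_num]
  field_simp
  norm_num

theorem eta_six : eta 6 = 1 / 2 := by
  rw [eta, st, show ((6 : ℝ) - 5) / (7 - 5) = 1 / 2 by norm_num]
  exact S_half

theorem eta_deriv (t : ℝ) : HasDerivAt eta (S' ((t - 5) / (7 - 5)) * (1 / (7 - 5))) t :=
  (((hasDerivAt_id t).sub_const 5).div_const (7 - 5)).S

theorem eta_mem (t : ℝ) : eta t ∈ Icc (0 : ℝ) 1 := ⟨S_nonneg _, S_le_one _⟩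

theorem eta_half {t : ℝ} (h : eta t = 1 / 2) : t = 6 := by
  have h1 : StrictMonoOn Real.smoothTransition (Icc 0 1) :=
    strictMonoOn_of_deriv_pos (convex_Icc 0 1) S_smooth.continuous.continuousOn fun x hx => by
      rw [interior_Icc] at hx
      exact S'_pos hx.1 hx.2
  have h2 : S ((t - 5) / (7 - 5)) = 1 / 2 := h
  have h3 := h1.injOn ⟨(pos_of_S (by rw [h2]; norm_num)).le, (lt_of_S (by rw [h2]; norm_num)).le⟩
    (by norm_num : (1 / 2 : ℝ) ∈ Icc (0 : ℝ) 1) (h2.trans S_half.symm)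
  linarith

theorem th_deriv {w : ℂ} (h : w ∈ Complex.slitPlane) : HasFDerivAt th
    ((10 / Real.pi) • Complex.imCLM.comp (w⁻¹ • (1 : ℂ →L[ℝ] ℂ))) w := by
  have h1 := ((Complex.imCLM.hasFDerivAt.comp w
    (Complex.hasStrictFDerivAt_log_real h).hasFDerivAt).const_smul (10 / Real.pi)).const_add 10
  refine h1.congr_of_eventuallyEq (Eventually.of_forall fun z => ?_)
  simp [th, Complex.log_im]
  ring

/-- the factor of the map in the variables `((w, c), r + i t)` -/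
noncomputable def gW (x : (ℂ × ℂ) × ℂ) : (ℂ × ℂ) × ℂ :=
  ((x.1.1 - ec (x.2.im / 20 + (th x.1.1 / 20 - 1 / 2)),
    x.1.2 - ec (eta (th x.1.1 + x.2.im) / 5)), x.1.2 * ec (-1 / 10) - x.2.re)

/-- its domain -/
def dW : Set ((ℂ × ℂ) × ℂ) :=
  {x | 0 < x.2.re ∧ th x.1.1 ∈ Ioo (5 : ℝ) 7 ∧ th x.1.1 + x.2.im ∈ Ioo (5 : ℝ) 7}

/-- its zero -/
noncomputable def zW : (ℂ × ℂ) × ℂ := ((ec (-1 / 5), ec (1 / 10)), 1)

theorem th_w0 : th (ec (-1 / 5)) = 6 := by
  have := th_ec (t := 6) (by norm_num)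
  rwa [show (6 : ℝ) / 20 - 1 / 2 = -1 / 5 by norm_num] at this

theorem slit_of {w : ℂ} (h : th w < 10) : w ∈ Complex.slitPlane := by
  refine Complex.mem_slitPlane_iff_arg.2 ⟨fun h1 => ?_, fun h1 => ?_⟩
  · rw [th, h1, mul_div_assoc, div_self Real.pi_ne_zero] at h
    norm_num at h
  · simp [th, h1] at h

theorem gW_deriv : ∃ L : (ℂ × ℂ) × ℂ →L[ℝ] (ℂ × ℂ) × ℂ, HasFDerivAt gW L zW ∧ L.det ≠ 0 := by
  have h1 : HasFDerivAt (fun x : (ℂ × ℂ) × ℂ => x.1.1) _ zW :=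
    hasFDerivAt_fst.comp (𝕜 := ℝ) _ hasFDerivAt_fst
  have h2 : HasFDerivAt (fun x : (ℂ × ℂ) × ℂ => x.1.2) _ zW :=
    hasFDerivAt_snd.comp (𝕜 := ℝ) _ hasFDerivAt_fst
  have h3 : HasFDerivAt (fun x : (ℂ × ℂ) × ℂ => x.2.im) _ zW :=
    Complex.imCLM.hasFDerivAt.comp _ hasFDerivAt_snd
  have h4 : HasFDerivAt (fun x : (ℂ × ℂ) × ℂ => (x.2.re : ℂ)) _ zW :=
    Complex.ofRealCLM.hasFDerivAt.comp _ (Complex.reCLM.hasFDerivAt.comp _ hasFDerivAt_snd)
  have h5 : HasFDerivAt (fun x : (ℂ × ℂ) × ℂ => th x.1.1) _ zW :=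
    HasFDerivAt.comp (g := th) zW (th_deriv (slit_of (th_w0.trans_lt (by norm_num)))) h1
  have h6 := (ec_deriv _).hasFDerivAt.comp zW
    ((h3.mul_const 20⁻¹).add ((h5.mul_const 20⁻¹).sub_const (1 / 2)))
  have h7 := (ec_deriv _).hasFDerivAt.comp zW
    (((eta_deriv _).hasFDerivAt.comp zW (h5.add h3)).mul_const 5⁻¹)
  refine ⟨_, ((h1.sub h6).prodMk (h2.sub h7)).prodMk ((h2.mul_const (ec (-1 / 10))).sub h4),
    fun h0 => (LinearMap.det_eq_zero_iff_ker_ne_bot.1 h0) (LinearMap.ker_eq_bot'.2 ?_)⟩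
  clear h0 h1 h2 h3 h4 h5 h6 h7
  rintro ⟨⟨w, c⟩, y⟩ hv
  have e1 : (zW.2.im * 20⁻¹ + (th zW.1.1 * 20⁻¹ - 1 / 2) : ℝ) = -1 / 5 := by
    simp only [zW, th_w0, Complex.one_im]
    norm_num
  have e2 : th zW.1.1 + zW.2.im = 6 := by simp [zW, th_w0]
  have e3 : eta 6 * 5⁻¹ = 1 / 10 := by
    rw [eta_six]
    norm_num
  have hS : 0 < S' ((6 - 5) / (7 - 5)) := S'_pos (by norm_num) (by norm_num)
  have hp := Real.pi_pos
  set β : ℝ := ((ec (-1 / 5))⁻¹ * w).im with hβ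
  have k1 : w - (20⁻¹ * y.im + 20⁻¹ * (10 / Real.pi * β)) •
      (ec (zW.2.im * 20⁻¹ + (th zW.1.1 * 20⁻¹ - 1 / 2)) * (2 * Real.pi * Complex.I)) = 0 :=
    congrArg (fun v => v.1.1) hv
  have k2 : c - (5⁻¹ * ((10 / Real.pi * β + y.im) *
      (S' ((th zW.1.1 + zW.2.im - 5) / (7 - 5)) * (1 / (7 - 5))))) •
      (ec (eta (th zW.1.1 + zW.2.im) * 5⁻¹) * (2 * Real.pi * Complex.I)) = 0 :=
    congrArg (fun v => v.1.2) hv
  have k3 : ec (-1 / 10) * c - y.re = 0 := congrArg (fun v => v.2) hv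
  rw [e1, sub_eq_zero] at k1
  rw [e2, e3, sub_eq_zero] at k2
  have k4 : β = (20⁻¹ * y.im + 20⁻¹ * (10 / Real.pi * β)) * (2 * Real.pi) := by
    nth_rw 1 [hβ, k1]
    rw [mul_smul_comm, inv_mul_cancel_left₀ (ec_ne _)]
    simp
  have k5 : y.im = 0 := by
    field_simp at k4
    nlinarith
  have k6 : ec (-1 / 10) * ec (1 / 10) = 1 := by
    rw [← ec_add, ← ec_zero]
    norm_num
  rw [k2, mul_smul_comm, ← mul_assoc (ec _), k6, one_mul, sub_eq_zero] at k3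
  have k7 : y.re = 0 := by simpa using (congrArg Complex.re k3).symm
  have k8 : β = 0 := by
    have k9 := congrArg Complex.im k3
    simp [k5, hS.ne', hp.ne'] at k9
    norm_num at k9
    exact k9
  rw [k1, k2, k5, k8]
  simp [Complex.ext_iff, k5, k7]

theorem gW_zero : gW zW = 0 := by
  have k6 : ec (1 / 10) * ec (-1 / 10) = 1 := by
    rw [← ec_add, ← ec_zero]
    norm_num
  simp only [gW, zW, th_w0, Complex.one_im, add_zero, eta_six, k6]
  norm_num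

theorem gW_uniq {x : (ℂ × ℂ) × ℂ} (hx : x ∈ dW) (h : gW x = 0) : x = zW := by
  obtain ⟨⟨w, c⟩, y⟩ := x
  obtain ⟨h0, h1, h2⟩ : 0 < y.re ∧ th w ∈ Ioo (5 : ℝ) 7 ∧ th w + y.im ∈ Ioo (5 : ℝ) 7 := hx
  have k1 : w = ec (y.im / 20 + (th w / 20 - 1 / 2)) :=
    sub_eq_zero.1 (congrArg (fun v => v.1.1) h)
  have k2 : c = ec (eta (th w + y.im) / 5) := sub_eq_zero.1 (congrArg (fun v => v.1.2) h)
  have k3 : c * ec (-1 / 10) = y.re := sub_eq_zero.1 (congrArg (fun v => v.2) h)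
  have k4 := th_ec (t := th w + y.im) ⟨by linarith [h2.1], by linarith [h2.2]⟩
  rw [show (th w + y.im) / 20 - 1 / 2 = y.im / 20 + (th w / 20 - 1 / 2) by ring, ← k1] at k4
  have k5 : y.im = 0 := by linarith
  rw [k2, ← ec_add] at k3
  have k6 : y.re = 1 := by
    have := congrArg norm k3
    rw [norm_ec, Complex.norm_real, Real.norm_of_nonneg h0.le] at this
    exact this.symm
  have k7 := eta_mem (th w + y.im)
  have k8 := ec_eq_one (abs_lt.2 ⟨by linarith [k7.1], by linarith [k7.2]⟩)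
    (k3.trans (by rw [k6]; rfl))
  have k9 : eta (th w + y.im) = 1 / 2 := by linarith
  have k10 : th w = 6 := by linarith [eta_half k9]
  refine Prod.ext (Prod.ext ?_ ?_) (Complex.ext k6 k5)
  · rw [k5, k10] at k1
    exact k1.trans (congrArg ec (by norm_num))
  · rw [k9] at k2
    exact k2.trans (congrArg ec (by norm_num))

theorem th_cont {w : ℂ} (h : th w < 10) : ContinuousAt th w := (th_deriv (slit_of h)).continuousAt

theorem continuous_eta : Continuous eta := continuous_iff_continuousAt.2 fun t =>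
  (eta_deriv t).continuousAt

theorem isOpen_win {X : Type} [TopologicalSpace X] {w : X → ℂ} {s : X → ℝ} (hw : Continuous w)
    (hs : Continuous s) :
    IsOpen {x | th (w x) ∈ Ioo (5 : ℝ) 7 ∧ th (w x) + s x ∈ Ioo (5 : ℝ) 7} :=
  isOpen_iff_mem_nhds.2 fun x hx => by
    have h1 := (th_cont (hx.1.2.trans (by norm_num))).comp hw.continuousAt
    exact Filter.inter_mem (h1.preimage_mem_nhds (isOpen_Ioo.mem_nhds hx.1))
      ((h1.add hs.continuousAt).preimage_mem_nhds (isOpen_Ioo.mem_nhds hx.2))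

theorem isOpen_dW : IsOpen dW :=
  (isOpen_lt (g := fun x : (ℂ × ℂ) × ℂ => x.2.re) continuous_const (by fun_prop)).inter
    (isOpen_win (w := fun x : (ℂ × ℂ) × ℂ => x.1.1) (s := fun x => x.2.im) (by fun_prop)
      (by fun_prop))

theorem cont_gW : ContinuousOn gW dW := fun x hx => by
  have h1 : ContinuousAt (fun x : (ℂ × ℂ) × ℂ => th x.1.1) x :=
    ContinuousAt.comp (g := th) (th_cont (hx.2.1.2.trans (by norm_num))) (by fun_prop)
  have h2 := continuous_ec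
  have h3 := continuous_eta
  refine ContinuousAt.continuousWithinAt ?_
  unfold gW
  fun_prop

/-- the change of the time -/
noncomputable def tW (N : ℝ) : ℂ →L[ℝ] ℂ :=
  Complex.ofRealCLM.comp Complex.reCLM +
    (N • Complex.imCLM).smulRight Complex.I

theorem det_tW (N : ℝ) : ((ContinuousLinearMap.id ℝ (ℂ × ℂ)).prodMap (tW N)).det = N := by
  have h := LinearMap.det_prodMap (LinearMap.id (R := ℝ) (M := ℂ × ℂ)) (tW N : ℂ →ₗ[ℝ] ℂ)
  refine h.trans ?_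
  rw [LinearMap.det_id, one_mul, ← LinearMap.det_toMatrix Complex.basisOneI, Matrix.det_fin_two]
  simp [LinearMap.toMatrix_apply, tW]

/-- the affine change of the time -/
noncomputable def aW (N a : ℝ) (x : (ℂ × ℂ) × ℂ) : (ℂ × ℂ) × ℂ :=
  (ContinuousLinearMap.id ℝ (ℂ × ℂ)).prodMap (tW N) x - (0, a * Complex.I)

theorem aW_eq (N a : ℝ) (x : (ℂ × ℂ) × ℂ) : aW N a x = (x.1, ⟨x.2.re, N * x.2.im - a⟩) := by
  refine Prod.ext (by simp [aW]) (Complex.ext ?_ ?_) <;> simp [aW, tW]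

theorem factor : ∃ D : ℤ, (D = 1 ∨ D = -1) ∧ ∀ N a : ℝ, 0 < N →
    Germ (aW N a ⁻¹' dW) (fun x => gW (aW N a x)) ∧
      pdeg (aW N a ⁻¹' dW) (fun x => gW (aW N a x)) = D := by
  obtain ⟨L, hL, hd⟩ := gW_deriv
  refine ⟨sg L.det, (lt_or_gt_of_ne hd).elim (fun h => Or.inr (sg_neg h))
    fun h => Or.inl (sg_pos h), fun N a hN => ?_⟩
  have hc : Continuous (aW N a) := by
    unfold aW
    fun_prop
  have hz : aW N a (zW.1, ⟨1, a / N⟩) = zW := by
    rw [aW_eq]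
    refine Prod.ext rfl (Complex.ext rfl ?_)
    simp [zW, mul_div_cancel₀ _ hN.ne']
  have hm : (zW.1, (⟨1, a / N⟩ : ℂ)) ∈ aW N a ⁻¹' dW := by
    rw [mem_preimage, hz]
    simp only [dW, zW, mem_ofPred_eq, th_w0]
    norm_num
  have hu : ∀ x ∈ aW N a ⁻¹' dW, gW (aW N a x) = 0 → x = (zW.1, (⟨1, a / N⟩ : ℂ)) := by
    intro x hx h0
    have h1 := gW_uniq hx h0
    rw [aW_eq] at h1
    have h2 : N * x.2.im - a = 0 := congrArg (fun v => v.2.im) h1
    refine Prod.ext (congrArg Prod.fst h1 :) (Complex.ext (congrArg (fun v => v.2.re) h1) ?_)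
    show x.2.im = a / N
    field_simp
    linarith
  have hO := isOpen_dW.preimage hc
  have hf : ContinuousOn (fun x => gW (aW N a x)) (aW N a ⁻¹' dW) :=
    cont_gW.comp hc.continuousOn fun _ hx => hx
  refine ⟨⟨hO, hf, SymA.cpt_congr (isCompact_singleton (x := (zW.1, (⟨1, a / N⟩ : ℂ)))) fun x =>
    ⟨?_, fun hx => hu x hx.1 hx.2⟩⟩, ?_⟩
  · rintro rfl
    exact ⟨hm, by rw [hz, gW_zero]⟩
  · have h1 : HasFDerivAt (fun x => gW (aW N a x))
        (L.comp ((ContinuousLinearMap.id ℝ (ℂ × ℂ)).prodMap (tW N))) (zW.1, ⟨1, a / N⟩) :=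
      HasFDerivAt.comp (g := gW) _ (hz.symm ▸ hL) ((ContinuousLinearMap.hasFDerivAt _).sub_const _)
    have h2 : (L.comp ((ContinuousLinearMap.id ℝ (ℂ × ℂ)).prodMap (tW N))).det = L.det * N :=
      (LinearMap.det_comp _ _).trans (congrArg _ (det_tW N))
    rw [pdeg_one hO hf hm (by rw [hz, gW_zero]) hu h1 (h2 ▸ mul_ne_zero hd hN.ne'), h2]
    rcases lt_or_gt_of_ne hd with h | h
    · rw [sg_neg h, sg_neg (mul_neg_of_neg_of_pos h hN)]
    · rw [sg_pos h, sg_pos (mul_pos h hN)]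

/-- the order of the coordinates -/
noncomputable def bW : (U1 × ℂ) ≃ₗ[ℝ] (((ℂ × ℂ) × ℂ) × (ℝ × ℝ)) where
  toFun y := (((y.1.1, y.1.2.2), y.2), y.1.2.1)
  invFun x := ((x.1.1.1, x.2, x.1.1.2), x.1.2)
  map_add' _ _ := rfl
  map_smul' _ _ := rfl
  left_inv _ := rfl
  right_inv _ := rfl

end Idx

open Idx in
/-- IDX -/
theorem stIdx : StIdx := by
  obtain ⟨D, hD, hf⟩ := factor
  refine ⟨D, hD, fun N a O Q hN hO => ?_⟩
  obtain ⟨h1, h2⟩ := hf N a hN
  have h3 := stLin _ _ bW.toContinuousLinearEquiv.symm bW.toContinuousLinearEquiv _ _ (h1.prod hO)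
  have h4 := (h1.prod hO).lin bW.toContinuousLinearEquiv.symm bW.toContinuousLinearEquiv
  rw [ContinuousLinearEquiv.coe_comp_coe_symm, stProdDeg _ _ _ _ _ _ h1 hO, h2] at h3
  have h5 : (ContinuousLinearMap.id ℝ (((ℂ × ℂ) × ℂ) × (ℝ × ℝ))).det = 1 := LinearMap.det_id
  rw [h5, sg_pos one_pos, one_mul] at h3
  have e1 : bW.toContinuousLinearEquiv ⁻¹' ((aW N a ⁻¹' dW) ×ˢ O) = windDom (pDom N a O) := by
    ext y
    simp only [mem_preimage, mem_prod, aW_eq]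
    exact ⟨fun h => ⟨h.1.1, h.1.2.1, h.1.2.2, h.2⟩, fun h => ⟨⟨h.1, h.2.1, h.2.2.1⟩, h.2.2.2⟩⟩
  rw [e1] at h3 h4
  have e2 : ∀ y ∈ windDom (pDom N a O), windMap (pMap N a Q) lab y =
      bW.toContinuousLinearEquiv.symm (gW (aW N a (bW.toContinuousLinearEquiv y).1),
        (bW.toContinuousLinearEquiv y).2 - Q (bW.toContinuousLinearEquiv y).2) := by
    intro y hy
    have h6 : y.1.1 ≠ 0 := Complex.slitPlane_ne_zero (slit_of (hy.2.1.2.trans (by norm_num)))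
    rw [aW_eq, windMap, pMap, unit_eq h6, ← ec_add]
    rfl
  have hop : IsOpen (pDom N a O) := by
    have := (isOpen_win (X := ℝ × U1) (w := fun y => y.2.1) (s := fun y => N * y.1 - a)
      (by fun_prop) (by fun_prop)).inter
      (hO.isOpen.preimage (f := fun y : ℝ × U1 => y.2.2.1) (by fun_prop))
    convert this using 1
    exact Set.ext fun _ => and_assoc.symm
  refine ⟨⟨hop, ?_, by unfold lab; fun_prop, ?_⟩, (pdeg_congr' e2).trans h3⟩
  · have h6 : ContinuousOn (fun y : ℝ × U1 => y.2.2.1 - Q y.2.2.1) (pDom N a O) :=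
      hO.cont.comp (by fun_prop) fun y hy => hy.2.2
    have h7 : ContinuousOn (fun y : ℝ × U1 => th y.2.1) (pDom N a O) := fun y hy =>
      (ContinuousAt.comp (g := th) (f := fun y : ℝ × U1 => y.2.1)
        (th_cont (hy.1.2.trans (by norm_num))) (by fun_prop)).continuousWithinAt
    have h8 : ContinuousOn (fun y : ℝ × U1 => ‖y.2.1‖⁻¹) (pDom N a O) :=
      ContinuousOn.inv₀ (by fun_prop) fun y hy => norm_ne_zero_iff.2
        (Complex.slitPlane_ne_zero (slit_of (hy.1.2.trans (by norm_num))))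
    have h9 := continuous_ec
    have h10 := continuous_eta
    refine ContinuousOn.prodMk ?_ (h6.prodMk ?_) <;> fun_prop
  · have h6 := (h4.congr e2).cpt.image (f := fun y : U1 × ℂ => (y.2.im, y.1)) (by fun_prop)
    refine SymA.cpt_congr h6 fun y => ⟨?_, fun ⟨k1, k2, r, k3, k4⟩ => ?_⟩
    · rintro ⟨x, ⟨k1, k2⟩, rfl⟩
      exact ⟨k1.2, (windMap_zero.1 k2).1, _, k1.1, (windMap_zero.1 k2).2⟩
    · exact ⟨(y.2, ⟨r, y.1⟩), ⟨⟨k3, k1⟩, windMap_zero.2 ⟨k2, k4⟩⟩, rfl⟩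

end Vale.Agent.P220Z.Hs
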