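import Vale.Agent.P220Z.Hs.WcA
import Vale.Agent.P220Z.Wc.Win
import Vale.Agent.P220Z.Hs.Idx

/-!
# P220, the suspended horseshoe: the winding number of the model
-/

open Set

namespace Vale.Agent.P220Z.Hs

open Vale.Agent.P220Z.Def Vale.Agent.P220Z.Deg

namespace Wc0

open Wa0 Win Wc

theorem iter_le {p : ℝ × ℝ} (hx : |p.1| ≤ 9) (hy : |p.2| ≤ 9) (n : ℕ) :
    |(PP^[n] p).1| ≤ 9 ∧ |(PP^[n] p).2| ≤ 9 := by
  induction n with
  | zero => exact ⟨hx, hy⟩
  | succ n ih =>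
    rw [Function.iterate_succ_apply']
    exact ⟨clp_le ih.1 _, clp_le ih.2 _⟩

theorem lt_one {q : ℝ × ℝ} (hy : |q.2| ≤ 9) (h : |q.2 + tent q.1| < 2) :
    3 / 10 < |q.1| ∧ |q.1| < 7 / 10 := by
  obtain ⟨a1, a2⟩ := abs_lt.1 h
  obtain ⟨a3, a4⟩ := abs_le.1 hy
  exact Fc.strip (abs_lt.2 ⟨by linarith, by linarith⟩)

theorem mem_BB {q : ℝ × ℝ} (hx : |q.1| ≤ 9) (hy : |q.2| ≤ 9) (h : |(PP q).1| < 1) :
    |q.2 + tent q.1| < 2 ∧ q ∈ BB (decide (q.1 < 0)) := by
  obtain ⟨-, h2, h3⟩ := back hx h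
  have h4 := lt_one hy (h3.trans one_lt_two)
  refine ⟨h3.trans one_lt_two, ?_, by linarith, ?_⟩
  · rcases lt_or_ge q.1 0 with h0 | h0
    · rw [abs_of_neg h0] at h4
      simp only [h0, decide_true, cc, if_true]
      exact abs_lt.2 ⟨by linarith [h4.2], by linarith [h4.1]⟩
    · rw [abs_of_nonneg h0] at h4
      simp only [not_lt.2 h0, decide_false, cc, Bool.false_eq_true, if_false]
      exact abs_lt.2 ⟨by linarith [h4.1], by linarith [h4.2]⟩
  · rw [← h2]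
    exact h.trans (by norm_num)

/-- a periodic orbit on the handle follows a word -/
theorem word {p : ℝ × ℝ} (hx : |p.1| ≤ 9) (hy : |p.2| ≤ 9) (h : |p.2 + tent p.1| < 2) {i : ℕ}
    (hp : PP^[i] p = p) : ∀ n < i, PP^[n] p ∈ BB (decide ((PP^[n] p).1 < 0)) := by
  have key : ∀ k n, n + k = i → |(PP^[n] p).2 + tent (PP^[n] p).1| < 2 := by
    intro k
    induction k with
    | zero =>
      intro n hn
      rw [show n = i from hn, hp]
      exact h
    | succ k ih =>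
      intro n hn
      have h1 := lt_one (iter_le hx hy (n + 1)).2 (ih (n + 1) (by omega))
      rw [Function.iterate_succ_apply'] at h1
      exact (mem_BB (iter_le hx hy n).1 (iter_le hx hy n).2 (by linarith [h1.2])).1
  intro n hn
  have h1 := lt_one (iter_le hx hy (n + 1)).2 (key (i - (n + 1)) (n + 1) (by omega))
  rw [Function.iterate_succ_apply'] at h1
  exact (mem_BB (iter_le hx hy n).1 (iter_le hx hy n).2 (by linarith [h1.2])).2

theorem BB_eq {l l' : Bool} {p : ℝ × ℝ} (h : p ∈ BB l) (h' : p ∈ BB l') : l = l' := by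
  obtain ⟨a1, a2⟩ := abs_lt.1 h.1
  obtain ⟨a3, a4⟩ := abs_lt.1 h'.1
  cases l <;> cases l' <;> simp [cc] at a1 a2 a3 a4 ⊢ <;> linarith

theorem cont_PP : Continuous PP := by
  have h := Sm.tent_smooth.continuous
  unfold PP fb clp
  fun_prop

/-- a word of finite length as a sequence -/
def ex {i : ℕ} (o : Fin i → Bool) (n : ℕ) : Bool := if h : n < i then o ⟨n, h⟩ else true

theorem ex_fin {i : ℕ} (o : Fin i → Bool) (n : Fin i) : ex o n = o n := dif_pos n.2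

/-- the time since the last full turn -/
def sig (K i : ℕ) (y : ℝ × U1) : ℝ := (20 * K + 3) * y.1 - (1 + 20 * ((i + 1 : ℕ) : ℝ))

/-- the piece that belongs to a word -/
def piece (K : ℕ) (k : Σ i : ℕ, Fin (i + 1) → Bool) : Set (ℝ × U1) :=
  {y | y ∈ domA ∧ y.2.1 ∈ Complex.slitPlane ∧ th y.2.1 ∈ Ioo (5 : ℝ) 7 ∧
    th y.2.1 + sig K k.1 y ∈ Ioo (5 : ℝ) 7 ∧ y.2.2.1 ∈ cyl PP BB (k.1 + 1) (ex k.2) ∧
    |(PP^[k.1 + 1] y.2.2.1).1 + 1 / 2| < 1 / 4 ∧ y.2.2.2 * ec (-(eta (th y.2.1) / 5)) ∈ Sec}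

theorem isOpen_piece (h : IsOpen domA) (K : ℕ) (k : Σ i : ℕ, Fin (i + 1) → Bool) :
    IsOpen (piece K k) := by
  have c0 : Continuous fun y : ℝ × U1 => y.2.1 := by fun_prop
  have c1 : ContinuousOn (fun y : ℝ × U1 => th y.2.1) {y | y.2.1 ∈ Complex.slitPlane} :=
    fun y hy => (continuousAt_const.add ((continuousAt_const.mul (ContinuousAt.comp
      (f := fun y : ℝ × U1 => y.2.1) (Complex.continuousAt_arg hy) c0.continuousAt)).div_const
        _)).continuousWithinAt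
  have c2 : Continuous (sig K k.1) := by
    unfold sig
    fun_prop
  have c3 : Continuous fun t => ec (-(eta t / 5)) :=
    Sm.ec_smooth.continuous.comp (Sm.eta_smooth.continuous.div_const 5).neg
  have c4 : Continuous fun y : ℝ × U1 => |(PP^[k.1 + 1] y.2.2.1).1 + 1 / 2| :=
    ((continuous_fst.comp ((cont_PP.iterate _).comp (by fun_prop))).add continuous_const).abs
  have o0 := Complex.isOpen_slitPlane.preimage c0
  have o1 := c1.isOpen_inter_preimage o0 (isOpen_Ioo (a := (5 : ℝ)) (b := 7))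
  have o2 := (c1.add c2.continuousOn).isOpen_inter_preimage o0 (isOpen_Ioo (a := (5 : ℝ)) (b := 7))
  have o3 := (isOpen_cyl (i := k.1 + 1) (om := ex k.2) isOpen_BB PP_eq).preimage
    (by fun_prop : Continuous fun y : ℝ × U1 => y.2.2.1)
  have o4 := isOpen_lt c4 (continuous_const (y := (1 / 4 : ℝ)))
  have o5 := ((by fun_prop : Continuous fun y : ℝ × U1 => y.2.2.2).continuousOn.mul
    (c3.comp_continuousOn c1)).isOpen_inter_preimage o0 isOpen_Sec
  have o6 := h.inter (o1.inter (o2.inter (o3.inter (o4.inter o5))))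
  refine (Set.ext fun y => ?_ : _ = piece K k) ▸ o6
  exact ⟨fun hy => ⟨hy.1, hy.2.1.1, hy.2.1.2, hy.2.2.1.2, hy.2.2.2.1, hy.2.2.2.2.1,
    hy.2.2.2.2.2.2⟩, fun hy => ⟨hy.1, ⟨hy.2.1, hy.2.2.1⟩, ⟨hy.2.1, hy.2.2.2.1⟩, hy.2.2.2.2.1,
      hy.2.2.2.2.2.1, hy.2.1, hy.2.2.2.2.2.2⟩⟩

theorem first {i : ℕ} {o : Fin (i + 1) → Bool} (h0 : o 0 = true) {p : ℝ × ℝ}
    (hp : p ∈ cyl PP BB (i + 1) (ex o)) : p ∈ BB true := by
  have := hp 0 (Nat.succ_pos i)
  rwa [show ex o 0 = true from (ex_fin o 0).trans h0] at this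

theorem strip_one {p : ℝ × ℝ} (h : p ∈ BB true) : |p.1 + 1 / 2| < 1 / 5 := by
  have := h.1
  simp only [cc, if_true] at this
  obtain ⟨a1, a2⟩ := abs_lt.1 this
  exact abs_lt.2 ⟨by linarith, by linarith⟩

/-- the model on a piece -/
theorem smB_piece {K : ℕ} {j : ZMod 5} {k : Σ i : ℕ, Fin (i + 1) → Bool} (hk : k.1 < K)
    (h0 : k.2 0 = true) (hj : ct k.2 = j) {y : ℝ × U1} (hy : y ∈ piece K k) : smB K j y =
      (y.2.1 - ec (sig K k.1 y / 20) * (((‖y.2.1‖⁻¹ : ℝ) : ℂ) * y.2.1),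
        y.2.2.1 - PP^[k.1 + 1] y.2.2.1, y.2.2.2 - ec (eta (th y.2.1 + sig K k.1 y) / 5)) := by
  obtain ⟨hA, hs, h1, h2, h3, h4, h5⟩ := hy
  have hk' : ((k.1 + 1 : ℕ) : ℝ) ≤ K := by exact_mod_cast hk
  have hk0 : (1 : ℝ) ≤ ((k.1 + 1 : ℕ) : ℝ) := by exact_mod_cast Nat.succ_pos k.1
  have e1 : (20 * K + 3) * y.1 - 1 = 20 * ((k.1 + 1 : ℕ) : ℝ) + sig K k.1 y := by
    rw [sig]
    ring
  have e2 : tm K ((20 * K + 3) * y.1 - 1) = 20 * ((k.1 + 1 : ℕ) : ℝ) + sig K k.1 y := by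
    rw [e1, tm, min_eq_right (by linarith [h1.1, h2.2]), max_eq_right (by linarith [h1.2, h2.1])]
  have e3 : ec ((20 * ((k.1 + 1 : ℕ) : ℝ) + sig K k.1 y) / 20) = ec (sig K k.1 y / 20) := by
    have : (20 * ((k.1 + 1 : ℕ) : ℝ) + sig K k.1 y) / 20 =
        (((k.1 + 1 : ℕ) : ℤ) : ℝ) + sig K k.1 y / 20 := by
      push_cast
      ring
    rw [this, Fc.ec_add, ec_int, one_mul]
  have e4 : (fun n : Fin (k.1 + 1) => ex k.2 n) = k.2 := funext (ex_fin k.2)
  rw [smB_eq K j (Complex.slitPlane_ne_zero hs), e2, e3,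
    evb_win (Ioo_subset_Icc_self h1) (Ioo_subset_Icc_self h2) (by omega),
    evm_win (Ioo_subset_Icc_self h1) (Ioo_subset_Icc_self h2) _
      ((ex_fin k.2 0).trans h0) h3 h4 (by omega),
    kk_one (by linarith [strip_one (first h0 h3)]), rt_sec h5, e4, hj, mul_assoc, ← Fc.ec_add,
    ← mul_assoc (om (-j) : ℂ), ← Wa0.om_add, neg_add_cancel, om_zero, one_mul]
  congr 4
  ring

theorem th_six : th (ec (-1 / 5)) = 6 := by
  have h := arg_ec (r := 1) (a := -1 / 5) one_pos (by norm_num) (by norm_num)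
  rw [Complex.ofReal_one, one_mul] at h
  rw [th, h]
  field_simp
  ring

/-- the crossing that belongs to a periodic point -/
theorem mem_piece {K : ℕ} {k : Σ i : ℕ, Fin (i + 1) → Bool} (hk : k.1 < K) (h0 : k.2 0 = true)
    {p : ℝ × ℝ} (hp : p ∈ cyl PP BB (k.1 + 1) (ex k.2)) (hz : p - PP^[k.1 + 1] p = 0) :
    (((1 + 20 * ((k.1 + 1 : ℕ) : ℝ)) / (20 * K + 3), ec (-1 / 5), p, ec (1 / 10)) : ℝ × U1) ∈
      piece K k := by
  have hk' : ((k.1 + 1 : ℕ) : ℝ) ≤ K := by exact_mod_cast hk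
  have hk0 : (1 : ℝ) ≤ ((k.1 + 1 : ℕ) : ℝ) := by exact_mod_cast Nat.succ_pos k.1
  have hN : (0 : ℝ) < 20 * K + 3 := by positivity
  have hB := first h0 hp
  have hx := strip_one hB
  obtain ⟨a1, a2⟩ := abs_lt.1 hx
  obtain ⟨a3, a4⟩ := abs_lt.1 hB.2.2
  have hz' := (sub_eq_zero.1 hz).symm
  have hq := hp k.1 (Nat.lt_succ_self _)
  have hy : |p.2| < 8 := by
    have h1 := congrArg Prod.snd (PP_eq _ _ hq)
    rw [← Function.iterate_succ_apply' PP, hz'] at h1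
    have h2 := (back (q := PP^[k.1] p) ((abs_le.2 (by
      obtain ⟨b1, b2⟩ := abs_lt.1 hq.1
      cases hl : ex k.2 k.1 <;> simp [hl, cc] at b1 b2 <;> constructor <;> linarith)))
      (by
        rw [show fb 0 0 20 (PP^[k.1] p) = PP^[k.1 + 1] p from
          (Function.iterate_succ_apply' PP _ _).symm, hz']
        exact abs_lt.2 ⟨by linarith, by linarith⟩))
    rw [show fb 0 0 20 (PP^[k.1] p) = PP^[k.1 + 1] p from
      (Function.iterate_succ_apply' PP _ _).symm, hz'] at h2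
    rw [h2.1]
    exact hq.2.1
  have e0 : sig K k.1 (((1 + 20 * ((k.1 + 1 : ℕ) : ℝ)) / (20 * K + 3), ec (-1 / 5), p,
      ec (1 / 10)) : ℝ × U1) = 0 := by
    rw [sig, mul_div_cancel₀ _ hN.ne']
    ring
  have e1 : mu0 0 0 6 p.1 p.2 = 1 := by
    rw [mu0_win ⟨by norm_num, by norm_num⟩]
    exact Fc.bp_one (abs_le.2 ⟨by linarith, by linarith⟩)
  have e2 : ec (1 / 10) ^ 5 = kk 6 p.1 := by
    rw [kk_one (by linarith), Idx.eta_six, ← Fc.ec_pow (1 / 2)]
    norm_num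
  refine ⟨⟨⟨⟨div_pos (by linarith) hN, (div_lt_one hN).2 (by linarith)⟩, ?_, ec_ne _⟩, ?_, ?_⟩,
    ?_, ?_, ?_, hp, ?_, ?_⟩
  · have b1 : ps (p.1 ^ 2) = 0 := Sm.ps_zero (by nlinarith)
    have b2 : ps (p.2 ^ 2) = 0 := Sm.ps_zero (by
      obtain ⟨b3, b4⟩ := abs_lt.1 hy
      nlinarith)
    have b3 : oo 1 = 0 := by rw [oo, Sm.st_one (by norm_num) (by norm_num), sub_self, mul_zero]
    simp only [F1, th_six, Fc.norm_ec, e2, b1, b2, one_pow, b3, mul_one,
      Sm.ps_zero (t := 1) (by norm_num), Sm.ps_zero (t := 5) (by norm_num)]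
    norm_num
  · simp only [Fc.norm_ec]
    norm_num
  · simp only [th_six, e1]
    norm_num
  · refine Complex.mem_slitPlane_iff_arg.2 ⟨fun h => ?_, ec_ne _⟩
    have h6 := th_six
    rw [th, h, mul_div_assoc, div_self Real.pi_ne_zero] at h6
    norm_num at h6
  · simp only [th_six]
    norm_num
  · simp only [th_six, e0]
    norm_num
  · simp only [hz']
    linarith
  · simp only [th_six, Idx.eta_six]
    have := mem_Sec (r := 1) (β := 0) one_pos (by norm_num)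
    rw [← Fc.ec_add]
    norm_num at this ⊢
    exact this

/-- the words of length at most `K` with first letter `true` and `j` letters `true` -/
def words (K : ℕ) (j : ZMod 5) : Finset (Σ i : ℕ, Fin (i + 1) → Bool) :=
  (Finset.range K).sigma fun _ => Finset.univ.filter fun o => o 0 = true ∧ ct o = j

theorem mem_words {K : ℕ} {j : ZMod 5} {k : Σ i : ℕ, Fin (i + 1) → Bool} :
    k ∈ words K j ↔ k.1 < K ∧ k.2 0 = true ∧ ct k.2 = j := by
  simp [words]

theorem disj (K : ℕ) (j : ZMod 5) :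
    (words K j : Set (Σ i : ℕ, Fin (i + 1) → Bool)).PairwiseDisjoint (piece K) := by
  rintro ⟨i, o⟩ - ⟨i', o'⟩ - hne
  refine disjoint_left.2 fun y hy hy' => hne ?_
  obtain ⟨-, -, h1, h2, h3, -⟩ := hy
  obtain ⟨-, -, -, h2', h3', -⟩ := hy'
  obtain rfl : i = i' := by
    simp only [sig] at h2 h2'
    push_cast at h2 h2'
    have a1 : (i : ℝ) < i' + 1 := by linarith [h2.1, h2'.2]
    have a2 : (i' : ℝ) < i + 1 := by linarith [h2.2, h2'.1]
    have a3 : i < i' + 1 := by exact_mod_cast a1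
    have a4 : i' < i + 1 := by exact_mod_cast a2
    omega
  refine congrArg _ (funext fun n => ?_)
  rw [← ex_fin o n, ← ex_fin o' n]
  exact BB_eq (h3 n n.2) (h3' n n.2)

/-- every zero with a positive label lies in a piece -/
theorem cover {K : ℕ} {j : ZMod 5} (hj : j ≠ 0) {y : ℝ × U1} (hy : y ∈ domA) (hz : smB K j y = 0)
    {r : ℝ} (hr : 0 < r) (hl : lab y = r) : ∃ k ∈ words K j, y ∈ piece K k := by
  have hc : y.2.2.2 = r * ec (1 / 10) := by
    rw [← hl, lab, mul_assoc, ← Fc.ec_add]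
    norm_num [Fc.ec_zero]
  obtain ⟨hw, hx9, hy9, -⟩ := domA_facts hy
  obtain ⟨h1, h2, h3⟩ := pos_label hy hr hc
  have hη : eta (th y.2.1) ∈ Ioo (0 : ℝ) 1 :=
    ⟨Sm.st_pos (by norm_num) h1.1, Sm.st_lt_one (by norm_num) h1.2⟩
  have hβ : |1 / 10 + -(eta (th y.2.1) / 5)| < 1 / 10 :=
    abs_lt.2 ⟨by linarith [hη.2], by linarith [hη.1]⟩
  have hS : y.2.2.2 * ec (-(eta (th y.2.1) / 5)) ∈ Sec := by
    rw [hc, mul_assoc, ← Fc.ec_add]
    exact mem_Sec hr hβ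
  rw [smB_eq K j hw, kk_one (by linarith), rt_sec hS] at hz
  set s := tm K ((20 * K + 3) * y.1 - 1) with hs
  have z1 := sub_eq_zero.1 (congrArg Prod.fst hz)
  have z2 := sub_eq_zero.1 (congrArg (fun v : U1 => v.2.1) hz)
  have z3 := sub_eq_zero.1 (congrArg (fun v : U1 => v.2.2) hz)
  have n1 : ‖y.2.1‖ = 1 := by
    have := congrArg norm z1
    rwa [norm_mul, Fc.norm_ec, norm_unit hw, mul_one] at this
  rw [n1, inv_one, Complex.ofReal_one, one_mul] at z1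
  obtain ⟨n, hn⟩ := ec_eq_one (mul_right_cancel₀ hw (z1.symm.trans (one_mul _).symm))
  have s0 : 0 ≤ s := le_max_left _ _
  have s1 : s ≤ 20 * K + 2 := max_le (by positivity) (min_le_left _ _)
  have key : ∀ m : ZMod 5, evm (th y.2.1) s (K + 2) y.2.2.1 = om m → m = j := fun m hm => by
    rw [hm, hc, ← mul_assoc, ← Wa0.om_add] at z3
    have : (om (-j + m) : ℂ) = r * ec (1 / 10 + -(eta (th y.2.1) / 5)) := by
      rw [Fc.ec_add, ← mul_assoc, z3, mul_assoc, ← Fc.ec_add, add_neg_cancel, Fc.ec_zero, mul_one]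
    exact (neg_add_eq_zero.1 (om_sector hr (hβ.trans (by norm_num)) this)).symm
  have n0 : 0 < n := by
    have a1 : (0 : ℝ) ≤ n := by linarith
    refine lt_of_le_of_ne (by exact_mod_cast a1) fun h0 => hj ?_
    have a2 : s = 0 := by
      rw [← h0, Int.cast_zero] at hn
      linarith
    exact (key 0 (by rw [a2, evm_zero, om_zero])).symm
  obtain ⟨i, rfl⟩ : ∃ i : ℕ, n = ((i + 1 : ℕ) : ℤ) := ⟨(n - 1).toNat, by omega⟩
  have e1 : s = 20 * ((i + 1 : ℕ) : ℝ) + 0 := by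
    rw [Int.cast_natCast] at hn
    linarith
  have hi : i < K := by
    have a1 : ((i + 1 : ℕ) : ℝ) < K + 1 := by linarith
    have a2 : i + 1 < K + 1 := by exact_mod_cast a1
    omega
  have hi' : ((i + 1 : ℕ) : ℝ) ≤ K := by exact_mod_cast hi
  have hi0 : (1 : ℝ) ≤ ((i + 1 : ℕ) : ℝ) := by exact_mod_cast Nat.succ_pos i
  have e2 : sig K i y = 0 := by
    have a1 : s = (20 * K + 3) * y.1 - 1 := by
      have a2 := hs
      rw [tm] at a2
      rcases max_choice 0 (min (20 * (K : ℝ) + 2) ((20 * K + 3) * y.1 - 1)) with a3 | a3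
      · linarith
      · rcases min_choice (20 * (K : ℝ) + 2) ((20 * K + 3) * y.1 - 1) with a4 | a4 <;> linarith
    rw [sig]
    linarith
  have w1 := Ioo_subset_Icc_self h1
  have w2 : th y.2.1 + 0 ∈ Icc (5 : ℝ) 7 := by rwa [add_zero]
  rw [e1, evb_win w1 w2 (by omega)] at z2
  have hw' := word hx9 hy9 h2 z2.symm
  have hcyl : y.2.2.1 ∈ cyl PP BB (i + 1)
      (ex fun n : Fin (i + 1) => decide ((PP^[n] y.2.2.1).1 < 0)) := fun n hn => by
    rw [ex, dif_pos hn]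
    exact hw' n hn
  have h00 : decide ((PP^[((0 : Fin (i + 1)) : ℕ)] y.2.2.1).1 < 0) = true :=
    decide_eq_true (by
      show y.2.2.1.1 < 0
      linarith [(abs_lt.1 h3).2])
  have hl4 : |(PP^[i + 1] y.2.2.1).1 + 1 / 2| < 1 / 4 := by
    rw [← z2]
    linarith
  refine ⟨⟨i, fun n => decide ((PP^[n] y.2.2.1).1 < 0)⟩, mem_words.2 ⟨hi, h00, key _ ?_⟩, hy,
    Complex.mem_slitPlane_iff_arg.2 ⟨fun h => ?_, hw⟩, h1, by rwa [e2, add_zero], hcyl, hl4, hS⟩
  · rw [e1, evm_win w1 w2 _ ((ex_fin _ 0).trans h00) hcyl hl4 (by omega), add_zero, sub_self,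
      zero_div, Fc.ec_zero, mul_one, funext (ex_fin _)]
  · have h7 := h1.2
    rw [th, h, mul_div_assoc, div_self Real.pi_ne_zero] at h7
    norm_num at h7

/-- the crossings of the product model -/
theorem cross {N a : ℝ} (hN : 0 < N) {O : Set (ℝ × ℝ)} {Q : ℝ × ℝ → ℝ × ℝ} {y : ℝ × U1}
    (hy : y ∈ pDom N a O) (hz : pMap N a Q y = 0) {r : ℝ} (hr : 0 < r) (hl : lab y = r) :
    y = (a / N, ec (-1 / 5), y.2.2.1, ec (1 / 10)) ∧ y.2.2.1 - Q y.2.2.1 = 0 := by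
  have hp := Real.pi_pos
  obtain ⟨h1, h2, -⟩ := hy
  have hw : y.2.1 ≠ 0 := fun h => by
    have h7 := h1.2
    rw [th, h, Complex.arg_zero] at h7
    norm_num at h7
  have z1 := sub_eq_zero.1 (congrArg Prod.fst hz)
  have z3 := sub_eq_zero.1 (congrArg (fun v : U1 => v.2.2) hz)
  have n1 : ‖y.2.1‖ = 1 := by
    have := congrArg norm z1
    rwa [norm_mul, Fc.norm_ec, norm_unit hw, mul_one] at this
  rw [n1, inv_one, Complex.ofReal_one, one_mul] at z1
  obtain ⟨n, hn⟩ := ec_eq_one (mul_right_cancel₀ hw (z1.symm.trans (one_mul _).symm))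
  have a1 : (-1 : ℝ) < n := by linarith [h1.2, h2.1]
  have a2 : (n : ℝ) < 1 := by linarith [h1.1, h2.2]
  have a3 : -1 < n := by exact_mod_cast a1
  have a4 : n < 1 := by exact_mod_cast a2
  obtain rfl : n = 0 := by omega
  have e0 : N * y.1 - a = 0 := by
    rw [Int.cast_zero] at hn
    linarith
  rw [e0, add_zero] at z3
  have hη := Idx.eta_mem (th y.2.1)
  have e1 := arg_ec (r := 1) (a := eta (th y.2.1) / 5 + -1 / 10) one_pos (by linarith [hη.1])
    (by linarith [hη.2])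
  rw [Complex.ofReal_one, one_mul, Fc.ec_add, ← z3, ← lab, hl, Complex.arg_ofReal_of_nonneg hr.le]
    at e1
  have e2 : eta (th y.2.1) = 1 / 2 := by nlinarith
  have e3 := Idx.eta_half e2
  have e4 : Complex.arg y.2.1 / (2 * Real.pi) = -1 / 5 := by
    rw [th] at e3
    field_simp at e3 ⊢
    linarith
  refine ⟨Prod.ext ?_ (Prod.ext ?_ (Prod.ext rfl ?_)), congrArg (fun v : U1 => v.2.1) hz⟩
  · rw [eq_div_iff hN.ne']
    linarith
  · have := polar y.2.1
    rwa [n1, e4, Complex.ofReal_one, one_mul] at this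
  · rw [z3, e2]
    norm_num

theorem wN_piece {D : ℤ} (hD : ∀ (N a : ℝ) (O : Set (ℝ × ℝ)) (Q : ℝ × ℝ → ℝ × ℝ), 0 < N →
      Germ O (fun p => p - Q p) → WR (pDom N a O) (pMap N a Q) lab ∧
        wN (pDom N a O) (pMap N a Q) lab = D * pdeg O fun p => p - Q p)
    (h : IsOpen domA) {K : ℕ} {j : ZMod 5} {k : Σ i : ℕ, Fin (i + 1) → Bool}
    (hk : k ∈ words K j) : wN (piece K k) (smB K j) lab = -D * ∏ n, sl (k.2 n) := by
  obtain ⟨h1, h2, h3⟩ := mem_words.1 hk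
  have hN : (0 : ℝ) < 20 * K + 3 := by positivity
  obtain ⟨hg, hd⟩ := pdeg_cyl (a := 1) (b := 1) (La := 100) (ka := 100) (C := 1 / 2) (c := cc)
    (by norm_num) (by norm_num) (by norm_num) (by norm_num) (by norm_num)
    abs_cc isOpen_BB PP_eq BB_in (Nat.succ_pos k.1) (ex k.2)
  obtain ⟨hR, he⟩ := hD _ (1 + 20 * ((k.1 + 1 : ℕ) : ℝ)) _ _ hN hg
  rw [wN_congr (Φ := pMap (20 * K + 3) (1 + 20 * ((k.1 + 1 : ℕ) : ℝ)) PP^[k.1 + 1]) (η := lab)
      fun y hy => ⟨smB_piece h1 h2 h3 hy, rfl⟩,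
    wN_mono hR (isOpen_piece h K k) (fun y hy => ⟨hy.2.2.1, hy.2.2.2.1, hy.2.2.2.2.1⟩)
      fun y hy hz r hr hl => ?_, he, hd, Finset.prod_range,
    Finset.prod_congr rfl fun n _ => congrArg sl (ex_fin k.2 n)]
  · ring
  · obtain ⟨e1, e2⟩ := cross hN hy hz hr hl
    rw [e1]
    exact mem_piece h1 h2 hy.2.2 e2

theorem cW_eq : ∀ j : ZMod 5, j ≠ 0 → cW j = 2 * 3 ^ j.val := by decide

end Wc0

open Wc0 Wc in
theorem stWc : StWc := by
  intro w hw K hK
  obtain ⟨D, hD1, hD⟩ := stIdx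
  refine ⟨-(D : ZMod 5) * 2, ?_, fun j hj hL => ?_⟩
  · rcases hD1 with h | h <;> rw [h] <;> decide
  have hc : Continuous lab := by
    unfold lab
    fun_prop
  have hne : ∀ y ∈ domA, smB K j y = 0 → lab y ≠ 0 := fun y hy _ =>
    mul_ne_zero hy.1.2.2 (Wa0.ec_ne _)
  have hG : WG domA (smB K j) lab := ⟨hL.op, hL.cont, hc.continuousOn, hL.cpt, hne⟩
  rw [hw.good U1 _ _ _ lab hL hc.continuousOn (fun t z _ => by simp [lab, mul_assoc]) hne]
  change ((wN domA (smB K j) lab : ℤ) : ZMod 5) = _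
  rw [wN_sum hG.wr (words K j) (fun k _ => isOpen_piece hL.op K k) (fun _ _ _ hy => hy.1) (disj K j)
      fun y hy hz r hr hl => cover hj hy hz hr hl,
    Finset.sum_congr rfl fun k hk => wN_piece hD hL.op hk, ← Finset.mul_sum, mul_assoc, ← cW_eq j hj,
    ← sum_wB hK, words, Finset.sum_sigma]
  push_cast
  refine congrArg _ (Finset.sum_congr rfl fun i _ => ?_)
  rw [wB, Finset.sum_filter]
  push_cast
  rfl

end Vale.Agent.P220Z.Hs
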