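import Vale.Agent.P220Z.Hs.Sk

/-!
# P220, the suspended horseshoe: weights over the base
-/

open Set

namespace Vale.Agent.P220Z.Hs

open Vale.Agent.P220Z.Def

namespace Wt

theorem cl_mem (x : ℝ) : cl x ∈ Icc (0 : ℝ) 1 :=
  ⟨le_max_left _ _, max_le zero_le_one (min_le_left _ _)⟩

theorem cl_cont : Continuous cl := by
  unfold cl
  fun_prop

end Wt

theorem stWt : StWt := by
  obtain ⟨k, lb, h1, -, h3, h4, h5⟩ := Top.exists_cover5
  refine ⟨2 * k + 5, fun j b i => if h : Odd j ∧ j / 2 < k then 2 * cl (lb ⟨j / 2, h.2⟩ b i) else 0,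
    by omega, fun j i => ?_, fun j b i => ?_, fun j b i h => ?_, fun j b hb i i' h h' => ?_,
    fun j g b _ i => ?_, fun b hb => ?_⟩
  · split_ifs with h
    · exact continuous_const.mul (Wt.cl_cont.comp (h1 _ i))
    · exact continuous_const
  · split_ifs with h
    · have h6 := Wt.cl_mem (lb ⟨j / 2, h.2⟩ b i)
      exact ⟨by linarith [h6.1], by linarith [h6.2]⟩
    · exact ⟨le_rfl, zero_le_two⟩
  · split_ifs at h with h6
    · exact ⟨h6.1, by omega⟩
    · exact (h rfl).elim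
  · split_ifs at h h' with h6
    · obtain ⟨i₀, h7⟩ := h4 ⟨j / 2, h6.2⟩ b hb
      have h8 : ∀ i, 2 * cl (lb ⟨j / 2, h6.2⟩ b i) ≠ 0 → i = i₀ := fun i hi =>
        by_contra fun h9 => hi (by simp [h7 i h9, cl])
      rw [h8 i h, h8 i' h']
    · exact (h rfl).elim
  · split_ifs with h
    · rw [← h3 _ g b (i - g.toAdd.2), sub_add_cancel]
    · rfl
  · obtain ⟨n, i, h⟩ := h5 b hb
    have h6 : (2 * n.val + 1) / 2 = n.val := by omega
    refine ⟨2 * n.val + 1, i, ?_⟩
    rw [dif_pos ⟨odd_two_mul_add_one _, h6.symm ▸ n.2⟩]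
    simp [h6, h, cl]

end Vale.Agent.P220Z.Hs
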