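import Vale.Agent.P220Z.Tb.All
import Vale.Agent.P220Z.Hs.RegSt
import Vale.Agent.P220Z.Hs.EvS
import Vale.Agent.P220Z.Hs.HsF
import Vale.Agent.P220Z.Hs.Path
import Vale.Agent.P220Z.Hs.St
import Vale.Agent.P220Z.Hs.Wt
import Vale.Agent.P220Z.Hs.Wa
import Vale.Agent.P220Z.Hs.Wb
import Vale.Agent.P220Z.Hs.Wc

/-!
# P220: Theorem B
-/

namespace Vale.Agent.P220Z.Hs

theorem stM1' : StM1 := stM1 fun K => ⟨Ev.m0_cont K, Ev.m0_mem K⟩

theorem stThB : Top.StThB :=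
  stThB_of Tb.b0 (stPath stReg) stWt (stHs stCont stMem stReg) (stSt stReg) (stWa stPer stM1')
    (stWb stM1') stWc

end Vale.Agent.P220Z.Hs
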