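import Vale.Agent.P220Z.Rig.Defs
import Vale.Agent.P220Z.Top.Join

/-!
# P220, the suspended horseshoe over a torus: definitions

Coordinates `(w, x, y, v)` in `ℂ × ℝ × ℝ × ℂ⁵`; the time `th w` in `(0, 20]` is the angle of `w`.
-/

open Set
open scoped ContDiff

namespace Vale.Agent.P220Z.Hs

open Vale.Agent.P220Z.Def

/-! ### functions of one variable -/

/-- smooth step, `0` up to `a` and `1` from `b` on -/
noncomputable def st (a b t : ℝ) : ℝ := Real.smoothTransition ((t - a) / (b - a))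

/-- the wall, `0` up to `64` -/
noncomputable def ps (t : ℝ) : ℝ := (t - 64) * st 64 65 t

/-- the bump, `1` on `[-1, 1]` and `0` outside `(-2, 2)` -/
noncomputable def bp (t : ℝ) : ℝ := 1 - st 1 4 (t ^ 2)

/-- the tent, `100 (1/2 - |x|)` for `1/4 ≤ |x|` -/
noncomputable def tent (x : ℝ) : ℝ := 100 * (1 / 2 - x * (2 * st (-1 / 4) (1 / 4) x - 1))

/-- `1` on `[-3/4, -1/4]`, `0` outside `(-1, 0)` -/
noncomputable def ch1 (x : ℝ) : ℝ := st (-1) (-3 / 4) x * (1 - st (-1 / 4) 0 x)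

/-- `exp (2 π i t)` -/
noncomputable def ec (t : ℝ) : ℂ := Complex.exp (((2 * Real.pi * t : ℝ) : ℂ) * Complex.I)

/-- the angle as a time in `(0, 20]` -/
noncomputable def th (w : ℂ) : ℝ := 10 + 10 * Complex.arg w / Real.pi

/-- the first shear -/
noncomputable def aA (σ t : ℝ) : ℝ := 1 - σ / 2 * st 2 8 t - (1 - σ / 2) * st 7 9 t

/-- the second shear -/
noncomputable def aB (t : ℝ) : ℝ := 1 - st 17 19 t

/-- the twist -/
noncomputable def eta (t : ℝ) : ℝ := st 5 7 t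

/-- a function of the squared radius: `0` for `r ≤ 1/4`, `1` for `1/2 ≤ r` -/
noncomputable def chi (n : ℝ) : ℝ := st (1 / 16) (1 / 4) n

/-- a function of the squared radius: `2` for `r ≤ 1/2`, `0` for `3/4 ≤ r` -/
noncomputable def oo (n : ℝ) : ℝ := 2 * (1 - st (1 / 4) (9 / 16) n)

/-- the moving front -/
noncomputable def nu (s t : ℝ) : ℝ := st 0 1 (s - (t - 20 * st 4 6 t))

/-- projection to `[0, 1]` -/
def cl (x : ℝ) : ℝ := max 0 (min 1 x)

/-- projection of `z` to the interval of radius `max 8 |y|` -/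
def clp (y z : ℝ) : ℝ := max (-max 8 |y|) (min (max 8 |y|) z)

/-! ### the domain -/

/-- the weight of the handle -/
noncomputable def mu0 (σ c t x y : ℝ) : ℝ :=
  (1 - (1 - st 4 5 t) * (1 - bp x)) *
    (1 - (st 1 3 t - st 14 15 t) * (1 - bp (y + aA σ t * (tent x - c)))) *
    (1 - st 11 13 t * (1 - bp (x + aB t * (100 * y))))

/-- the position of the torus -/
noncomputable def kk (t x : ℝ) : ℂ := 1 + ch1 x * (ec (eta t) - 1)

/-- the function that vanishes on the torus -/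
noncomputable def qq (A B : ℝ) (v : ZMod 5 → ℂ) (k : ℂ) : ℝ :=
  ∑ i, (if i = 0 then A else 1) * (‖v i‖ ^ 2 - 1) ^ 2 + ‖∏ i, v i - B * k‖ ^ 2

/-- the fibre coordinates -/
abbrev Z0 : Type := (ℝ × ℝ) × (ZMod 5 → ℂ)

/-- all coordinates -/
abbrev U0 : Type := ℂ × Z0

/-- the parameters `(A, B, σ, c, s)` -/
abbrev Par : Type := ℝ × ℝ × ℝ × ℝ × ℝ

/-- the sum of the walls -/
noncomputable def wall (u : U0) : ℝ :=
  ps (‖u.1‖ ^ 2) + ps (u.2.1.1 ^ 2) + ps (u.2.1.2 ^ 2) + ps (∑ i, ‖u.2.2 i‖ ^ 2)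

/-- the family of defining functions -/
noncomputable def FF (a : Par) (u : U0) : ℝ :=
  wall u + chi (‖u.1‖ ^ 2) * (nu a.2.2.2.2 (th u.1) * mu0 a.2.2.1 a.2.2.2.1 (th u.1) u.2.1.1 u.2.1.2 *
    (qq a.1 a.2.1 u.2.2 (kk (th u.1) u.2.1.1) + oo (‖u.1‖ ^ 2))) - 1 / 4

/-- the invariant defining function -/
noncomputable def F0 (u : U0) : ℝ :=
  wall u + chi (‖u.1‖ ^ 2) * (mu0 0 0 (th u.1) u.2.1.1 u.2.1.2 *
    (qq 1 1 u.2.2 (kk (th u.1) u.2.1.1) + oo (‖u.1‖ ^ 2))) - 1 / 4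

/-- the parameters with a regular boundary -/
structure Ok (a : Par) : Prop where
  hA : a.1 ∈ Icc (0 : ℝ) 1
  hB : a.2.1 ∈ Icc (0 : ℝ) 1
  hσ : a.2.2.1 ∈ Icc (0 : ℝ) 1
  hc : 0 ≤ a.2.2.2.1
  hq : a.1 = 0 ∨ a.2.1 = 1
  low : a.2.2.2.1 = 0 ∨ (a.2.1 = 0 ∧ 0 < a.2.2.1)
  cut : 7 ≤ a.2.2.2.2 ∨ 100 ≤ a.2.2.2.1

/-- the Euclidean space -/
abbrev UU : Type := WithLp 2 (EuclideanSpace ℂ (Fin 2) × EuclideanSpace ℂ (ZMod 5))

/-- the coordinates -/
noncomputable def co : UU ≃L[ℝ] U0 :=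
  LinearEquiv.toContinuousLinearEquiv
    { toFun := fun u => (u.fst 0, ((u.fst 1).re, (u.fst 1).im), fun i => u.snd i)
      invFun := fun u => WithLp.toLp 2
        (WithLp.toLp 2 ![u.1, ⟨u.2.1.1, u.2.1.2⟩], WithLp.toLp 2 u.2.2)
      map_add' := fun _ _ => rfl
      map_smul' := fun c u => by
        refine Prod.ext rfl (Prod.ext (Prod.ext ?_ ?_) rfl) <;> simp
      left_inv := fun u => by
        refine WithLp.ofLp_injective 2 (Prod.ext ?_ rfl)
        ext i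
        fin_cases i <;> rfl
      right_inv := fun _ => rfl }

/-- the action on the last five coordinates -/
noncomputable def av (g : G5) (v : ZMod 5 → ℂ) : ZMod 5 → ℂ :=
  fun i => (om g.toAdd.1 : ℂ) * v (i - g.toAdd.2)

/-- the action in the coordinates -/
noncomputable def act0 (g : G5) (u : U0) : U0 := (u.1, u.2.1, av g u.2.2)

/-- the action as an isometry of the second factor -/
noncomputable def aE (g : G5) : EuclideanSpace ℂ (ZMod 5) ≃ₗᵢ[ℝ] EuclideanSpace ℂ (ZMod 5) where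
  toFun v := WithLp.toLp 2 (av g v.ofLp)
  invFun v := WithLp.toLp 2 (av g⁻¹ v.ofLp)
  map_add' v v' := by
    ext i
    simp [av, mul_add]
  map_smul' r v := by
    ext i
    simp [av, mul_left_comm]
  left_inv v := by
    ext i
    simp [av, om, AddChar.map_neg_eq_inv]
  right_inv v := by
    ext i
    simp [av, om, AddChar.map_neg_eq_inv]
  norm_map' v := by
    simp only [EuclideanSpace.norm_eq]
    refine congrArg _ ?_
    have h := Equiv.sum_comp (Equiv.subRight g.toAdd.2) fun i => ‖v i‖ ^ 2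
    simpa [av, Circle.norm_coe] using h

/-- the representation -/
noncomputable def rhoU : G5 →* (UU ≃ₗᵢ[ℝ] UU) where
  toFun g := LinearIsometryEquiv.withLpProdCongr 2 (LinearIsometryEquiv.refl ℝ _) (aE g)
  map_one' := by
    ext x : 1
    refine WithLp.ofLp_injective 2 (Prod.ext rfl ?_)
    ext i
    simp [aE, av, om]
  map_mul' g h := by
    ext x : 1
    refine WithLp.ofLp_injective 2 (Prod.ext rfl ?_)
    ext i
    simp [aE, av, om, AddChar.map_add_eq_mul, mul_assoc, sub_sub]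

theorem co_rhoU (g : G5) (u : UU) : co (rhoU g u) = act0 g (co u) := rfl

/-- the defining function of the domain -/
noncomputable def phi0 (u : UU) : ℝ := F0 (co u)

/-! ### the maps -/

/-- the planar map from the time `t` to the time `t'` -/
noncomputable def fb (c t t' : ℝ) (p : ℝ × ℝ) : ℝ × ℝ :=
  (clp p.1 (p.1 + (aB t - aB t') * (100 * clp p.2 (p.2 + (aA 0 t - aA 0 t') * (tent p.1 - c)))),
    clp p.2 (p.2 + (aA 0 t - aA 0 t') * (tent p.1 - c)))

/-- the multipliers -/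
noncomputable def mm (l : ZMod 5 → ℝ) (t t' x : ℝ) (i : ZMod 5) : ℂ :=
  1 + ch1 x * (ec ((eta t' - eta t) * (1 - ∑ j, l j + 5 * l i) / 5) - 1)

/-- one factor with weights `o` -/
noncomputable def fac (o : ZMod 5 → ℝ) (t t' : ℝ) (z : Z0) : Z0 :=
  (fb (100 * max (∑ j, o j - 1) 0) t t' z.1, fun i => mm (fun j => min (o j) 1) t t' z.1.1 i * z.2 i)

/-- the composition of the first `n` factors, from the time `θ` to the time `θ + s` -/
noncomputable def ev (o : ℕ → ZMod 5 → ℝ) (θ s : ℝ) : ℕ → Z0 → Z0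
  | 0, z => z
  | n + 1, z => fac (o n) (θ - 20 * n) (θ + s - 20 * n) (ev o θ s n z)

/-- the planar part for the weights zero -/
noncomputable def evb (θ s : ℝ) : ℕ → ℝ × ℝ → ℝ × ℝ
  | 0, p => p
  | n + 1, p => fb 0 (θ - 20 * n) (θ + s - 20 * n) (evb θ s n p)

/-- the multiplier for the weights zero -/
noncomputable def evm (θ s : ℝ) : ℕ → ℝ × ℝ → ℂ
  | 0, _ => 1
  | n + 1, p => mm 0 (θ - 20 * n) (θ + s - 20 * n) (evb θ s n p).1 0 * evm θ s n p

/-- Weights over the base: on odd indices only, at most one is not zero, and one is `2`. -/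
structure IsWt (K : ℕ) (L : ℕ → EB5 → ZMod 5 → ℝ) : Prop where
  cont : ∀ j i, Continuous fun b => L j b i
  mem : ∀ j b i, L j b i ∈ Icc (0 : ℝ) 2
  supp : ∀ j b i, L j b i ≠ 0 → Odd j ∧ j + 2 ≤ K
  one : ∀ j, ∀ b ∈ B5, ∀ i i', L j b i ≠ 0 → L j b i' ≠ 0 → i = i'
  eq : ∀ j g, ∀ b ∈ B5, ∀ i, L j (β5 g b) i = L j b (i - g.toAdd.2)
  full : ∀ b ∈ B5, ∃ j i, L j b i = 2

/-- the weights at the time `θ` -/
noncomputable def wt (L : ℕ → EB5 → ZMod 5 → ℝ) (u θ : ℝ) (b : EB5) (j : ℕ) (i : ZMod 5) : ℝ :=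
  u * (cl (2 - θ / 10) * L j b i + cl (θ / 10) * L (j - 1) b i)

/-- the factor on `w` -/
noncomputable def k1 (w : ℂ) : ℝ := cl ((8 * ‖w‖ - 1) / 3)

/-- the factor on the fibre -/
noncomputable def k2 (w : ℂ) : ℝ := cl (8 * ‖w‖ - 1)

/-- the rotation time at the parameter `t` -/
noncomputable def tm (K : ℕ) (t : ℝ) : ℝ := max 0 (min (20 * K + 2) t)

/-- The first part of the contraction, `-1 ≤ t ≤ 20 K + 2`. -/
noncomputable def m0 (K : ℕ) (t : ℝ) (u : U0) : U0 :=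
  ((k1 u.1 + cl (-t) * (1 - k1 u.1)) • (ec (tm K t / 20) * u.1),
    k2 u.1 • ev 0 (th u.1) (tm K t) (K + 2) u.2 + (cl (-t) * (1 - k2 u.1)) • u.2)

/-- The second part of the contraction, `0 ≤ t ≤ 3`. -/
noncomputable def h0 (K : ℕ) (L : ℕ → EB5 → ZMod 5 → ℝ) (t : ℝ) (b : EB5) (u : U0) : U0 :=
  ((cl (2 - t) * k1 u.1) • (ec (1 / 10) * u.1),
    (cl (3 - t) * k2 u.1) • ev (wt L (cl t) (th u.1) b) (th u.1) (20 * K + 2) (K + 2) u.2)

/-! ### the strata -/

/-- the coordinates of a stratum -/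
abbrev U1 : Type := ℂ × (ℝ × ℝ) × ℂ

/-- the stratum with the index `l` -/
noncomputable def emb (l : ZMod 5) (u : U1) : U0 := (u.1, u.2.1, fun i => (om (l * i) : ℂ) * u.2.2)

/-- the defining function on a stratum -/
noncomputable def F1 (u : U1) : ℝ :=
  ps (‖u.1‖ ^ 2) + ps (u.2.1.1 ^ 2) + ps (u.2.1.2 ^ 2) + ps (5 * ‖u.2.2‖ ^ 2) +
    chi (‖u.1‖ ^ 2) * (mu0 0 0 (th u.1) u.2.1.1 u.2.1.2 *
      (5 * (‖u.2.2‖ ^ 2 - 1) ^ 2 + ‖u.2.2 ^ 5 - kk (th u.1) u.2.1.1‖ ^ 2 + oo (‖u.1‖ ^ 2))) - 1 / 4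

/-- the first part of the contraction on a stratum -/
noncomputable def m1 (K : ℕ) (t : ℝ) (u : U1) : U1 :=
  ((k1 u.1 + cl (-t) * (1 - k1 u.1)) • (ec (tm K t / 20) * u.1),
    k2 u.1 • (evb (th u.1) (tm K t) (K + 2) u.2.1, evm (th u.1) (tm K t) (K + 2) u.2.1 * u.2.2) +
      (cl (-t) * (1 - k2 u.1)) • u.2)

end Vale.Agent.P220Z.Hs
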