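import Vale.Agent.P220Z.Hs.Defs
import Vale.Agent.P220Z.Hs.Cut

/-!
# P220, horseshoe model: derivatives of the functions of one variable
-/

open Set Filter Topology

namespace Vale.Agent.P220Z.Hs.Rg

/-- the derivative of `st a b` -/
noncomputable def dst (a b t : ℝ) : ℝ := S' ((t - a) / (b - a)) / (b - a)

/-- the derivative of `ps` -/
noncomputable def dps (t : ℝ) : ℝ := st 64 65 t + (t - 64) * dst 64 65 t

/-- the derivative of `bp` -/
noncomputable def dbp (t : ℝ) : ℝ := -(dst 1 4 (t ^ 2) * (2 * t))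

/-- the derivative of `tent` -/
noncomputable def dtent (x : ℝ) : ℝ :=
  -100 * ((2 * st (-1 / 4) (1 / 4) x - 1) + x * (2 * dst (-1 / 4) (1 / 4) x))

section St

variable {a b t : ℝ}

theorem st_ge (a b t : ℝ) : 0 ≤ st a b t := S_nonneg _

theorem st_le (a b t : ℝ) : st a b t ≤ 1 := S_le_one _

theorem st_0 (h : a < b) (ht : t ≤ a) : st a b t = 0 :=
  S_zero (div_nonpos_of_nonpos_of_nonneg (sub_nonpos.2 ht) (sub_pos.2 h).le)

theorem st_1 (h : a < b) (ht : b ≤ t) : st a b t = 1 :=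
  S_one ((one_le_div (sub_pos.2 h)).2 (by linarith))

theorem lt_of_st0 (h : a < b) (ht : st a b t ≠ 0) : a < t := by
  by_contra h'
  exact ht (st_0 h (not_lt.1 h'))

theorem lt_of_st1 (h : a < b) (ht : st a b t ≠ 1) : t < b := by
  by_contra h'
  exact ht (st_1 h (not_lt.1 h'))

theorem st_pos (h : a < b) (ht : a < t) : 0 < st a b t :=
  S_pos (div_pos (sub_pos.2 ht) (sub_pos.2 h))

theorem dst_ge (h : a < b) (t : ℝ) : 0 ≤ dst a b t := div_nonneg (S'_nonneg _) (sub_pos.2 h).le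

theorem dst_pos (h : a < b) (h1 : a < t) (h2 : t < b) : 0 < dst a b t :=
  div_pos (S'_pos (div_pos (sub_pos.2 h1) (sub_pos.2 h))
    ((div_lt_one (sub_pos.2 h)).2 (by linarith))) (sub_pos.2 h)

theorem dst_0 (h : a < b) (ht : t ≤ a) : dst a b t = 0 := by
  rw [dst, S'_zero (div_nonpos_of_nonpos_of_nonneg (sub_nonpos.2 ht) (sub_pos.2 h).le), zero_div]

theorem dst_1 (h : a < b) (ht : b ≤ t) : dst a b t = 0 := by
  rw [dst, S'_one ((one_le_div (sub_pos.2 h)).2 (by linarith)), zero_div]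

theorem mem_of_dst (h : a < b) (ht : dst a b t ≠ 0) : a < t ∧ t < b := by
  constructor
  · by_contra h'
    exact ht (dst_0 h (not_lt.1 h'))
  · by_contra h'
    exact ht (dst_1 h (not_lt.1 h'))

theorem st_01 (h : a < b) (ht : dst a b t = 0) : st a b t = 0 ∨ st a b t = 1 := by
  by_contra h'
  rw [not_or] at h'
  exact (dst_pos h (lt_of_st0 h h'.1) (lt_of_st1 h h'.2)).ne' ht

theorem _root_.HasDerivAt.st {f : ℝ → ℝ} {f' s : ℝ} (h : HasDerivAt f f' s) (a b : ℝ) :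
    HasDerivAt (fun r => st a b (f r)) (dst a b (f s) * f') s := by
  have h1 := ((h.sub_const a).div_const (b - a)).S
  refine h1.congr_deriv ?_
  rw [dst]
  ring

end St

theorem ps_0 {t : ℝ} (h : t ≤ 64) : ps t = 0 := by
  rw [ps, st_0 (by norm_num) h, mul_zero]

theorem ps_ge (t : ℝ) : 0 ≤ ps t := by
  rcases le_or_gt t 64 with h | h
  · exact (ps_0 h).ge
  · exact mul_nonneg (by linarith) (st_ge _ _ _)

theorem lt_of_ps {t : ℝ} (h : ps t < 1) : t < 65 := by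
  by_contra h'
  rw [ps, st_1 (by norm_num) (not_lt.1 h')] at h
  linarith

theorem dps_0 {t : ℝ} (h : t ≤ 64) : dps t = 0 := by
  rw [dps, st_0 (by norm_num) h, dst_0 (by norm_num) h]
  ring

theorem dps_pos {t : ℝ} (h : 64 < t) : 0 < dps t :=
  add_pos_of_pos_of_nonneg (st_pos (by norm_num) h)
    (mul_nonneg (by linarith) (dst_ge (by norm_num) t))

theorem dps_ge (t : ℝ) : 0 ≤ dps t := by
  rcases le_or_gt t 64 with h | h
  · exact (dps_0 h).ge
  · exact (dps_pos h).le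

theorem lt_of_dps {t : ℝ} (h : dps t ≠ 0) : 64 < t := by
  by_contra h'
  exact h (dps_0 (not_lt.1 h'))

theorem ps_of_dps {t : ℝ} (h : dps t * t = 0) : ps t = 0 := by
  by_contra h'
  have h1 : 64 < t := by
    by_contra h2
    exact h' (ps_0 (not_lt.1 h2))
  exact (mul_pos (dps_pos h1) (by linarith)).ne' h

theorem _root_.HasDerivAt.ps {f : ℝ → ℝ} {f' s : ℝ} (h : HasDerivAt f f' s) :
    HasDerivAt (fun r => ps (f r)) (dps (f s) * f') s := by
  have h1 := (h.sub_const 64).mul (h.st 64 65)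
  refine h1.congr_deriv ?_
  rw [dps]
  ring

theorem bp_ge (t : ℝ) : 0 ≤ bp t := sub_nonneg.2 (st_le _ _ _)

theorem bp_le (t : ℝ) : bp t ≤ 1 := sub_le_self _ (st_ge _ _ _)

theorem bp_1 {t : ℝ} (h1 : -1 ≤ t) (h2 : t ≤ 1) : bp t = 1 := by
  rw [bp, st_0 (by norm_num) (by nlinarith), sub_zero]

theorem dbp_1 {t : ℝ} (h1 : -1 ≤ t) (h2 : t ≤ 1) : dbp t = 0 := by
  rw [dbp, dst_0 (by norm_num) (by nlinarith)]
  ring

theorem dbp_far {t : ℝ} (h : 4 ≤ t ^ 2) : dbp t = 0 := by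
  rw [dbp, dst_1 (by norm_num) h]
  ring

theorem lt_of_bp {t : ℝ} (h : bp t ≠ 0) : -2 < t ∧ t < 2 := by
  have h1 : t ^ 2 < 4 := lt_of_st1 (a := 1) (by norm_num) fun h2 => h (by rw [bp, h2, sub_self])
  constructor <;> nlinarith

theorem lt_of_dbp {t : ℝ} (h : dbp t ≠ 0) : (-2 < t ∧ t < 2) ∧ bp t < 1 ∧ dbp t * t < 0 := by
  have h1 : dst 1 4 (t ^ 2) ≠ 0 := fun h2 => h (by rw [dbp, h2]; ring)
  have h2 := mem_of_dst (by norm_num) h1
  have h3 := dst_pos (by norm_num) h2.1 h2.2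
  refine ⟨⟨by nlinarith, by nlinarith⟩, sub_lt_self _ (st_pos (by norm_num) h2.1), ?_⟩
  rw [dbp]
  nlinarith

theorem bp_01 {t : ℝ} (h : dbp t = 0) : bp t = 0 ∨ bp t = 1 := by
  by_cases h0 : t = 0
  · exact Or.inr (bp_1 (by linarith) (by linarith))
  have h1 : dst 1 4 (t ^ 2) = 0 := by
    rw [dbp, neg_eq_zero, mul_eq_zero] at h
    exact h.resolve_right (mul_ne_zero two_ne_zero h0)
  rcases st_01 (by norm_num) h1 with h2 | h2
  · exact Or.inr (by rw [bp, h2, sub_zero])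
  · exact Or.inl (by rw [bp, h2, sub_self])

theorem _root_.HasDerivAt.bp {f : ℝ → ℝ} {f' s : ℝ} (h : HasDerivAt f f' s) :
    HasDerivAt (fun r => bp (f r)) (dbp (f s) * f') s := by
  have h1 := ((h.pow 2).st 1 4).const_sub 1
  refine h1.congr_deriv ?_
  simp only [dbp, Pi.pow_apply]
  push_cast
  ring

theorem tent_pos {x : ℝ} (h : 1 / 4 ≤ x) : tent x = 100 * (1 / 2 - x) ∧ dtent x = -100 := by
  rw [tent, dtent, st_1 (by norm_num) h, dst_1 (by norm_num) h]
  constructor <;> ring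

theorem tent_neg {x : ℝ} (h : x ≤ -1 / 4) : tent x = 100 * (1 / 2 + x) ∧ dtent x = 100 := by
  rw [tent, dtent, st_0 (by norm_num) h, dst_0 (by norm_num) h]
  constructor <;> ring

theorem tent_mid {x : ℝ} (h1 : -1 / 4 ≤ x) (h2 : x ≤ 1 / 4) : 25 ≤ tent x ∧ tent x ≤ 75 := by
  have h3 := st_ge (-1 / 4) (1 / 4) x
  have h4 := st_le (-1 / 4) (1 / 4) x
  rw [tent]
  constructor <;> nlinarith

theorem tent_le (x : ℝ) : tent x ≤ 75 := by
  rcases le_total x (-1 / 4) with h | h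
  · rw [(tent_neg h).1]
    linarith
  rcases le_total x (1 / 4) with h' | h'
  · exact (tent_mid h h').2
  · rw [(tent_pos h').1]
    linarith

/-- above `-25` the tent lies over `(-3/4, 3/4)` -/
theorem lt_of_tent {x : ℝ} (h : -25 < tent x) : -3 / 4 < x ∧ x < 3 / 4 := by
  rcases le_total x (-1 / 4) with h1 | h1
  · rw [(tent_neg h1).1] at h
    constructor <;> linarith
  rcases le_total x (1 / 4) with h' | h'
  · constructor <;> linarith
  · rw [(tent_pos h').1] at h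
    constructor <;> linarith

/-- the two strips -/
theorem strip {x : ℝ} (h : -25 < tent x) (h' : tent x < 25) :
    (-3 / 4 < x ∧ x < -1 / 4) ∨ (1 / 4 < x ∧ x < 3 / 4) := by
  have h1 := lt_of_tent h
  rcases lt_or_ge x (-1 / 4) with h2 | h2
  · exact Or.inl ⟨h1.1, h2⟩
  rcases le_or_gt x (1 / 4) with h3 | h3
  · linarith [(tent_mid h2 h3).1]
  · exact Or.inr ⟨h3, h1.2⟩

theorem _root_.HasDerivAt.tent {f : ℝ → ℝ} {f' s : ℝ} (h : HasDerivAt f f' s) :
    HasDerivAt (fun r => tent (f r)) (dtent (f s) * f') s := by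
  have h1 := ((h.mul (((h.st (-1 / 4) (1 / 4)).const_mul 2).sub_const 1)).const_sub
    (1 / 2)).const_mul 100
  refine h1.congr_deriv ?_
  rw [dtent]
  ring

theorem ch1_ge (x : ℝ) : 0 ≤ ch1 x := mul_nonneg (st_ge _ _ _) (sub_nonneg.2 (st_le _ _ _))

theorem ch1_le (x : ℝ) : ch1 x ≤ 1 :=
  mul_le_one₀ (st_le _ _ _) (sub_nonneg.2 (st_le _ _ _)) (sub_le_self _ (st_ge _ _ _))

theorem ch1_1 {x : ℝ} (h1 : -3 / 4 ≤ x) (h2 : x ≤ -1 / 4) : ch1 x = 1 := by
  rw [ch1, st_1 (by norm_num) h1, st_0 (by norm_num) h2]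
  ring

theorem ch1_0 {x : ℝ} (h : 0 ≤ x) : ch1 x = 0 := by
  rw [ch1, st_1 (a := -1 / 4) (by norm_num) h]
  ring

end Vale.Agent.P220Z.Hs.Rg
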