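import Vale.Agent.P220Z.Hs.Defs

/-!
# P220, horseshoe model: the handle term and the statement on one factor
-/

namespace Vale.Agent.P220Z.Hs

/-- the handle term at the time `t` -/
noncomputable def Gt (o t : ℝ) (z : Z0) : ℝ :=
  mu0 0 0 t z.1.1 z.1.2 * (qq 1 1 z.2 (kk t z.1.1) + o)

/-- The factor with the weights zero does not increase the handle term. -/
def StFac : Prop :=
  ∀ (t t' o : ℝ) (z : Z0), t ≤ t' → 0 ≤ o → |z.1.1| ≤ 9 → |z.1.2| ≤ 9 →
    Gt o t' (fac 0 t t' z) ≤ Gt o t z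

end Vale.Agent.P220Z.Hs
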