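import Vale.Agent.P220Z.Hs.EvA
import Vale.Agent.P220Z.Hs.Fac
import Vale.Agent.P220Z.Hs.Q
import Vale.Agent.P220Z.Hs.Smo

/-!
# P220, horseshoe model: the maps preserve the domain
-/

open Set

namespace Vale.Agent.P220Z.Hs.Ev

open Vale.Agent.P220Z.Def

/-! ### the walls -/

/-- `z'` is not further out than `z` -/
def Le (z' z : Z0) : Prop :=
  |z'.1.1| ≤ max 8 |z.1.1| ∧ |z'.1.2| ≤ max 8 |z.1.2| ∧ ∀ i, ‖z'.2 i‖ ≤ ‖z.2 i‖

theorem Le.rfl {z : Z0} : Le z z := ⟨le_max_right _ _, le_max_right _ _, fun _ => le_rfl⟩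

theorem Le.trans {a b c : Z0} (h : Le a b) (h' : Le b c) : Le a c :=
  ⟨h.1.trans (max_le (le_max_left _ _) h'.1), h.2.1.trans (max_le (le_max_left _ _) h'.2.1),
    fun i => (h.2.2 i).trans (h'.2.2 i)⟩

theorem comb_le {E : Type} [NormedAddCommGroup E] [NormedSpace ℝ E] {x y : E} {a b M : ℝ}
    (ha : 0 ≤ a) (hb : 0 ≤ b) (hab : a + b ≤ 1) (hx : ‖x‖ ≤ M) (hy : ‖y‖ ≤ M) :
    ‖a • x + b • y‖ ≤ M := by
  have h0 : 0 ≤ M := (norm_nonneg _).trans hx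
  have h1 := norm_add_le (a • x) (b • y)
  rw [norm_smul, norm_smul, Real.norm_of_nonneg ha, Real.norm_of_nonneg hb] at h1
  nlinarith [mul_le_mul_of_nonneg_left hx ha, mul_le_mul_of_nonneg_left hy hb]

theorem Le.comb {x y z : Z0} (hx : Le x z) (hy : Le y z) {a b : ℝ} (ha : 0 ≤ a) (hb : 0 ≤ b)
    (hab : a + b ≤ 1) : Le (a • x + b • y) z :=
  ⟨comb_le (E := ℝ) ha hb hab hx.1 hy.1, comb_le (E := ℝ) ha hb hab hx.2.1 hy.2.1,
    fun i => comb_le (E := ℂ) ha hb hab (hx.2.2 i) (hy.2.2 i)⟩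

theorem Le.smul {x z : Z0} (hx : Le x z) {a : ℝ} (ha : 0 ≤ a) (ha' : a ≤ 1) : Le (a • x) z := by
  simpa using hx.comb hx ha le_rfl (by linarith)

theorem ch1_mem (x : ℝ) : 0 ≤ ch1 x ∧ ch1 x ≤ 1 :=
  ⟨mul_nonneg (st_nonneg _ _ _) (sub_nonneg.2 (st_le_one _ _ _)),
    mul_le_one₀ (st_le_one _ _ _) (sub_nonneg.2 (st_le_one _ _ _))
      (sub_le_self _ (st_nonneg _ _ _))⟩

theorem norm_mm (l : ZMod 5 → ℝ) (t t' x : ℝ) (i : ZMod 5) : ‖mm l t t' x i‖ ≤ 1 := by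
  have h := comb_le (x := (1 : ℂ)) (y := ec ((eta t' - eta t) * (1 - ∑ j, l j + 5 * l i) / 5))
    (sub_nonneg.2 (ch1_mem x).2) (ch1_mem x).1 (by linarith) norm_one.le (norm_ec _).le
  refine le_of_eq_of_le (congrArg _ ?_) h
  simp only [mm, Complex.real_smul]
  push_cast
  ring

theorem fac_le (o : ZMod 5 → ℝ) (t t' : ℝ) (z : Z0) : Le (fac o t t' z) z :=
  ⟨abs_clp _ _, abs_clp _ _, fun i => (norm_mul_le _ _).trans
    (mul_le_of_le_one_left (norm_nonneg _) (norm_mm _ _ _ _ i))⟩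

theorem ev_le (o : ℕ → ZMod 5 → ℝ) (θ s : ℝ) (n : ℕ) (z : Z0) : Le (ev o θ s n z) z := by
  induction n with
  | zero => exact Le.rfl
  | succ n ih => exact (fac_le _ _ _ _).trans ih

theorem ps_mono {a b : ℝ} (h : a ≤ b) : ps a ≤ ps b := by
  rcases le_total a 64 with h1 | h1
  · rw [Sm.ps_zero h1]
    exact Sm.ps_nonneg b
  · exact mul_le_mul (by linarith) (st_mono (by norm_num) h) (st_nonneg _ _ _) (by linarith)

theorem ps_sq {a b : ℝ} (h : |a| ≤ max 8 |b|) : ps (a ^ 2) ≤ ps (b ^ 2) := by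
  rcases le_max_iff.1 h with h1 | h1
  · rw [Sm.ps_zero (by nlinarith [abs_nonneg a, sq_abs a])]
    exact Sm.ps_nonneg _
  · exact ps_mono (sq_le_sq.2 h1)

theorem wall_mono {u' u : U0} (hw : ‖u'.1‖ ≤ ‖u.1‖) (hz : Le u'.2 u.2) : wall u' ≤ wall u :=
  add_le_add (add_le_add (add_le_add (ps_mono (by gcongr)) (ps_sq hz.1)) (ps_sq hz.2.1))
    (ps_mono (Finset.sum_le_sum fun i _ => pow_le_pow_left₀ (norm_nonneg _) (hz.2.2 i) 2))

/-- the a priori bound -/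
def Bd (z : Z0) : Prop := |z.1.1| ≤ 9 ∧ |z.1.2| ≤ 9

theorem Bd.of_le {z' z : Z0} (h : Bd z) (hz : Le z' z) : Bd z' :=
  ⟨hz.1.trans (max_le (by norm_num) h.1), hz.2.1.trans (max_le (by norm_num) h.2)⟩

theorem Gt_nonneg {o : ℝ} (ho : 0 ≤ o) (t : ℝ) (z : Z0) : 0 ≤ Gt o t z :=
  mul_nonneg (Sm.mu0_mem _ _ _ _ _).1 (add_nonneg (Fc.qq_nonneg _ _) ho)

theorem F0_Gt (u : U0) :
    F0 u = wall u + chi (‖u.1‖ ^ 2) * Gt (oo (‖u.1‖ ^ 2)) (th u.1) u.2 - 1 / 4 := rfl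

theorem wall_le_F0 (u : U0) : wall u - 1 / 4 ≤ F0 u := by
  have h := mul_nonneg (Sm.chi_nonneg (‖u.1‖ ^ 2))
    (Gt_nonneg (Sm.oo_nonneg (‖u.1‖ ^ 2)) (th u.1) u.2)
  rw [F0_Gt]
  linarith

theorem bd_of_F0 {u : U0} (h : F0 u ≤ 0) : Bd u.2 := by
  obtain ⟨-, h2, h3, -⟩ := bd_of_wall (u := u) (by linarith [wall_le_F0 u])
  exact ⟨abs_le_of_sq_le_sq (by linarith) (by norm_num),
    abs_le_of_sq_le_sq (by linarith) (by norm_num)⟩

/-! ### a full turn -/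

theorem Gt_end {t : ℝ} (h : t ≤ 1 ∨ 19 ≤ t) (o : ℝ) (z : Z0) :
    Gt o t z = bp z.1.1 * (qq 1 1 z.2 1 + o) := by
  rcases h with h | h
  · rw [Gt, Sm.mu0_lo h, Sm.kk_lo (by linarith)]
  · rw [Gt, Sm.mu0_hi h, Sm.kk_hi (by linarith)]

theorem full_alive {c t t' : ℝ} (ht : t ≤ 5) (ht' : 19 ≤ t') {p : ℝ × ℝ} (hx : |p.1| ≤ 9)
    (hy : |p.2| ≤ 9) (h : bp (fb c t t' p).1 ≠ 0) : |tent p.1 - c| < 10 := by
  have h1 := Fc.lt_of_bp h
  simp only [fb, aA_lo (t := t) (by linarith), aA_hi (t := t') (by linarith),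
    aB_lo (t := t) (by linarith), aB_hi ht', sub_zero, one_mul] at h1
  rw [clp_eq (h1.trans (by norm_num))] at h1
  have h2 : |clp p.2 (p.2 + (tent p.1 - c))| < 1 := by
    rw [abs_lt] at h1 ⊢
    rw [abs_le] at hx
    constructor <;> linarith [h1.1, h1.2]
  rw [clp_eq (h2.trans (by norm_num))] at h2
  rw [abs_lt] at h2 ⊢
  rw [abs_le] at hy
  constructor <;> linarith [h2.1, h2.2]

theorem tent_le (x : ℝ) : tent x ≤ 75 := by
  rcases le_total |x| (1 / 4) with h | h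
  · have h0 := st_nonneg (-1 / 4) (1 / 4) x
    have h1 := st_le_one (-1 / 4) (1 / 4) x
    rw [abs_le] at h
    rw [tent]
    rcases le_total 0 x with h2 | h2 <;> nlinarith
  · rw [Fc.tent_far h]
    linarith [abs_nonneg x]

theorem prod_ec (f : ZMod 5 → ℝ) : ∏ i, ec (f i) = ec (∑ i, f i) := by
  induction (Finset.univ : Finset (ZMod 5)) using Finset.induction_on with
  | empty => simp [ec_zero]
  | insert a s ha ih => rw [Finset.prod_insert ha, Finset.sum_insert ha, ec_add, ih]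

/-- admissible weights: not negative, and at most one is not zero -/
def Ad (w : ZMod 5 → ℝ) : Prop := (∀ i, 0 ≤ w i) ∧ ∀ i i', w i ≠ 0 → w i' ≠ 0 → i = i'

theorem Ad.sum {w : ZMod 5 → ℝ} (h : Ad w) {i : ZMod 5} (hi : w i ≠ 0) (f : ℝ → ℝ)
    (hf : f 0 = 0) : ∑ j, f (w j) = f (w i) :=
  Finset.sum_eq_single i (fun j _ hj => by
    rw [by_contra fun e : ¬ w j = 0 => hj (h.2 _ _ e hi), hf]) fun e => (e (Finset.mem_univ _)).elim

theorem qq_full {w : ZMod 5 → ℝ} (hw : Ad w) {t t' : ℝ} (ht : t ≤ 5) (ht' : 7 ≤ t') {z : Z0}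
    (h : |tent z.1.1 - 100 * max (∑ j, w j - 1) 0| < 10) :
    qq 1 1 (fac w t t' z).2 1 = qq 1 1 z.2 1 := by
  have hm : ∀ i, mm (fun j => min (w j) 1) t t' z.1.1 i =
      1 + ch1 z.1.1 * (ec ((1 - ∑ j, min (w j) 1 + 5 * min (w i) 1) / 5) - 1) := fun i => by
    rw [mm, eta_lo ht, eta_hi ht', sub_zero, one_mul]
  have h1 : (∀ i, mm (fun j => min (w j) 1) t t' z.1.1 i = 1) →
      qq 1 1 (fac w t t' z).2 1 = qq 1 1 z.2 1 := fun e => by simp only [fac, e, one_mul]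
  rcases le_or_gt (∑ j, w j) 1 with hs | hs
  · rw [max_eq_right (by linarith), mul_zero, sub_zero] at h
    obtain ⟨h2, h3⟩ := Fc.strip (h.trans (by norm_num))
    rcases Fc.ch1_cases (x := z.1.1) (by linarith) (by linarith) with h4 | h4
    · exact h1 fun i => by simp [hm, h4]
    · have h5 : ∀ i, mm (fun j => min (w j) 1) t t' z.1.1 i =
          ec ((1 - ∑ j, min (w j) 1 + 5 * min (w i) 1) / 5) := fun i => by simp [hm, h4]
      have h6 := qq_mul 1 1 (m := mm (fun j => min (w j) 1) t t' z.1.1)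
        (fun i => by rw [h5, norm_ec]) z.2 1
      have h7 : ∏ i, mm (fun j => min (w j) 1) t t' z.1.1 i = 1 := by
        simp only [h5]
        rw [prod_ec, ← ec_one]
        congr 1
        rw [← Finset.sum_div, Finset.sum_add_distrib, ← Finset.mul_sum, Finset.sum_const,
          Finset.card_univ, ZMod.card, nsmul_eq_mul]
        push_cast
        ring
      rw [h7, one_mul] at h6
      exact h6
  · obtain ⟨i₀, hi₀⟩ : ∃ i, w i ≠ 0 := by
      by_contra h2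
      push Not at h2
      simp [h2] at hs
      linarith
    have h2 : 1 < w i₀ := hs.trans_eq (hw.sum hi₀ id rfl)
    have h3 : ∑ j, min (w j) 1 = 1 :=
      (hw.sum hi₀ (fun r => min r 1) (min_eq_left zero_le_one)).trans (min_eq_right h2.le)
    refine h1 fun i => ?_
    rw [hm, h3]
    by_cases hi : w i = 0
    · simp [hi, ec_zero]
    · rw [hw.2 _ _ hi hi₀, min_eq_right h2.le]
      simp [ec_one]

theorem full_le {w : ZMod 5 → ℝ} (hw : Ad w) {t t' o : ℝ} (ht : t ≤ 1) (ht' : 19 ≤ t')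
    (ho : 0 ≤ o) {z : Z0} (hz : Bd z) : Gt o t' (fac w t t' z) ≤ Gt o t z := by
  by_cases h : bp (fac w t t' z).1.1 = 0
  · rw [Gt_end (Or.inr ht'), h, zero_mul]
    exact Gt_nonneg ho _ _
  have h1 := full_alive (by linarith) ht' hz.1 hz.2 h
  have h2 : |z.1.1| ≤ 1 := by
    by_contra h3
    have h4 : (0 : ℝ) ≤ max (∑ j, w j - 1) 0 := le_max_right _ _
    rw [Fc.tent_far (by linarith [not_le.1 h3])] at h1
    linarith [(abs_lt.1 h1).1, not_le.1 h3]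
  rw [Gt_end (Or.inr ht'), Gt_end (Or.inl ht), Fc.bp_one h2,
    qq_full hw (by linarith) (by linarith) h1]
  exact mul_le_mul_of_nonneg_right (Fc.bp_le_one _) (add_nonneg (Fc.qq_nonneg _ _) ho)

theorem full_dead {w : ZMod 5 → ℝ} (hw : Ad w) {i : ZMod 5} (hi : w i = 2) {t t' : ℝ} (o : ℝ)
    (ht : t ≤ 1) (ht' : 19 ≤ t') {z : Z0} (hz : Bd z) : Gt o t' (fac w t t' z) = 0 := by
  by_cases h : bp (fac w t t' z).1.1 = 0
  · rw [Gt_end (Or.inr ht'), h, zero_mul]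
  have h1 := full_alive (by linarith) ht' hz.1 hz.2 h
  have h2 : ∑ j, w j = 2 := (hw.sum (i := i) (by rw [hi]; norm_num) id rfl).trans hi
  rw [h2, max_eq_left (by norm_num)] at h1
  linarith [(abs_lt.1 h1).1, tent_le z.1.1]

/-! ### the chain of factors -/

/-- every factor has the weights zero, or is a full turn with admissible weights -/
def Ch (w : ℕ → ZMod 5 → ℝ) (θ s : ℝ) : Prop :=
  ∀ n, w n = 0 ∨ (Ad (w n) ∧ θ - 20 * n ≤ 1 ∧ 19 ≤ θ + s - 20 * n)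

theorem Ch.step {w : ℕ → ZMod 5 → ℝ} {θ s : ℝ} (h : Ch w θ s) (hs : 0 ≤ s) {o : ℝ} (ho : 0 ≤ o)
    (n : ℕ) {z : Z0} (hz : Bd z) :
    Gt o (θ + s - 20 * n) (fac (w n) (θ - 20 * n) (θ + s - 20 * n) z) ≤ Gt o (θ - 20 * n) z := by
  rcases h n with h1 | ⟨h1, h2, h3⟩
  · rw [h1]
    exact stFac _ _ _ _ (by linarith) ho hz.1 hz.2
  · exact full_le h1 h2 h3 ho hz

theorem Ch.chain {w : ℕ → ZMod 5 → ℝ} {θ s : ℝ} (h : Ch w θ s) (hθ : θ ≤ 20) (hs : 0 ≤ s) {o : ℝ}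
    (ho : 0 ≤ o) {z : Z0} (hz : Bd z) {j n : ℕ} (hj : j ≤ n) (hn : 0 < θ + s - 20 * n) :
    Gt o (θ + s - 20 * n) (ev w θ s (n + 1) z) ≤ Gt o (θ + s - 20 * j) (ev w θ s (j + 1) z) := by
  induction n, hj using Nat.le_induction with
  | base => exact le_rfl
  | succ n _ ih =>
    have h0 : (0 : ℝ) ≤ n := Nat.cast_nonneg n
    have h1 := h.step hs ho (n + 1) (hz.of_le (ev_le w θ s (n + 1) z))
    push_cast at hn
    refine h1.trans (le_of_eq_of_le ?_ (ih (by linarith)))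
    rw [Gt_end (Or.inl (by push_cast; linarith)), Gt_end (Or.inr (by linarith))]

theorem ev_tail (w : ℕ → ZMod 5 → ℝ) {θ s : ℝ} (hs : 0 ≤ s) (z : Z0) {n N : ℕ} (hN : n + 1 ≤ N)
    (hn : θ + s - 20 * n ≤ 20) : ev w θ s N z = ev w θ s (n + 1) z := by
  induction N, hN using Nat.le_induction with
  | base => rfl
  | succ N hN ih =>
    have h0 : (n : ℝ) + 1 ≤ N := by exact_mod_cast hN
    rw [ev, fac_lo _ (by linarith) (by linarith), ih]

theorem th_rot {w : ℂ} (hw : w ≠ 0) {s : ℝ} {n : ℕ} (h0 : 0 < th w + s - 20 * n)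
    (h1 : th w + s - 20 * n ≤ 20) : th (ec (s / 20) * w) = th w + s - 20 * n := by
  have hp := Real.pi_pos
  obtain ⟨a, ha⟩ : ∃ a, a = (th w + s - 20 * n - 10) * Real.pi / 10 := ⟨_, rfl⟩
  have h2 : ec (s / 20) * w = (‖w‖ : ℂ) * Complex.exp (a * Complex.I) := by
    conv_lhs => rw [← Complex.norm_mul_exp_arg_mul_I w]
    have h3 : s / 20 = (a - Complex.arg w) / (2 * Real.pi) + n := by
      rw [ha, th]
      field_simp
      ring
    rw [h3, ec_add, ec_nat, mul_one, ec, mul_div_cancel₀ _ (by positivity), mul_left_comm,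
      ← Complex.exp_add]
    congr 2
    push_cast
    ring
  have h4 : Complex.arg (ec (s / 20) * w) = a := by
    rw [h2, Complex.arg_real_mul _ (norm_pos_iff.2 hw), Complex.arg_exp_mul_I, toIocMod_eq_self]
    constructor <;> rw [ha] <;> nlinarith
  rw [th, h4, ha]
  field_simp
  ring

theorem exists_turn {a : ℝ} (ha : 0 < a) : ∃ n : ℕ, 0 < a - 20 * n ∧ a - 20 * n ≤ 20 := by
  have h1 : 0 < ⌈a / 20⌉₊ := Nat.ceil_pos.2 (by positivity)
  obtain ⟨n, hn⟩ := Nat.exists_eq_succ_of_ne_zero h1.ne'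
  have h2 := Nat.le_ceil (a / 20)
  have h3 := Nat.ceil_lt_add_one (a := a / 20) (by positivity)
  rw [hn] at h2 h3
  push_cast at h2 h3
  exact ⟨n, by linarith, by linarith⟩

/-- the handle term after all factors is bounded by the one after the factor `j` -/
theorem Ch.final {w : ℕ → ZMod 5 → ℝ} {c : ℂ} (hc : c ≠ 0) {s : ℝ} (h : Ch w (th c) s)
    (hs : 0 ≤ s) {K : ℕ} (hK : s ≤ 20 * K + 2) {o : ℝ} (ho : 0 ≤ o) {z : Z0} (hz : Bd z) {j : ℕ}
    (hj : j = 0 ∨ 20 ≤ th c + s - 20 * j) :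
    Gt o (th (ec (s / 20) * c)) (ev w (th c) s (K + 2) z) ≤
      Gt o (th c + s - 20 * j) (ev w (th c) s (j + 1) z) := by
  obtain ⟨n, h0, h1⟩ := exists_turn (a := th c + s) (by linarith [th_pos c])
  have h2 : n + 1 ≤ K + 2 := by
    have : (n : ℝ) < K + 2 := by linarith [th_le c]
    exact_mod_cast this
  have h3 : j ≤ n := by
    rcases hj with hj | hj
    · omega
    · have : (j : ℝ) ≤ n := by linarith
      exact_mod_cast this
  rw [th_rot hc h0 h1, ev_tail w hs z h2 h1]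
  exact h.chain (th_le c) hs ho hz h3 h0

theorem Ch.final_le {w : ℕ → ZMod 5 → ℝ} {c : ℂ} (hc : c ≠ 0) {s : ℝ} (h : Ch w (th c) s)
    (hs : 0 ≤ s) {K : ℕ} (hK : s ≤ 20 * K + 2) {o : ℝ} (ho : 0 ≤ o) {z : Z0} (hz : Bd z) :
    Gt o (th (ec (s / 20) * c)) (ev w (th c) s (K + 2) z) ≤ Gt o (th c) z := by
  refine (h.final hc hs hK ho hz (Or.inl rfl)).trans ?_
  simpa [ev] using h.step hs ho 0 hz

/-! ### the domain is preserved -/

theorem F0_le {c c' : ℂ} {z z' : Z0} {a : ℝ} (ha : 0 ≤ a) (ha' : a ≤ 1) (hc : ‖c'‖ = ‖c‖)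
    (hz : Le z' z) (h : 0 < a → 1 / 4 < ‖c‖ → (∀ o, 0 ≤ o → Gt o (th c') z' ≤ 0) ∨
      ((∀ o, 0 ≤ o → Gt o (th c') z' ≤ Gt o (th c) z) ∧ (a = 1 ∨ ‖c‖ ≤ 1 / 2))) :
    F0 (a • c', z') ≤ F0 (c, z) := by
  have h0 := norm_nonneg c
  have hn : ‖a • c'‖ = a * ‖c‖ := by rw [norm_smul, Real.norm_of_nonneg ha, hc]
  have hn' : a * ‖c‖ ≤ ‖c‖ := mul_le_of_le_one_left h0 ha'
  have hn0 : 0 ≤ a * ‖c‖ := mul_nonneg ha h0
  have hw : wall (a • c', z') ≤ wall (c, z) := wall_mono (hn.trans_le hn') hz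
  have hF := wall_le_F0 (c, z)
  rw [F0_Gt (a • c', z')]
  simp only [hn]
  rcases le_or_gt (a * ‖c‖) (1 / 4) with h1 | h1
  · rw [Sm.chi_zero (by nlinarith)]
    linarith
  have ha0 : 0 < a := lt_of_le_of_ne ha fun e => by
    rw [← e] at h1
    linarith
  have ht : th (a • c') = th c' := by rw [th, th, Complex.real_smul, Complex.arg_real_mul _ ha0]
  rw [ht]
  rcases h ha0 (by linarith) with h2 | ⟨h2, h3⟩
  · have := mul_nonpos_of_nonneg_of_nonpos (Sm.chi_nonneg ((a * ‖c‖) ^ 2))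
      (h2 _ (Sm.oo_nonneg ((a * ‖c‖) ^ 2)))
    linarith
  · have h4 : oo ((a * ‖c‖) ^ 2) = oo (‖c‖ ^ 2) := by
      rcases h3 with h3 | h3
      · rw [h3, one_mul]
      · rw [oo, oo, st_zero (by norm_num) (by nlinarith), st_zero (by norm_num) (by nlinarith)]
    have h5 : chi ((a * ‖c‖) ^ 2) ≤ chi (‖c‖ ^ 2) := st_mono (by norm_num) (by gcongr)
    have h6 := mul_le_mul h5 (h2 _ (Sm.oo_nonneg (‖c‖ ^ 2)))
      (Gt_nonneg (Sm.oo_nonneg _) _ _) (Sm.chi_nonneg _)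
    rw [F0_Gt (c, z), h4]
    linarith

theorem k1_or (c : ℂ) : k1 c = 1 ∨ ‖c‖ ≤ 1 / 2 := by
  rcases le_total ‖c‖ (1 / 2) with h | h
  · exact Or.inr h
  · exact Or.inl (cl_one (by linarith))

theorem k2_one {c : ℂ} (h : 1 / 4 < ‖c‖) : k2 c = 1 := cl_one (by linarith)

theorem m0_le (K : ℕ) (t : ℝ) {u : U0} (hu : F0 u ≤ 0) : F0 (m0 K t u) ≤ F0 u := by
  have a1 := cl_nonneg (-t)
  have a2 := cl_le_one (-t)
  have b1 : 0 ≤ k1 u.1 := cl_nonneg _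
  have b2 : k1 u.1 ≤ 1 := cl_le_one _
  have c1 : 0 ≤ k2 u.1 := cl_nonneg _
  have c2 : k2 u.1 ≤ 1 := cl_le_one _
  refine F0_le (c := u.1) (z := u.2) (by nlinarith) (by nlinarith)
    (by rw [norm_mul, norm_ec, one_mul])
    ((ev_le _ _ _ _ _).comb Le.rfl c1 (by nlinarith) (by nlinarith)) fun _ h => Or.inr ⟨?_, ?_⟩
  · intro o ho
    rw [k2_one h, sub_self, mul_zero, zero_smul, one_smul, add_zero]
    exact Ch.final_le (norm_pos_iff.1 (by linarith)) (fun _ => Or.inl rfl) (tm_nonneg K t)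
      (tm_le K t) ho (bd_of_F0 hu)
  · exact (k1_or u.1).imp_left fun e => by rw [e, sub_self, mul_zero, add_zero]

theorem m0_mem (K : ℕ) (t : ℝ) (u : U0) (hu : F0 u ≤ 0) : F0 (m0 K t u) ≤ 0 :=
  (m0_le K t hu).trans hu

variable {K : ℕ} {L : ℕ → EB5 → ZMod 5 → ℝ}

theorem wt_zero (hL : IsWt K L) {j : ℕ} (hj : ¬ Odd j) (b : EB5) (i : ZMod 5) : L j b i = 0 :=
  by_contra fun e => hj (hL.supp j b i e).1

theorem wt_full (hL : IsWt K L) {u θ : ℝ} (h0 : 0 < θ) (h1 : θ ≤ 20) {b : EB5} {n : ℕ}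
    {i : ZMod 5} (h : wt L u θ b n i ≠ 0) :
    θ - 20 * n ≤ 1 ∧ 20 ≤ θ + (20 * K + 2) - 20 * n := by
  have h2 : 1 ≤ n ∧ n + 1 ≤ K := by
    by_cases h3 : L n b i = 0
    · have h4 : L (n - 1) b i ≠ 0 := fun e => h (by simp [wt, h3, e])
      obtain ⟨⟨k, hk⟩, h5⟩ := hL.supp _ _ _ h4
      omega
    · obtain ⟨⟨k, hk⟩, h5⟩ := hL.supp _ _ _ h3
      omega
  have h3 : (1 : ℝ) ≤ n := by exact_mod_cast h2.1
  have h4 : (n : ℝ) + 1 ≤ K := by exact_mod_cast h2.2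
  constructor <;> linarith

theorem wt_ad (hL : IsWt K L) {u : ℝ} (hu : 0 ≤ u) (θ : ℝ) {b : EB5} (hb : b ∈ B5) (n : ℕ) :
    Ad (wt L u θ b n) := by
  refine ⟨fun i => mul_nonneg hu (add_nonneg (mul_nonneg (cl_nonneg _) (hL.mem _ _ _).1)
    (mul_nonneg (cl_nonneg _) (hL.mem _ _ _).1)), fun i i' hi hi' => ?_⟩
  by_cases hn : Odd n
  · have h1 : ¬ Odd (n - 1) := by
      rintro ⟨k, hk⟩
      obtain ⟨k', hk'⟩ := hn
      omega
    exact hL.one n b hb i i' (fun e => hi (by simp [wt, e, wt_zero hL h1]))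
      fun e => hi' (by simp [wt, e, wt_zero hL h1])
  · exact hL.one (n - 1) b hb i i' (fun e => hi (by simp [wt, e, wt_zero hL hn]))
      fun e => hi' (by simp [wt, e, wt_zero hL hn])

theorem wt_ch (hL : IsWt K L) {u θ : ℝ} (hu : 0 ≤ u) (h0 : 0 < θ) (h1 : θ ≤ 20) {b : EB5}
    (hb : b ∈ B5) : Ch (wt L u θ b) θ (20 * K + 2) := by
  intro n
  by_cases h : wt L u θ b n = 0
  · exact Or.inl h
  · obtain ⟨i, hi⟩ := Function.ne_iff.1 h
    have h2 := wt_full hL h0 h1 hi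
    exact Or.inr ⟨wt_ad hL hu θ hb n, h2.1, by linarith [h2.2]⟩

theorem wt_two (hL : IsWt K L) (θ : ℝ) {b : EB5} (hb : b ∈ B5) :
    ∃ n i, wt L 1 θ b n i = 2 := by
  obtain ⟨j, i, h⟩ := hL.full b hb
  obtain ⟨k, hk⟩ := (hL.supp j b i (by rw [h]; norm_num)).1
  rcases le_total θ 10 with h1 | h1
  · refine ⟨j, i, ?_⟩
    rw [wt, cl_one (by linarith), h, wt_zero hL (j := j - 1) (by rintro ⟨k', hk'⟩; omega)]
    norm_num
  · refine ⟨j + 1, i, ?_⟩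
    rw [wt, cl_one (x := θ / 10) (by linarith), Nat.add_sub_cancel, h,
      wt_zero hL (j := j + 1) (by rintro ⟨k', hk'⟩; omega)]
    norm_num

theorem ec_K (K : ℕ) : ec ((20 * K + 2) / 20) = ec (1 / 10) := by
  rw [show ((20 * K + 2) / 20 : ℝ) = K + 1 / 10 by ring, ec_add, ec_nat, one_mul]

theorem h0_le (hL : IsWt K L) (t : ℝ) {b : EB5} (hb : b ∈ B5) {u : U0} (hu : F0 u ≤ 0) :
    F0 (h0 K L t b u) ≤ F0 u := by
  have a1 := cl_nonneg (2 - t)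
  have a2 := cl_le_one (2 - t)
  have b1 : 0 ≤ k1 u.1 := cl_nonneg _
  have b2 : k1 u.1 ≤ 1 := cl_le_one _
  have c1 : 0 ≤ k2 u.1 := cl_nonneg _
  have c2 : k2 u.1 ≤ 1 := cl_le_one _
  have d1 := cl_nonneg (3 - t)
  have d2 := cl_le_one (3 - t)
  have hs : (0 : ℝ) ≤ 20 * K + 2 := by positivity
  refine F0_le (c := u.1) (z := u.2) (mul_nonneg a1 b1) (mul_le_one₀ a2 b1 b2)
    (by rw [norm_mul, norm_ec, one_mul])
    ((ev_le _ _ _ _ _).smul (mul_nonneg d1 c1) (mul_le_one₀ d2 c1 c2)) fun ha h => ?_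
  have hc : u.1 ≠ 0 := norm_pos_iff.1 (by linarith)
  have ht : t < 2 := by
    by_contra h2
    rw [cl_zero (by linarith [not_lt.1 h2]), zero_mul] at ha
    exact lt_irrefl _ ha
  have hch := wt_ch hL (cl_nonneg t) (th_pos u.1) (th_le u.1) hb
  rw [k2_one h, cl_one (x := 3 - t) (by linarith), mul_one, one_smul, ← ec_K K]
  rcases le_total t 1 with h1 | h1
  · refine Or.inr ⟨fun o ho => hch.final_le hc hs le_rfl ho (bd_of_F0 hu), ?_⟩
    rw [cl_one (by linarith), one_mul]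
    exact k1_or u.1
  · refine Or.inl fun o ho => ?_
    rw [cl_one h1] at hch ⊢
    obtain ⟨n, i, hn⟩ := wt_two hL (th u.1) hb
    have h2 := wt_full hL (th_pos u.1) (th_le u.1) (i := i) (by rw [hn]; norm_num)
    refine (hch.final hc hs le_rfl ho (bd_of_F0 hu) (Or.inr h2.2)).trans_eq ?_
    exact full_dead (wt_ad hL zero_le_one _ hb n) hn o h2.1 (by linarith [h2.2])
      ((bd_of_F0 hu).of_le (ev_le _ _ _ _ _))

theorem h0_mem (hL : IsWt K L) (t : ℝ) {b : EB5} (hb : b ∈ B5) {u : U0} (hu : F0 u ≤ 0) :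
    F0 (h0 K L t b u) ≤ 0 := (h0_le hL t hb hu).trans hu

end Vale.Agent.P220Z.Hs.Ev
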