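import Vale.Agent.P220Z.Hs.Fac
import Vale.Agent.P220Z.Hs.Sk

/-!
# P220, horseshoe model: one planar factor with a lowered tent
-/

open Set

namespace Vale.Agent.P220Z.Hs

namespace Fc

theorem abs_clp (y z : ℝ) : |clp y z| ≤ max 8 |y| := by
  have h3 : (8 : ℝ) ≤ max 8 |y| := le_max_left _ _
  refine abs_le.2 ⟨le_max_left _ _, max_le (by linarith) (min_le_left _ _)⟩

theorem clp_low (y : ℝ) {z : ℝ} (hz : z ≤ -9) : clp y z ≤ -8 := by
  have h3 : (8 : ℝ) ≤ max 8 |y| := le_max_left _ _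
  exact max_le (by linarith) ((min_le_right _ _).trans (by linarith))

theorem tent_le (x : ℝ) : tent x ≤ 75 := by
  rcases le_total |x| (1 / 4) with h | h
  · have h0 := st_nonneg (-1 / 4) (1 / 4) x
    have h1 := st_le_one (-1 / 4) (1 / 4) x
    obtain ⟨h2, h3⟩ := abs_le.1 h
    have h4 : -(1 / 4) ≤ x * (2 * st (-1 / 4) (1 / 4) x - 1) := by nlinarith
    rw [tent]
    linarith
  · rw [tent_far h]
    linarith

theorem lt_of_tent {x : ℝ} (h : -20 < tent x) : |x| < 7 / 10 := by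
  rcases le_total |x| (1 / 4) with h0 | h0
  · linarith
  · rw [tent_far h0] at h
    linarith

/-- the second factor with the lowered tent -/
noncomputable def g2 (c t : ℝ) (p : ℝ × ℝ) : ℝ :=
  1 - (st 1 3 t - st 14 15 t) * (1 - bp (p.2 + aA 0 t * (tent p.1 - c)))

theorem mu0_eqc (c t : ℝ) (p : ℝ × ℝ) : mu0 0 c t p.1 p.2 = f1 t p * g2 c t p * f3 t p := rfl

theorem g2_mem (c t : ℝ) (p : ℝ × ℝ) : 0 ≤ g2 c t p ∧ g2 c t p ≤ 1 :=
  unit_aux (be_mem t).1 (be_mem t).2 (bp_nonneg _) (bp_le_one _)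

theorem mu0_nonnegc (c t : ℝ) (p : ℝ × ℝ) : 0 ≤ mu0 0 c t p.1 p.2 := by
  rw [mu0_eqc]
  exact mul_nonneg (mul_nonneg (f1_mem t p).1 (g2_mem c t p).1) (f3_mem t p).1

theorem fb_sndc (c t t' : ℝ) (p : ℝ × ℝ) :
    (fb c t t' p).2 = clp p.2 (p.2 + (aA 0 t - aA 0 t') * (tent p.1 - c)) := rfl

theorem fb_fstc (c t t' : ℝ) (p : ℝ × ℝ) :
    (fb c t t' p).1 = clp p.1 (p.1 + (aB t - aB t') * (100 * (fb c t t' p).2)) := rfl

variable {c t t' : ℝ}

theorem fb_fst_earlyc (h : t ≤ t') (h' : t' ≤ 17) (p : ℝ × ℝ) : (fb c t t' p).1 = p.1 := by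
  rw [fb_fstc, aB_one h', aB_one (h.trans h'), sub_self, zero_mul, add_zero, clp_self]

theorem fb_snd_latec (h : t ≤ t') (h' : 9 ≤ t) (p : ℝ × ℝ) : (fb c t t' p).2 = p.2 := by
  rw [fb_sndc, aA_zero h', aA_zero (h'.trans h), sub_self, zero_mul, add_zero, clp_self]

theorem bp_firstc (h : t ≤ t') (h' : t' ≤ 17) (p : ℝ × ℝ) :
    bp ((fb c t t' p).2 + aA 0 t' * (tent (fb c t t' p).1 - c)) ≤
      bp (p.2 + aA 0 t * (tent p.1 - c)) := by
  rw [fb_fst_earlyc h h', fb_sndc]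
  have := bp_clp p.2 (tent p.1 - c) (aA_anti h) (aA_nonneg t')
  rwa [sub_add_cancel] at this

theorem bp_secondc (h : t ≤ t') (p : ℝ × ℝ) :
    bp ((fb c t t' p).1 + aB t' * (100 * (fb c t t' p).2)) ≤
      bp (p.1 + aB t * (100 * (fb c t t' p).2)) := by
  rw [fb_fstc]
  have := bp_clp p.1 (100 * (fb c t t' p).2) (aB_anti h) (aB_nonneg t')
  rwa [sub_add_cancel] at this

theorem f3_lec (h : t ≤ t') (p : ℝ × ℝ) : f3 t' (fb c t t' p) ≤ f3 t p := by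
  rcases le_total t 11 with h1 | h1
  · have : f3 t p = 1 := by rw [f3, st_zero (by norm_num) h1, zero_mul, sub_zero]
    rw [this]
    exact (f3_mem _ _).2
  · refine mono_aux (st_nonneg _ _ _) (st_mono (by norm_num) h) ?_ (bp_le_one _)
    have := bp_secondc (c := c) h p
    rwa [fb_snd_latec h (by linarith)] at this ⊢

theorem latec (h : t ≤ t') (h1 : t ≤ 17) (h2 : 13 ≤ t') {p : ℝ × ℝ} (hx : |p.1| ≤ 9)
    (h3 : f3 t' (fb c t t' p) ≠ 0) : |p.2 + aA 0 t * (tent p.1 - c)| < 1 := by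
  have h4 : bp (p.1 + aB t * (100 * (fb c t t' p).2)) ≠ 0 := by
    intro h0
    apply h3
    have h5 := bp_secondc (c := c) h p
    rw [f3, st_one (by norm_num) h2, le_antisymm (h5.trans h0.le) (bp_nonneg _)]
    norm_num
  have h5 := abs_lt.1 (lt_of_bp h4)
  rw [aB_one h1] at h5
  have h6 := abs_le.1 hx
  have h7 : |(fb c t t' p).2| < 1 := abs_lt.2 ⟨by linarith, by linarith⟩
  rw [fb_sndc, aA_zero (t := t') (by linarith), sub_zero] at h7
  rcases clp_cases p.2 (tent p.1 - c) (aA_nonneg t) with h8 | h8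
  · rwa [h8] at h7
  · have := h8 0 le_rfl
    rw [zero_mul, add_zero] at this
    linarith

theorem g2_late (h : t ≤ t') (h2 : 13 ≤ t') (h1 : t ≤ 17) {p : ℝ × ℝ} (hx : |p.1| ≤ 9)
    (h3 : f3 t' (fb c t t' p) ≠ 0) : g2 c t p = 1 := by
  rw [g2, bp_one (latec h h1 h2 hx h3).le, sub_self, mul_zero, sub_zero]

theorem g2_le (h : t ≤ t') {p : ℝ × ℝ} (hx : |p.1| ≤ 9) (h3 : f3 t' (fb c t t' p) ≠ 0) :
    g2 c t' (fb c t t' p) ≤ g2 c t p := by
  rcases le_total t' 14 with h1 | h1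
  · refine mono_aux (be_mem t).1 ?_ (bp_firstc h (by linarith) p) (bp_le_one _)
    rw [st_zero (a := 14) (by norm_num) h1, st_zero (a := 14) (by norm_num) (h.trans h1)]
    linarith [st_mono (a := 1) (b := 3) (by norm_num) h]
  · have : g2 c t p = 1 := by
      rcases le_total t 17 with h2 | h2
      · exact g2_late h (by linarith) h2 hx h3
      · rw [g2, st_one (by norm_num) (by linarith), st_one (by norm_num) (by linarith), sub_self,
          zero_mul, sub_zero]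
    rw [this]
    exact (g2_mem _ _ _).2

theorem alivec (h : t ≤ t') (h1 : t ≤ 7) (h2 : 3 ≤ t') {p : ℝ × ℝ} (hx : |p.1| ≤ 9)
    (h3 : g2 c t' (fb c t t' p) ≠ 0) (h4 : f3 t' (fb c t t' p) ≠ 0) :
    |p.2 + (tent p.1 - c)| < 2 := by
  rcases le_total t' 14 with h6 | h6
  · have h7 := bp_firstc (c := c) h (by linarith) p
    rw [aA_one h1, one_mul] at h7
    refine lt_of_bp fun h0 => h3 ?_
    rw [g2, st_one (by norm_num) h2, st_zero (by norm_num) h6,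
      le_antisymm (h7.trans h0.le) (bp_nonneg _)]
    norm_num
  · have h7 := latec h (by linarith) (by linarith) hx h4
    rw [aA_one h1, one_mul] at h7
    linarith

theorem f1_one (hc : 0 ≤ c) (h : t ≤ t') (h2 : 3 ≤ t') {p : ℝ × ℝ} (hx : |p.1| ≤ 9)
    (hy : |p.2| ≤ 9) (h3 : g2 c t' (fb c t t' p) ≠ 0) (h4 : f3 t' (fb c t t' p) ≠ 0) :
    f1 t p = 1 := by
  rcases le_total t 5 with h1 | h1
  · obtain ⟨h5, -⟩ := abs_lt.1 (alivec h (by linarith) h2 hx h3 h4)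
    have h6 := lt_of_tent (x := p.1) (by linarith [(abs_le.1 hy).2])
    rw [f1, bp_one (by linarith), sub_self, mul_zero, sub_zero]
  · rw [f1, st_one (by norm_num) h1, sub_self, zero_mul, sub_zero]

theorem f1_lec (hc : 0 ≤ c) (h : t ≤ t') {p : ℝ × ℝ} (hx : |p.1| ≤ 9) (hy : |p.2| ≤ 9)
    (h3 : g2 c t' (fb c t t' p) ≠ 0) (h4 : f3 t' (fb c t t' p) ≠ 0) :
    f1 t' (fb c t t' p) ≤ f1 t p := by
  rcases le_total t' 4 with h1 | h1
  · rw [f1, f1, fb_fst_earlyc h (by linarith), st_zero (by norm_num) h1,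
      st_zero (by norm_num) (h.trans h1)]
  · rw [f1_one hc h (by linarith) hx hy h3 h4]
    exact (f1_mem _ _).2

theorem mu0_fbc (hc : 0 ≤ c) (h : t ≤ t') {p : ℝ × ℝ} (hx : |p.1| ≤ 9) (hy : |p.2| ≤ 9) :
    mu0 0 c t' (fb c t t' p).1 (fb c t t' p).2 ≤ mu0 0 c t p.1 p.2 := by
  by_cases h0 : mu0 0 c t' (fb c t t' p).1 (fb c t t' p).2 = 0
  · rw [h0]
    exact mu0_nonnegc c t p
  rw [mu0_eqc] at h0
  rw [mu0_eqc, mu0_eqc]
  have h3 := right_ne_zero_of_mul (left_ne_zero_of_mul h0)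
  have h4 := right_ne_zero_of_mul h0
  exact mul_le_mul (mul_le_mul (f1_lec hc h hx hy h3 h4) (g2_le h hx h4) (g2_mem _ _ _).1
    (f1_mem _ _).1) (f3_lec h p) (f3_mem _ _).1 (mul_nonneg (f1_mem _ _).1 (g2_mem _ _ _).1)

theorem mu0_one (hc : 0 ≤ c) (h1 : t ≤ 11) (h2 : 13 ≤ t') {p : ℝ × ℝ} (hx : |p.1| ≤ 9)
    (hy : |p.2| ≤ 9) (h0 : mu0 0 c t' (fb c t t' p).1 (fb c t t' p).2 ≠ 0) :
    mu0 0 c t p.1 p.2 = 1 := by
  have h : t ≤ t' := by linarith
  rw [mu0_eqc] at h0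
  have h3 := right_ne_zero_of_mul (left_ne_zero_of_mul h0)
  have h4 := right_ne_zero_of_mul h0
  rw [mu0_eqc, f1_one hc h (by linarith) hx hy h3 h4, g2_late h h2 (by linarith) hx h4, f3,
    st_zero (by norm_num) h1]
  norm_num

theorem kill (hc : 100 ≤ c) (h1 : t ≤ 7) (h2 : 19 ≤ t') {p : ℝ × ℝ} (hx : |p.1| ≤ 9)
    (hy : |p.2| ≤ 9) : (fb c t t' p).1 ≤ -8 ∧ (fb c t t' p).2 ≤ -8 := by
  have h3 : (fb c t t' p).2 ≤ -8 := by
    rw [fb_sndc, aA_one h1, aA_zero (t := t') (by linarith)]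
    exact clp_low _ (by linarith [tent_le p.1, (abs_le.1 hy).2])
  refine ⟨?_, h3⟩
  rw [fb_fstc, aB_one (t := t) (by linarith), aB_zero h2]
  exact clp_low _ (by linarith [(abs_le.1 hx).2])

end Fc

/-- One planar factor. -/
theorem stFb : StFb := by
  intro c t t' hc h p hx hy
  refine ⟨Fc.abs_clp _ _, Fc.abs_clp _ _, Fc.mu0_fbc hc h hx hy, fun h0 h1 h2 => ?_,
    fun h0 h1 h2 => Fc.mu0_one hc h1 h2 hx hy h0.ne', fun h0 h1 h2 => ?_⟩
  · have h3 := h0.ne'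
    rw [Fc.mu0_eqc] at h3
    exact Fc.alivec h h1 h2 hx (right_ne_zero_of_mul (left_ne_zero_of_mul h3))
      (right_ne_zero_of_mul h3)
  · exact Fc.bp_zero (le_abs.2 (Or.inr (by linarith [(Fc.kill h0 h1 h2 hx hy).1])))

end Vale.Agent.P220Z.Hs
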