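import Vale.Agent.P220Z.Hs.Sk
import Vale.Agent.P220Z.Hs.Smo

/-!
# P220, the suspended horseshoe: the first part of the contraction on a stratum
-/

open Set

namespace Vale.Agent.P220Z.Hs

open Vale.Agent.P220Z.Def

/-- M0: the first part of the contraction is continuous and preserves the domain. -/
def StM0 : Prop :=
  ∀ K : ℕ, (Continuous fun y : ℝ × U0 => m0 K y.1 y.2) ∧ ∀ t u, F0 u ≤ 0 → F0 (m0 K t u) ≤ 0

namespace M1

theorem fac_zero (t t' : ℝ) (z : Z0) :
    fac 0 t t' z = (fb 0 t t' z.1, fun i => mm 0 t t' z.1.1 0 * z.2 i) := by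
  simp [fac, mm]

theorem ev_zero (θ s : ℝ) (n : ℕ) (z : Z0) :
    ev 0 θ s n z = (evb θ s n z.1, fun i => evm θ s n z.1 * z.2 i) := by
  induction n with
  | zero => simp [ev, evb, evm]
  | succ n ih =>
    rw [ev, ih, Pi.zero_apply, fac_zero]
    simp only [evb, evm, mul_assoc]

theorem m0_emb (K : ℕ) (t : ℝ) (l : ZMod 5) (u : U1) : m0 K t (emb l u) = emb l (m1 K t u) := by
  refine Prod.ext rfl (Prod.ext ?_ (funext fun i => ?_))
  · simp [m0, m1, emb, ev_zero]
  · simp only [m0, m1, emb, ev_zero, Prod.snd_add, Prod.smul_snd, Pi.add_apply, Pi.smul_apply,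
      Complex.real_smul]
    ring

theorem prod_om (l : ZMod 5) : ∏ i : ZMod 5, ((om (l * i) : Circle) : ℂ) = 1 := by
  have h : ∑ i : ZMod 5, l * i = 0 := by
    revert l
    decide
  have h1 : ∀ s : Finset (ZMod 5), ∏ i ∈ s, ((om (l * i) : Circle) : ℂ) = om (∑ i ∈ s, l * i) := by
    intro s
    induction s using Finset.induction_on with
    | empty => simp [om]
    | insert a s ha ih =>
      rw [Finset.prod_insert ha, Finset.sum_insert ha, ih, om, om, om, AddChar.map_add_eq_mul,
        Circle.coe_mul]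
  rw [h1, h]
  simp [om]

theorem F0_emb (l : ZMod 5) (u : U1) : F0 (emb l u) = F1 u := by
  simp [F0, F1, wall, qq, emb, Finset.prod_mul_distrib, prod_om, Circle.norm_coe]

theorem emb_cont (l : ZMod 5) : Continuous (emb l) := by
  unfold emb
  fun_prop

theorem F1_cont : Continuous F1 := by
  have h : F1 = F0 ∘ emb 0 := funext fun u => (F0_emb 0 u).symm
  rw [h]
  exact F0_smooth.continuous.comp (emb_cont 0)

theorem norm_lt {u : U1} (h : F1 u ≤ 0) : ‖u‖ < 9 := by
  have h1 : ‖emb 0 u‖ < 9 := by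
    by_contra h1
    have h2 := FF_pos (a := (1, 1, 0, 0, 7)) zero_le_one (not_lt.1 h1)
    rw [← F0_eq le_rfl, F0_emb] at h2
    linarith
  simp only [Prod.norm_def, max_lt_iff, emb] at h1 ⊢
  refine ⟨h1.1, h1.2.1, ?_⟩
  simpa [Circle.norm_coe] using (norm_le_pi_norm _ 0).trans_lt h1.2.2

theorem F1_cpt : IsCompact {u | F1 u ≤ 0} :=
  (isCompact_closedBall (0 : U1) 9).of_isClosed_subset (isClosed_le F1_cont continuous_const)
    fun _ hu => mem_closedBall_zero_iff.2 (norm_lt hu).le

end M1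

open M1

theorem stM1 (h : StM0) : StM1 := fun K => by
  refine ⟨?_, fun t u hu => ?_, F1_cont, F1_cpt⟩
  · have h1 : (fun y : ℝ × U1 => m1 K y.1 y.2) = (fun u : U0 => ((u.1, u.2.1, u.2.2 0) : U1)) ∘
        (fun y : ℝ × U0 => m0 K y.1 y.2) ∘ fun y : ℝ × U1 => (y.1, emb 0 y.2) := by
      funext y
      simp only [Function.comp_apply, m0_emb]
      simp [emb, om]
    rw [h1]
    exact Continuous.comp (by fun_prop) ((h K).1.comp
      (continuous_fst.prodMk ((emb_cont 0).comp continuous_snd)))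
  · rw [← F0_emb 0, ← m0_emb]
    exact (h K).2 t _ ((F0_emb 0 u).trans_le hu)

end Vale.Agent.P220Z.Hs
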