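import Vale.Agent.P220Z.Hs.Der

/-!
# P220, horseshoe model: the planar lemma
-/

open Set Filter Topology

namespace Vale.Agent.P220Z.Hs.Rg

/-- the argument of the second factor -/
noncomputable def uA (σ c t x y : ℝ) : ℝ := y + aA σ t * (tent x - c)

/-- the argument of the third factor -/
noncomputable def uB (t x y : ℝ) : ℝ := x + aB t * (100 * y)

/-- the weight of the second factor -/
noncomputable def bA (t : ℝ) : ℝ := st 1 3 t - st 14 15 t

/-- the first factor -/
noncomputable def f1 (t x : ℝ) : ℝ := 1 - (1 - st 4 5 t) * (1 - bp x)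

/-- the second factor -/
noncomputable def f2 (σ c t x y : ℝ) : ℝ := 1 - bA t * (1 - bp (uA σ c t x y))

/-- the third factor -/
noncomputable def f3 (t x y : ℝ) : ℝ := 1 - st 11 13 t * (1 - bp (uB t x y))

/-- the derivative of `aA` -/
noncomputable def daA (σ t : ℝ) : ℝ := -(σ / 2 * dst 2 8 t) - (1 - σ / 2) * dst 7 9 t

/-- the derivative of `f2` in the time -/
noncomputable def f2t (σ c t x y : ℝ) : ℝ :=
  -((dst 1 3 t - dst 14 15 t) * (1 - bp (uA σ c t x y))) +
    bA t * dbp (uA σ c t x y) * (daA σ t * (tent x - c))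

/-- the derivative of `f3` in the time -/
noncomputable def f3t (t x y : ℝ) : ℝ :=
  -(dst 11 13 t * (1 - bp (uB t x y))) + st 11 13 t * dbp (uB t x y) * (-dst 17 19 t * (100 * y))

/-- the derivative of `mu0` in the time -/
noncomputable def muT (σ c t x y : ℝ) : ℝ :=
  dst 4 5 t * (1 - bp x) * f2 σ c t x y * f3 t x y + f1 t x * f2t σ c t x y * f3 t x y +
    f1 t x * f2 σ c t x y * f3t t x y

/-- the derivative of `mu0` in `x` -/
noncomputable def muX (σ c t x y : ℝ) : ℝ :=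
  (1 - st 4 5 t) * dbp x * f2 σ c t x y * f3 t x y +
    f1 t x * (bA t * dbp (uA σ c t x y) * (aA σ t * dtent x)) * f3 t x y +
    f1 t x * f2 σ c t x y * (st 11 13 t * dbp (uB t x y))

/-- the derivative of `mu0` in `y` -/
noncomputable def muY (σ c t x y : ℝ) : ℝ :=
  f1 t x * (bA t * dbp (uA σ c t x y)) * f3 t x y +
    f1 t x * f2 σ c t x y * (st 11 13 t * dbp (uB t x y) * (aB t * 100))

/-- the derivative of `nu` in the time -/
noncomputable def nuT (s t : ℝ) : ℝ :=
  dst 0 1 (s - (t - 20 * st 4 6 t)) * (-(1 - 20 * dst 4 6 t))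

theorem mu0_eq (σ c t x y : ℝ) : mu0 σ c t x y = f1 t x * f2 σ c t x y * f3 t x y := rfl

theorem mu0_deriv (σ c : ℝ) {t x y : ℝ → ℝ} {t' x' y' r : ℝ} (ht : HasDerivAt t t' r)
    (hx : HasDerivAt x x' r) (hy : HasDerivAt y y' r) :
    HasDerivAt (fun r => mu0 σ c (t r) (x r) (y r))
      (muT σ c (t r) (x r) (y r) * t' + muX σ c (t r) (x r) (y r) * x' +
        muY σ c (t r) (x r) (y r) * y') r := by
  have hA : HasDerivAt (fun r => aA σ (t r)) (daA σ (t r) * t') r := by
    refine ((((ht.st 2 8).const_mul (σ / 2)).const_sub 1).sub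
      ((ht.st 7 9).const_mul (1 - σ / 2))).congr_deriv ?_
    rw [daA]
    ring
  have hB : HasDerivAt (fun r => aB (t r)) (-dst 17 19 (t r) * t') r :=
    ((ht.st 17 19).const_sub 1).congr_deriv (by ring)
  have h1 := (((ht.st 4 5).const_sub 1).mul (hx.bp.const_sub 1)).const_sub 1
  have h2 := (((ht.st 1 3).sub (ht.st 14 15)).mul
    ((hy.add (hA.mul (hx.tent.sub_const c))).bp.const_sub 1)).const_sub 1
  have h3 := ((ht.st 11 13).mul ((hx.add (hB.mul (hy.const_mul 100))).bp.const_sub 1)).const_sub 1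
  refine ((h1.mul h2).mul h3).congr_deriv ?_
  simp only [muT, muX, muY, f1, f2, f3, f2t, f3t, uA, uB, bA, Pi.mul_apply, Pi.add_apply,
    Pi.sub_apply]
  ring

theorem nu_deriv (s : ℝ) {t : ℝ → ℝ} {t' r : ℝ} (ht : HasDerivAt t t' r) :
    HasDerivAt (fun r => nu s (t r)) (nuT s (t r) * t') r := by
  refine (((ht.sub ((ht.st 4 6).const_mul 20)).const_sub s).st 0 1).congr_deriv ?_
  simp only [nuT, Pi.sub_apply]
  ring

theorem bA_ge (t : ℝ) : 0 ≤ bA t := by
  rcases le_total t 14 with h | h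
  · rw [bA, st_0 (a := 14) (by norm_num) h, sub_zero]
    exact st_ge _ _ _
  · rw [bA, st_1 (a := 1) (by norm_num) (by linarith)]
    exact sub_nonneg.2 (st_le _ _ _)

theorem bA_le (t : ℝ) : bA t ≤ 1 := by
  have := st_le 1 3 t
  have := st_ge 14 15 t
  rw [bA]
  linarith

theorem bA_1 {t : ℝ} (h1 : 3 ≤ t) (h2 : t ≤ 14) : bA t = 1 := by
  rw [bA, st_1 (by norm_num) h1, st_0 (by norm_num) h2, sub_zero]

theorem fac_mem {g b : ℝ} (g0 : 0 ≤ g) (g1 : g ≤ 1) (b0 : 0 ≤ b) (b1 : b ≤ 1) :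
    0 ≤ 1 - g * (1 - b) ∧ 1 - g * (1 - b) ≤ 1 := by
  constructor <;> nlinarith

theorem f1_mem (t x : ℝ) : 0 ≤ f1 t x ∧ f1 t x ≤ 1 :=
  fac_mem (sub_nonneg.2 (st_le _ _ _)) (sub_le_self _ (st_ge _ _ _)) (bp_ge _) (bp_le _)

theorem f2_mem (σ c t x y : ℝ) : 0 ≤ f2 σ c t x y ∧ f2 σ c t x y ≤ 1 :=
  fac_mem (bA_ge _) (bA_le _) (bp_ge _) (bp_le _)

theorem f3_mem (t x y : ℝ) : 0 ≤ f3 t x y ∧ f3 t x y ≤ 1 :=
  fac_mem (st_ge _ _ _) (st_le _ _ _) (bp_ge _) (bp_le _)

theorem mu0_ge (σ c t x y : ℝ) : 0 ≤ mu0 σ c t x y :=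
  mul_nonneg (mul_nonneg (f1_mem _ _).1 (f2_mem _ _ _ _ _).1) (f3_mem _ _ _).1

theorem mu0_le (σ c t x y : ℝ) : mu0 σ c t x y ≤ 1 :=
  mul_le_one₀ (mul_le_one₀ (f1_mem _ _).2 (f2_mem _ _ _ _ _).1 (f2_mem _ _ _ _ _).2)
    (f3_mem _ _ _).1 (f3_mem _ _ _).2

variable {σ c s t x y : ℝ}

theorem aA_half (hσ : σ ∈ Icc (0 : ℝ) 1) (h : t ≤ 7) : 1 / 2 ≤ aA σ t := by
  have := st_le 2 8 t
  have := st_ge 2 8 t
  rw [aA, st_0 (a := 7) (by norm_num) h]
  nlinarith [hσ.1, hσ.2]

theorem aA_ge (hσ : σ ∈ Icc (0 : ℝ) 1) (t : ℝ) : 0 ≤ aA σ t := by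
  have := st_le 2 8 t
  have := st_le 7 9 t
  rw [aA]
  nlinarith [hσ.1, hσ.2]

theorem aA_0 (h : 9 ≤ t) : aA σ t = 0 := by
  rw [aA, st_1 (by norm_num) (by linarith), st_1 (by norm_num) h]
  ring

theorem daA_le (hσ : σ ∈ Icc (0 : ℝ) 1) (t : ℝ) : daA σ t ≤ 0 := by
  have := dst_ge (a := 2) (b := 8) (by norm_num) t
  have := dst_ge (a := 7) (b := 9) (by norm_num) t
  rw [daA]
  nlinarith [hσ.1, hσ.2]

/-- in the window the tent is small on the handle -/
theorem win (hσ : σ ∈ Icc (0 : ℝ) 1) (hy : y ^ 2 < 65) (h3 : 3 ≤ t) (h7 : t ≤ 7)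
    (hμ : mu0 σ c t x y ≠ 0) : -25 < tent x - c ∧ tent x - c < 25 := by
  have h2 : f2 σ c t x y ≠ 0 := fun h => hμ (by rw [mu0_eq, h]; ring)
  rw [f2, bA_1 h3 (by linarith), one_mul, sub_sub_cancel] at h2
  have h4 := lt_of_bp h2
  have h5 := aA_half hσ h7
  rw [uA] at h4
  have h6 : -9 < y := by nlinarith
  have h8 : y < 9 := by nlinarith
  constructor
  · by_contra h
    nlinarith [h4.1]
  · by_contra h
    nlinarith [h4.2]

theorem sgn {d u a k y f β : ℝ} (hf : 0 < f) (e : f * d = -(β * y)) (hβ : 0 < β) (hy : 64 < y ^ 2)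
    (hu : -2 < u ∧ u < 2) (hk : u = y + a * k) (ha : 0 ≤ a) : 0 < a ∧ 0 < d * k := by
  have b6 : d * y < 0 := by
    have h2 : f * (d * y) = -(β * y ^ 2) := by linear_combination y * e
    have h3 : 0 < β * y ^ 2 := mul_pos hβ (by linarith)
    by_contra h4
    linarith [mul_nonneg hf.le (not_lt.1 h4)]
  have b7 : a * (k * y) < 0 := by
    have h2 : a * (k * y) = (u - y) * y := by rw [hk]; ring
    rw [h2]
    nlinarith [sq_nonneg (y - 2 * u), mul_pos (sub_pos.2 hu.1) (sub_pos.2 hu.2)]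
  have b8 : 0 < a := ha.lt_of_ne' fun h => by
    rw [h] at b7
    simp at b7
  have b9 : k * y < 0 := by
    by_contra h
    linarith [mul_nonneg b8.le (not_lt.1 h)]
  refine ⟨b8, ?_⟩
  by_contra h
  nlinarith [mul_pos_of_neg_of_neg b6 b9,
    mul_nonpos_of_nonpos_of_nonneg (not_lt.1 h) (sq_nonneg y)]

theorem phase1 {α β : ℝ} (hσ : σ ∈ Icc (0 : ℝ) 1) (low : c = 0 ∨ 0 < σ) (hy : y ^ 2 < 65)
    (hμ : mu0 σ c t x y ≠ 0) (p1 : 0 < f1 t x) (p2 : 0 < f2 σ c t x y)
    (h1 : nu s t * mu0 σ c t x y ≠ 1)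
    (hα' : α ≠ 0 → 64 < x ^ 2) (hβ : 0 ≤ β) (hβ' : β ≠ 0 → 64 < y ^ 2)
    (E : f2t σ c t x y ≤ 0 → f3t t x y ≤ 0 → nu s t = 1 ∧ f2t σ c t x y = 0 ∧ f3t t x y = 0)
    (ex : muX σ c t x y = -(α * x)) (ey : muY σ c t x y = -(β * y))
    (F1 : 4 < t → t < 5 → bp x = 1) (hI : t ≤ 11) : False := by
  have q1 : st 11 13 t = 0 := st_0 (by norm_num) hI
  have q3 : f3 t x y = 1 := by rw [f3, q1]; ring
  have q4 : f3t t x y = 0 := by rw [f3t, q1, dst_0 (by norm_num) hI]; ring
  have q5 : dst 14 15 t = 0 := dst_0 (by norm_num) (by linarith)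
  have q6 : bA t = st 1 3 t := by rw [bA, st_0 (a := 14) (by norm_num) (by linarith), sub_zero]
  have q7 := mul_nonneg (dst_ge (a := 1) (b := 3) (by norm_num) t)
    (sub_nonneg.2 (bp_le (uA σ c t x y)))
  rw [muX, q1, q3] at ex
  rw [muY, q1, q3] at ey
  by_cases hb : bA t * dbp (uA σ c t x y) = 0
  · rw [hb] at ex
    have r1 : (1 - st 4 5 t) * dbp x = 0 := by
      by_cases h : α = 0
      · rw [h] at ex
        exact (mul_eq_zero.1 (by linarith : (1 - st 4 5 t) * dbp x * f2 σ c t x y = 0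
          )).resolve_right p2.ne'
      · rw [dbp_far (by linarith [hα' h]), mul_zero]
    have r2 : f2t σ c t x y = -(dst 1 3 t * (1 - bp (uA σ c t x y))) := by
      rw [f2t, hb, q5]
      ring
    obtain ⟨e1, e2, -⟩ := E (by linarith) q4.le
    have r3 : f1 t x = 1 := by
      rcases mul_eq_zero.1 r1 with h | h
      · rw [f1, h]
        ring
      · rcases bp_01 h with h' | h'
        · rw [f1, h'] at p1
          by_cases h5 : st 4 5 t = 1
          · rw [f1, h5]
            ring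
          · have h6 := F1 (lt_of_st0 (b := 5) (by norm_num) (by linarith)) (lt_of_st1 (by norm_num) h5)
            linarith
        · rw [f1, h']
          ring
    have r4 : f2 σ c t x y = 1 := by
      rcases mul_eq_zero.1 hb with h | h
      · rw [f2, h]
        ring
      · rcases bp_01 h with h' | h'
        · rw [r2, h', sub_zero, mul_one, neg_eq_zero] at e2
          rcases st_01 (by norm_num) e2 with h5 | h5
          · rw [f2, q6, h5]
            ring
          · rw [f2, q6, h5, h'] at p2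
            linarith
        · rw [f2, h']
          ring
    exact h1 (by rw [e1, mu0_eq, r3, r4, q3]; ring)
  · have b1 : 0 < bA t := (bA_ge t).lt_of_ne' (left_ne_zero_of_mul hb)
    obtain ⟨b2, b3, b4⟩ := lt_of_dbp (right_ne_zero_of_mul hb)
    have hβ0 : β ≠ 0 := fun h => by
      rw [h] at ey
      exact mul_ne_zero p1.ne' hb (by linarith)
    have b5 := hβ' hβ0
    obtain ⟨b8, b10⟩ := sgn (d := dbp (uA σ c t x y)) (mul_pos p1 b1) (by linarith)
      (hβ.lt_of_ne' hβ0) b5 b2 rfl (aA_ge hσ t)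
    have r2 : f2t σ c t x y = -(dst 1 3 t * (1 - bp (uA σ c t x y))) +
        daA σ t * (bA t * (dbp (uA σ c t x y) * (tent x - c))) := by
      rw [f2t, q5]
      ring
    have r3 := mul_nonpos_of_nonpos_of_nonneg (daA_le hσ t) (mul_pos b1 b10).le
    obtain ⟨-, e2, -⟩ := E (by linarith) q4.le
    have r4 : dst 1 3 t = 0 :=
      (mul_eq_zero.1 (by linarith : dst 1 3 t * (1 - bp (uA σ c t x y)) = 0)).resolve_right
        (by linarith)
    have r5 : daA σ t = 0 :=
      (mul_eq_zero.1 (by linarith : daA σ t * (bA t * (dbp (uA σ c t x y) * (tent x - c))) = 0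
        )).resolve_right (mul_pos b1 b10).ne'
    have t3 : 3 ≤ t := by
      by_contra h
      exact (dst_pos (by norm_num) (lt_of_st0 (b := 3) (by norm_num) (by linarith))
        (not_le.1 h)).ne' r4
    have t9 : t < 9 := by
      by_contra h
      exact b8.ne' (aA_0 (not_lt.1 h))
    have d1 := mul_nonneg (div_nonneg hσ.1 zero_le_two) (dst_ge (a := 2) (b := 8) (by norm_num) t)
    have d2 := mul_nonneg (by linarith [hσ.2] : 0 ≤ 1 - σ / 2)
      (dst_ge (a := 7) (b := 9) (by norm_num) t)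
    rw [daA] at r5
    have t7 : t ≤ 7 := by
      by_contra h
      have := mul_pos (by linarith [hσ.2] : 0 < 1 - σ / 2)
        (dst_pos (a := 7) (b := 9) (by norm_num) (not_le.1 h) t9)
      linarith
    have c0 : c = 0 := low.resolve_right fun h => by
      have := mul_pos (half_pos h)
        (dst_pos (a := 2) (b := 8) (by norm_num) (by linarith : 2 < t) (by linarith))
      linarith
    have w := win hσ hy t3 t7 hμ
    have w2 := strip (x := x) (by linarith [w.1]) (by linarith [w.2])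
    have w3 : dbp x = 0 := by
      rcases w2 with h | h <;> exact dbp_1 (by linarith [h.1]) (by linarith [h.2])
    have w4 : α = 0 := by
      by_contra h
      have := hα' h
      rcases w2 with h | h <;> nlinarith [h.1, h.2]
    have w5 : dtent x ≠ 0 := by
      rcases w2 with h | h
      · rw [(tent_neg h.2.le).2]
        norm_num
      · rw [(tent_pos h.1.le).2]
        norm_num
    rw [w3, w4] at ex
    exact mul_ne_zero p1.ne' (mul_ne_zero hb (mul_ne_zero b8.ne' w5)) (by linarith)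

theorem phase2 {α β : ℝ} (p2 : 0 < f2 σ c t x y) (p3 : 0 < f3 t x y)
    (h1 : nu s t * mu0 σ c t x y ≠ 1) (hα : 0 ≤ α)
    (hα' : α ≠ 0 → 64 < x ^ 2) (hβ' : β ≠ 0 → 64 < y ^ 2)
    (E : f2t σ c t x y ≤ 0 → f3t t x y ≤ 0 → nu s t = 1 ∧ f2t σ c t x y = 0 ∧ f3t t x y = 0)
    (ex : muX σ c t x y = -(α * x)) (ey : muY σ c t x y = -(β * y))
    (F3 : 13 ≤ t → t ≤ 17 → -1 ≤ y ∧ y ≤ 1) (hI : 11 < t) : False := by
  have q1 : st 4 5 t = 1 := st_1 (by norm_num) (by linarith)
  have q2 : f1 t x = 1 := by rw [f1, q1]; ring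
  have q3 : aA σ t = 0 := aA_0 (by linarith)
  have q4 : uA σ c t x y = y := by rw [uA, q3]; ring
  have q5 : f2t σ c t x y = 0 := by
    rw [f2t, daA, dst_1 (a := 1) (by norm_num) (by linarith),
      dst_1 (a := 2) (by norm_num) (by linarith), dst_1 (a := 7) (by norm_num) (by linarith), q4]
    by_cases h : dst 14 15 t = 0
    · rw [h]
      ring
    · have h2 := mem_of_dst (by norm_num) h
      have h3 := F3 (by linarith) (by linarith)
      rw [bp_1 h3.1 h3.2]
      ring
  have q7 := mul_nonneg (dst_ge (a := 11) (b := 13) (by norm_num) t)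
    (sub_nonneg.2 (bp_le (uB t x y)))
  rw [muX, q1, q2, q3] at ex
  rw [muY, q2, q4] at ey
  by_cases hb : st 11 13 t * dbp (uB t x y) = 0
  · rw [hb] at ey
    have r1 : bA t * dbp y = 0 := by
      by_cases h : β = 0
      · rw [h] at ey
        exact (mul_eq_zero.1 (by linarith : bA t * dbp y * f3 t x y = 0)).resolve_right p3.ne'
      · rw [dbp_far (by linarith [hβ' h]), mul_zero]
    have r2 : f3t t x y = -(dst 11 13 t * (1 - bp (uB t x y))) := by
      rw [f3t, hb]
      ring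
    obtain ⟨e1, -, e3⟩ := E q5.le (by linarith)
    have r3 : f2 σ c t x y = 1 := by
      rw [f2, q4] at p2 ⊢
      rcases mul_eq_zero.1 r1 with h | h
      · rw [h]
        ring
      · rcases bp_01 h with h' | h'
        · rcases le_or_gt t 14 with h5 | h5
          · rw [bA_1 (by linarith) h5, h'] at p2
            linarith
          rcases le_or_gt 15 t with h6 | h6
          · rw [bA, st_1 (by norm_num) (by linarith), st_1 (by norm_num) h6]
            ring
          · have h7 := F3 (by linarith) (by linarith)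
            linarith [bp_1 h7.1 h7.2]
        · rw [h']
          ring
    have r4 : f3 t x y = 1 := by
      rcases mul_eq_zero.1 hb with h | h
      · rw [f3, h]
        ring
      · rcases bp_01 h with h' | h'
        · rw [r2, h', sub_zero, mul_one, neg_eq_zero] at e3
          rcases st_01 (by norm_num) e3 with h5 | h5
          · rw [f3, h5]
            ring
          · rw [f3, h5, h'] at p3
            linarith
        · rw [f3, h']
          ring
    exact h1 (by rw [e1, mu0_eq, r3, r4, q2]; ring)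
  · have b1 : 0 < st 11 13 t := (st_ge _ _ _).lt_of_ne' (left_ne_zero_of_mul hb)
    obtain ⟨b2, b3, b4⟩ := lt_of_dbp (right_ne_zero_of_mul hb)
    have hα0 : α ≠ 0 := fun h => by
      rw [h] at ex
      exact mul_ne_zero p2.ne' hb (by linarith)
    have b5 := hα' hα0
    obtain ⟨b8, b9⟩ := sgn (d := dbp (uB t x y)) (mul_pos p2 b1) (by linarith)
      (hα.lt_of_ne' hα0) b5 b2 rfl (sub_nonneg.2 (st_le 17 19 t))
    have b10 : 0 < dbp (uB t x y) * y := by linarith
    replace b8 : 0 < aB t := b8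
    have r2 : f3t t x y = -(dst 11 13 t * (1 - bp (uB t x y))) -
        dst 17 19 t * (100 * st 11 13 t * (dbp (uB t x y) * y)) := by
      rw [f3t]
      ring
    have r6 : 0 < 100 * st 11 13 t * (dbp (uB t x y) * y) := by positivity
    have r3 := mul_nonneg (dst_ge (a := 17) (b := 19) (by norm_num) t) r6.le
    obtain ⟨-, -, e3⟩ := E q5.le (by linarith)
    have r4 : dst 11 13 t = 0 :=
      (mul_eq_zero.1 (by linarith : dst 11 13 t * (1 - bp (uB t x y)) = 0)).resolve_right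
        (by linarith)
    have r5 : dst 17 19 t = 0 :=
      (mul_eq_zero.1 (by linarith : dst 17 19 t * (100 * st 11 13 t * (dbp (uB t x y) * y)) = 0
        )).resolve_right r6.ne'
    have t3 : 13 ≤ t := by
      by_contra h
      exact (dst_pos (by norm_num) hI (not_le.1 h)).ne' r4
    have t7 : t ≤ 17 := by
      by_contra h
      refine (dst_pos (by norm_num) (not_le.1 h) (lt_of_st1 (a := 17) (by norm_num) ?_)).ne' r5
      intro h2
      rw [aB, h2] at b8
      linarith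
    have w := F3 t3 t7
    have w4 : β = 0 := by
      by_contra h
      have := hβ' h
      nlinarith [w.1, w.2]
    rw [dbp_1 w.1 w.2, w4] at ey
    exact mul_ne_zero p2.ne' (mul_ne_zero hb (mul_ne_zero b8.ne' (by norm_num : (100 : ℝ) ≠ 0)))
      (by linarith)

theorem planar {α β : ℝ} (hσ : σ ∈ Icc (0 : ℝ) 1) (hc : 0 ≤ c) (low : c = 0 ∨ 0 < σ)
    (cut : 7 ≤ s ∨ 100 ≤ c) (ht : t ≤ 20) (hx : x ^ 2 < 65) (hy : y ^ 2 < 65) (hν : nu s t ≠ 0)
    (hμ : mu0 σ c t x y ≠ 0) (h1 : nu s t * mu0 σ c t x y ≠ 1) (hα : 0 ≤ α)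
    (hα' : α ≠ 0 → 64 < x ^ 2) (hβ : 0 ≤ β) (hβ' : β ≠ 0 → 64 < y ^ 2)
    (et : nuT s t * mu0 σ c t x y + nu s t * muT σ c t x y = 0)
    (ex : muX σ c t x y = -(α * x)) (ey : muY σ c t x y = -(β * y)) : False := by
  have p1 : 0 < f1 t x :=
    (f1_mem t x).1.lt_of_ne' fun h => hμ (by rw [mu0_eq, h]; ring)
  have p2 : 0 < f2 σ c t x y :=
    (f2_mem σ c t x y).1.lt_of_ne' fun h => hμ (by rw [mu0_eq, h]; ring)
  have p3 : 0 < f3 t x y :=
    (f3_mem t x y).1.lt_of_ne' fun h => hμ (by rw [mu0_eq, h]; ring)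
  have pν : 0 < nu s t := (st_ge _ _ _).lt_of_ne' hν
  have pμ : 0 < mu0 σ c t x y := (mu0_ge _ _ _ _ _).lt_of_ne' hμ
  have x9 : -9 < x ∧ x < 9 := ⟨by nlinarith, by nlinarith⟩
  have F1 : 4 < t → t < 5 → bp x = 1 := fun h4 h5 => by
    have h6 := lt_of_tent (x := x) (by linarith [(win hσ hy (by linarith) (by linarith) hμ).1])
    exact bp_1 (by linarith [h6.1]) (by linarith [h6.2])
  have F3 : 13 ≤ t → t ≤ 17 → -1 ≤ y ∧ y ≤ 1 := fun h4 h5 => by
    have h6 := p3.ne'
    rw [f3, st_1 (by norm_num) h4, one_mul, sub_sub_cancel] at h6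
    have h7 := lt_of_bp h6
    rw [uB, aB, st_0 (by norm_num) h5] at h7
    constructor <;> linarith [h7.1, h7.2]
  have G1 : dst 4 5 t * (1 - bp x) = 0 := by
    by_cases h : dst 4 5 t = 0
    · rw [h, zero_mul]
    · have h2 := mem_of_dst (by norm_num) h
      rw [F1 h2.1 h2.2, sub_self, mul_zero]
  have N : nuT s t ≤ 0 ∧ (nuT s t = 0 → nu s t = 1) := by
    rcases cut with h | h
    · have h2 : 1 ≤ s - (t - 20 * st 4 6 t) := by
        rcases le_total t 6 with h3 | h3
        · linarith [st_ge 4 6 t]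
        · rw [st_1 (by norm_num) h3]
          linarith
      rw [nuT, nu, dst_1 (by norm_num) h2, st_1 (by norm_num) h2]
      simp
    · have h2 : dst 4 6 t = 0 := by
        by_contra h3
        have h4 := mem_of_dst (by norm_num) h3
        linarith [(win hσ hy (by linarith) (by linarith) hμ).1, tent_le x]
      have h3 := dst_ge (a := 0) (b := 1) (by norm_num) (s - (t - 20 * st 4 6 t))
      rw [nuT, h2]
      refine ⟨by linarith, fun h4 => ?_⟩
      exact (st_01 (by norm_num) (by linarith)).resolve_left hν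
  have E : f2t σ c t x y ≤ 0 → f3t t x y ≤ 0 →
      nu s t = 1 ∧ f2t σ c t x y = 0 ∧ f3t t x y = 0 := fun h2 h3 => by
    rw [muT, G1] at et
    have a1 := mul_nonpos_of_nonpos_of_nonneg N.1 pμ.le
    have a2 := mul_nonpos_of_nonneg_of_nonpos (mul_pos (mul_pos pν p1) p3).le h2
    have a3 := mul_nonpos_of_nonneg_of_nonpos (mul_pos (mul_pos pν p1) p2).le h3
    refine ⟨N.2 ?_, ?_, ?_⟩
    · exact (mul_eq_zero.1 (by linarith : nuT s t * mu0 σ c t x y = 0)).resolve_right hμ
    · exact (mul_eq_zero.1 (by linarith : nu s t * f1 t x * f3 t x y * f2t σ c t x y = 0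
        )).resolve_left (mul_pos (mul_pos pν p1) p3).ne'
    · exact (mul_eq_zero.1 (by linarith : nu s t * f1 t x * f2 σ c t x y * f3t t x y = 0
        )).resolve_left (mul_pos (mul_pos pν p1) p2).ne'
  rcases le_or_gt t 11 with hI | hI
  · exact phase1 hσ low hy hμ p1 p2 h1 hα' hβ hβ' E ex ey F1 hI
  · exact phase2 p2 p3 h1 hα hα' hβ' E ex ey F3 hI

end Vale.Agent.P220Z.Hs.Rg
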