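import Vale.Agent.P220Z.Hs.Slit

/-!
# P220, functions of the argument that are periodic near the slit
-/

open Set Filter Topology
open scoped ContDiff

namespace Vale.Agent.P220Z.Hs

variable {E F : Type} [NormedAddCommGroup E] [NormedSpace ℝ E] [NormedAddCommGroup F]
  [NormedSpace ℝ F]

/-- near the slit: the argument in terms of the argument of `-z` -/
theorem arg_near_slit {α : Type} {G : ℝ → α} {c : ℝ}
    (h1 : ∀ a, |a| ≤ c → G (a + Real.pi) = G (a - Real.pi)) {z : ℂ} (h0 : z ≠ 0)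
    (hz : |Complex.arg (-z)| ≤ c) : G (Complex.arg z) = G (Complex.arg (-z) + Real.pi) := by
  rcases lt_trichotomy z.im 0 with h4 | h4 | h4
  · rw [h1 _ hz, Complex.arg_neg_eq_arg_add_pi_of_im_neg h4, add_sub_cancel_right]
  · rcases lt_trichotomy z.re 0 with h5 | h5 | h5
    · have h6 : Complex.arg (-z) = 0 := by
        rw [Complex.arg_eq_zero_iff]
        simp [h5.le, h4]
      rw [h6, zero_add, Complex.arg_eq_pi_iff.2 ⟨h5, h4⟩]
    · exact absurd (Complex.ext h5 h4) h0
    · have h6 : Complex.arg (-z) = Real.pi :=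
        Complex.arg_eq_pi_iff.2 ⟨by simpa using h5, by simpa using h4⟩
      have h7 : Complex.arg z = 0 := Complex.arg_eq_zero_iff.2 ⟨h5.le, h4⟩
      rw [h1 _ hz, h6, h7, sub_self]
  · rw [Complex.arg_neg_eq_arg_sub_pi_of_im_pos h4, sub_add_cancel]

theorem neg_mem_slit {w : ℂ} (h0 : w ≠ 0) (h : w ∉ Complex.slitPlane) :
    -w ∈ Complex.slitPlane ∧ Complex.arg (-w) = 0 ∧ Complex.arg w = Real.pi := by
  have hw : w.re < 0 ∧ w.im = 0 := by
    rw [Complex.mem_slitPlane_iff, not_or, not_lt, not_not] at h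
    refine ⟨lt_of_le_of_ne h.1 fun h1 => h0 (Complex.ext h1 h.2), h.2⟩
  refine ⟨Or.inl (by simpa using hw.1), ?_, Complex.arg_eq_pi_iff.2 hw⟩
  rw [Complex.arg_eq_zero_iff]
  simp [hw.1.le, hw.2]

/-- A smooth function of an angle and of `e` that is periodic in the angle near the slit and does
not depend on it near `w e = 0` is a smooth function of `e`. -/
theorem smooth_per {G : ℝ × E → F} (hG : ContDiff ℝ ∞ G) {w : E → ℂ} (hw : ContDiff ℝ ∞ w)
    {c δ : ℝ} (hc : 0 < c) (hδ : 0 < δ)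
    (h1 : ∀ a e, |a| ≤ c → G (a + Real.pi, e) = G (a - Real.pi, e))
    (h2 : ∀ a e, ‖w e‖ < δ → G (a, e) = G (0, e)) :
    ContDiff ℝ ∞ fun e => G (Complex.arg (w e), e) := by
  refine contDiff_iff_contDiffAt.2 fun e => ?_
  by_cases he : w e ∈ Complex.slitPlane
  · exact hG.contDiffAt.comp e
      (((arg_contDiffAt he).comp e hw.contDiffAt).prodMk contDiffAt_id)
  by_cases hz : w e = 0
  · have h0 : ContDiff ℝ ∞ fun e => G (0, e) := hG.comp (contDiff_const.prodMk contDiff_id)
    refine h0.contDiffAt.congr_of_eventuallyEq ?_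
    have : ∀ᶠ e' in 𝓝 e, ‖w e'‖ < δ :=
      hw.continuous.norm.continuousAt.eventually_lt continuousAt_const (by simpa [hz] using hδ)
    filter_upwards [this] with e' he' using h2 _ _ he'
  · obtain ⟨h3, h4, -⟩ := neg_mem_slit hz he
    have h5 : ContDiffAt ℝ ∞ (fun e => Complex.arg (-w e)) e :=
      (arg_contDiffAt h3).comp (f := fun e => -w e) e hw.neg.contDiffAt
    refine (hG.contDiffAt.comp e ((h5.add (contDiffAt_const (c := Real.pi))).prodMk
      contDiffAt_id)).congr_of_eventuallyEq ?_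
    have h6 : ∀ᶠ e' in 𝓝 e, |Complex.arg (-w e')| < c :=
      h5.continuousAt.abs.eventually_lt continuousAt_const (by simpa [h4] using hc)
    filter_upwards [h6, hw.continuous.continuousAt.eventually_ne hz] with e' h7 h8
    exact arg_near_slit (G := fun a => G (a, e')) (fun a ha => h1 a e' ha) h8 h7.le

theorem arg_rot {w : ℂ} (h0 : w ≠ 0) {θ : ℝ} (h : |Complex.arg w + θ| < Real.pi) :
    Complex.arg (Complex.exp (θ * Complex.I) * w) = Complex.arg w + θ := by
  rw [abs_lt] at h
  have h5 : Complex.exp (θ * Complex.I) * w =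
      (‖w‖ : ℂ) * Complex.exp (((Complex.arg w + θ : ℝ) : ℂ) * Complex.I) := by
    conv_lhs => rw [← Complex.norm_mul_exp_arg_mul_I w]
    push_cast
    rw [add_mul, Complex.exp_add]
    ring
  rw [h5, Complex.arg_real_mul _ (norm_pos_iff.2 h0), Complex.arg_exp_mul_I, toIocMod_eq_self]
  exact ⟨h.1, by linarith [h.2]⟩

/-- rotation shifts the angle, as far as such a function can see -/
theorem rot_per {α : Type} {G : ℝ → α} {c : ℝ} (hc : 0 < c)
    (h1 : ∀ a, |a| ≤ c → G (a + Real.pi) = G (a - Real.pi)) {w : ℂ} (h0 : w ≠ 0) {θ : ℝ → ℝ}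
    (hθ : ContinuousAt θ 0) (hθ0 : θ 0 = 0) :
    ∀ᶠ t in 𝓝 (0 : ℝ), G (Complex.arg (Complex.exp (θ t * Complex.I) * w)) =
      G (Complex.arg w + θ t) := by
  by_cases he : w ∈ Complex.slitPlane
  · have ha : |Complex.arg w| < Real.pi := by
      rw [abs_lt]
      exact ⟨Complex.neg_pi_lt_arg w,
        lt_of_le_of_ne (Complex.arg_le_pi w) (Complex.slitPlane_arg_ne_pi he)⟩
    have h3 : ∀ᶠ t in 𝓝 (0 : ℝ), |Complex.arg w + θ t| < Real.pi :=
      (continuousAt_const.add hθ).abs.eventually_lt continuousAt_const (by simpa [hθ0] using ha)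
    filter_upwards [h3] with t h4
    rw [arg_rot h0 h4]
  · obtain ⟨-, h4, h5⟩ := neg_mem_slit h0 he
    have h3 : ∀ᶠ t in 𝓝 (0 : ℝ), |θ t| < min c Real.pi :=
      hθ.abs.eventually_lt continuousAt_const (by simpa [hθ0] using ⟨hc, Real.pi_pos⟩)
    filter_upwards [h3] with t ht
    have h6 : Complex.arg (-(Complex.exp (θ t * Complex.I) * w)) = θ t := by
      rw [← mul_neg, arg_rot (neg_ne_zero.2 h0) (by
        rw [h4, zero_add]; exact ht.trans_le (min_le_right _ _)), h4, zero_add]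
    rw [arg_near_slit h1 (mul_ne_zero (Complex.exp_ne_zero _) h0)
      (by rw [h6]; exact (ht.trans_le (min_le_left _ _)).le), h6, h5, add_comm]

end Vale.Agent.P220Z.Hs
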