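import Vale.Agent.P220Z.Hs.Defs
import Vale.Agent.P220Z.Hs.SlitP

/-!
# P220, the horseshoe: the defining functions are smooth and positive at infinity
-/

open Set Filter Topology
open scoped ContDiff

namespace Vale.Agent.P220Z.Hs.Sp

namespace Sm

section

variable {X : Type} [NormedAddCommGroup X] [NormedSpace ℝ X]

theorem st_s (a b : ℝ) {f : X → ℝ} (hf : ContDiff ℝ ∞ f) : ContDiff ℝ ∞ fun x => st a b (f x) :=
  S_smooth.comp ((hf.sub contDiff_const).div_const _)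

theorem ps_s {f : X → ℝ} (hf : ContDiff ℝ ∞ f) : ContDiff ℝ ∞ fun x => ps (f x) :=
  (hf.sub contDiff_const).mul (st_s _ _ hf)

theorem bp_s {f : X → ℝ} (hf : ContDiff ℝ ∞ f) : ContDiff ℝ ∞ fun x => bp (f x) :=
  contDiff_const.sub (st_s _ _ (hf.pow 2))

theorem tent_s {f : X → ℝ} (hf : ContDiff ℝ ∞ f) : ContDiff ℝ ∞ fun x => tent (f x) :=
  contDiff_const.mul (contDiff_const.sub
    (hf.mul ((contDiff_const.mul (st_s _ _ hf)).sub contDiff_const)))

theorem ch1_s {f : X → ℝ} (hf : ContDiff ℝ ∞ f) : ContDiff ℝ ∞ fun x => ch1 (f x) :=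
  (st_s _ _ hf).mul (contDiff_const.sub (st_s _ _ hf))

theorem ofReal_s {f : X → ℝ} (hf : ContDiff ℝ ∞ f) : ContDiff ℝ ∞ fun x => (f x : ℂ) :=
  Complex.ofRealCLM.contDiff.comp hf

theorem ec_s {f : X → ℝ} (hf : ContDiff ℝ ∞ f) : ContDiff ℝ ∞ fun x => ec (f x) :=
  (Complex.contDiff_exp (𝕜 := ℝ)).comp ((ofReal_s (contDiff_const.mul hf)).mul contDiff_const)

theorem aA_s {f g : X → ℝ} (hf : ContDiff ℝ ∞ f) (hg : ContDiff ℝ ∞ g) :
    ContDiff ℝ ∞ fun x => aA (f x) (g x) :=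
  (contDiff_const.sub ((hf.div_const _).mul (st_s _ _ hg))).sub
    ((contDiff_const.sub (hf.div_const _)).mul (st_s _ _ hg))

theorem aB_s {f : X → ℝ} (hf : ContDiff ℝ ∞ f) : ContDiff ℝ ∞ fun x => aB (f x) :=
  contDiff_const.sub (st_s _ _ hf)

theorem nu_s {f g : X → ℝ} (hf : ContDiff ℝ ∞ f) (hg : ContDiff ℝ ∞ g) :
    ContDiff ℝ ∞ fun x => nu (f x) (g x) :=
  st_s _ _ (hf.sub (hg.sub (contDiff_const.mul (st_s _ _ hg))))

theorem oo_s {f : X → ℝ} (hf : ContDiff ℝ ∞ f) : ContDiff ℝ ∞ fun x => oo (f x) :=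
  contDiff_const.mul (contDiff_const.sub (st_s _ _ hf))

theorem mu0_s {σ c t p q : X → ℝ} (hσ : ContDiff ℝ ∞ σ) (hc : ContDiff ℝ ∞ c)
    (ht : ContDiff ℝ ∞ t) (hp : ContDiff ℝ ∞ p) (hq : ContDiff ℝ ∞ q) :
    ContDiff ℝ ∞ fun x => mu0 (σ x) (c x) (t x) (p x) (q x) :=
  ((contDiff_const.sub ((contDiff_const.sub (st_s _ _ ht)).mul
    (contDiff_const.sub (bp_s hp)))).mul
    (contDiff_const.sub (((st_s _ _ ht).sub (st_s _ _ ht)).mul (contDiff_const.sub
      (bp_s (hq.add ((aA_s hσ ht).mul ((tent_s hp).sub hc)))))))).mul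
    (contDiff_const.sub ((st_s _ _ ht).mul (contDiff_const.sub
      (bp_s (hp.add ((aB_s ht).mul (contDiff_const.mul hq)))))))

theorem kk_s {t p : X → ℝ} (ht : ContDiff ℝ ∞ t) (hp : ContDiff ℝ ∞ p) :
    ContDiff ℝ ∞ fun x => kk (t x) (p x) :=
  contDiff_const.add ((ofReal_s (ch1_s hp)).mul ((ec_s (st_s _ _ ht)).sub contDiff_const))

theorem nsq_s {f : X → ℂ} (hf : ContDiff ℝ ∞ f) : ContDiff ℝ ∞ fun x => ‖f x‖ ^ 2 :=
  hf.norm_sq ℝ

theorem qq_s {A B : X → ℝ} {v : X → ZMod 5 → ℂ} {k : X → ℂ} (hA : ContDiff ℝ ∞ A)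
    (hB : ContDiff ℝ ∞ B) (hv : ContDiff ℝ ∞ v) (hk : ContDiff ℝ ∞ k) :
    ContDiff ℝ ∞ fun x => qq (A x) (B x) (v x) (k x) := by
  have hi : ∀ i, ContDiff ℝ ∞ fun x => v x i := contDiff_pi.1 hv
  refine (ContDiff.sum fun i _ => ContDiff.mul ?_ (((nsq_s (hi i)).sub contDiff_const).pow 2)).add
    (nsq_s ((contDiff_prod fun i _ => hi i).sub ((ofReal_s hB).mul hk)))
  by_cases h : i = 0
  · simpa [h] using hA
  · simpa [h] using contDiff_const

end

theorem wall_s : ContDiff ℝ ∞ wall := by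
  have hi : ∀ i, ContDiff ℝ ∞ fun u : U0 => u.2.2 i := contDiff_pi.1 contDiff_snd.snd
  exact (((ps_s (nsq_s contDiff_fst)).add (ps_s (contDiff_snd.fst.fst.pow 2))).add
    (ps_s (contDiff_snd.fst.snd.pow 2))).add (ps_s (ContDiff.sum fun i _ => nsq_s (hi i)))

theorem st_zero {a b t : ℝ} (hab : a < b) (h : t ≤ a) : st a b t = 0 :=
  S_zero (div_nonpos_of_nonpos_of_nonneg (by linarith) (by linarith))

theorem st_one {a b t : ℝ} (hab : a < b) (h : b ≤ t) : st a b t = 1 :=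
  S_one ((one_le_div (by linarith)).2 (by linarith))

theorem st_nonneg (a b t : ℝ) : 0 ≤ st a b t := S_nonneg _

theorem st_le_one (a b t : ℝ) : st a b t ≤ 1 := S_le_one _

theorem ec_zero : ec 0 = 1 := by simp [ec]

theorem ec_one : ec 1 = 1 := by simp [ec]

end Sm

/-- the defining function with the time as an independent variable -/
noncomputable def Gs (t : ℝ) (a : Par) (u : U0) : ℝ :=
  wall u + chi (‖u.1‖ ^ 2) * (nu a.2.2.2.2 t * mu0 a.2.2.1 a.2.2.2.1 t u.2.1.1 u.2.1.2 *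
    (qq a.1 a.2.1 u.2.2 (kk t u.2.1.1) + oo (‖u.1‖ ^ 2))) - 1 / 4

theorem FF_eq (a : Par) (u : U0) : FF a u = Gs (th u.1) a u := rfl

theorem Gs_smooth : ContDiff ℝ ∞ fun y : ℝ × Par × U0 => Gs y.1 y.2.1 y.2.2 := by
  have hn : ContDiff ℝ ∞ fun y : ℝ × Par × U0 => ‖y.2.2.1‖ ^ 2 := Sm.nsq_s (by fun_prop)
  exact ((Sm.wall_s.comp contDiff_snd.snd).add ((Sm.st_s _ _ hn).mul
    (((Sm.nu_s (by fun_prop) contDiff_fst).mul
      (Sm.mu0_s (by fun_prop) (by fun_prop) contDiff_fst (by fun_prop) (by fun_prop))).mul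
      ((Sm.qq_s (by fun_prop) (by fun_prop) (by fun_prop)
        (Sm.kk_s contDiff_fst (by fun_prop))).add (Sm.oo_s hn))))).sub contDiff_const

theorem mu0_early {σ c t : ℝ} (h : t ≤ 1) (x y : ℝ) : mu0 σ c t x y = bp x := by
  rw [mu0, Sm.st_zero (t := t) (a := 4) (by norm_num) (by linarith),
    Sm.st_zero (t := t) (a := 1) (by norm_num) h,
    Sm.st_zero (t := t) (a := 14) (by norm_num) (by linarith),
    Sm.st_zero (t := t) (a := 11) (by norm_num) (by linarith)]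
  ring

theorem mu0_late {σ c t : ℝ} (h : 19 ≤ t) (x y : ℝ) : mu0 σ c t x y = bp x := by
  rw [mu0, aB, Sm.st_one (t := t) (b := 5) (by norm_num) (by linarith),
    Sm.st_one (t := t) (b := 3) (by norm_num) (by linarith),
    Sm.st_one (t := t) (b := 15) (by norm_num) (by linarith),
    Sm.st_one (t := t) (b := 13) (by norm_num) (by linarith),
    Sm.st_one (t := t) (b := 19) (by norm_num) h]
  simp

theorem kk_early {t : ℝ} (h : t ≤ 5) (x : ℝ) : kk t x = 1 := by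
  rw [kk, eta, Sm.st_zero (by norm_num) h, Sm.ec_zero]
  simp

theorem kk_late {t : ℝ} (h : 7 ≤ t) (x : ℝ) : kk t x = 1 := by
  rw [kk, eta, Sm.st_one (by norm_num) h, Sm.ec_one]
  simp

theorem nu_per {t : ℝ} (h : |t| ≤ 1) (s : ℝ) : nu s (t + 20) = nu s t := by
  obtain ⟨h1, h2⟩ := abs_le.1 h
  rw [nu, nu, Sm.st_one (t := t + 20) (by norm_num) (by linarith),
    Sm.st_zero (t := t) (by norm_num) (by linarith)]
  congr 1
  ring

/-- the data are periodic near the slit -/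
theorem Gs_per {t : ℝ} (h : |t| ≤ 1) (a : Par) (u : U0) : Gs (t + 20) a u = Gs t a u := by
  obtain ⟨h1, h2⟩ := abs_le.1 h
  rw [Gs, Gs, nu_per h, mu0_early h2, mu0_late (by linarith), kk_early (t := t) (by linarith),
    kk_late (by linarith)]

theorem per_of {α : Type} {G : ℝ → α} (h : ∀ t, |t| ≤ 1 → G (t + 20) = G t) (a : ℝ)
    (ha : |a| ≤ Real.pi / 10) :
    G (10 + 10 * (a + Real.pi) / Real.pi) = G (10 + 10 * (a - Real.pi) / Real.pi) := by
  have hp := Real.pi_pos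
  have h1 : 10 + 10 * (a + Real.pi) / Real.pi = 10 * a / Real.pi + 20 := by
    field_simp
    ring
  have h2 : 10 + 10 * (a - Real.pi) / Real.pi = 10 * a / Real.pi := by
    field_simp
    ring
  rw [h1, h2]
  refine h _ ?_
  rw [abs_div, abs_mul, abs_of_pos hp, abs_of_pos (show (0 : ℝ) < 10 by norm_num), div_le_one hp]
  linarith

theorem chi_zero {w : ℂ} (h : ‖w‖ ≤ 1 / 4) : chi (‖w‖ ^ 2) = 0 :=
  Sm.st_zero (by norm_num) (by nlinarith [norm_nonneg w])

theorem FF_smooth : ContDiff ℝ ∞ fun y : Par × U0 => FF y.1 y.2 := by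
  have hG : ContDiff ℝ ∞ fun y : ℝ × Par × U0 => Gs (10 + 10 * y.1 / Real.pi) y.2.1 y.2.2 :=
    Gs_smooth.comp (f := fun y : ℝ × Par × U0 => (10 + 10 * y.1 / Real.pi, y.2)) (by fun_prop)
  refine smooth_per (c := Real.pi / 10) (δ := 1 / 4) hG (w := fun y : Par × U0 => y.2.1)
    (by fun_prop) (by positivity) (by norm_num) (fun a e ha => ?_) fun a e he => ?_
  · exact per_of (G := fun t => Gs t e.1 e.2) (fun t ht => Gs_per ht _ _) a ha
  · simp only [Gs, chi_zero he.le, zero_mul]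

/-- rotation of `w` shifts the time, as far as a function that is periodic at the slit can see -/
theorem th_rot {α : Type} {G : ℝ → α} (h : ∀ t, |t| ≤ 1 → G (t + 20) = G t) {w : ℂ} (h0 : w ≠ 0) :
    ∀ᶠ s in 𝓝 (0 : ℝ), G (th (ec (s / 20) * w)) = G (th w + s) := by
  have hp := Real.pi_pos
  have h1 := rot_per (G := fun a => G (10 + 10 * a / Real.pi)) (c := Real.pi / 10) (by positivity)
    (per_of h) h0 (θ := fun s => 2 * Real.pi * (s / 20)) (by fun_prop) (by simp)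
  filter_upwards [h1] with s hs
  refine hs.trans (congrArg G ?_)
  rw [th]
  field_simp
  ring

theorem th_mem (w : ℂ) : th w ∈ Ioc (0 : ℝ) 20 := by
  have hp := Real.pi_pos
  have h1 : -10 < 10 * Complex.arg w / Real.pi := by
    rw [lt_div_iff₀ hp]
    linarith [Complex.neg_pi_lt_arg w]
  have h2 : 10 * Complex.arg w / Real.pi ≤ 10 := by
    rw [div_le_iff₀ hp]
    linarith [Complex.arg_le_pi w]
  exact ⟨by rw [th]; linarith, by rw [th]; linarith⟩

end Vale.Agent.P220Z.Hs.Sp
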