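import Vale.Agent.P220Z.Hs.Pla
import Vale.Agent.P220Z.Hs.Smo
import Vale.Agent.P220Z.Hs.Sm
import Vale.Agent.P220Z.Hs.Q

/-!
# P220, horseshoe model: the level zero is regular
-/

open Set Filter Topology
open scoped ContDiff

namespace Vale.Agent.P220Z.Hs

namespace Rg

theorem norm_ec (t : ℝ) : ‖ec t‖ = 1 := Complex.norm_exp_ofReal_mul_I _

theorem ec_add (s t : ℝ) : ec (s + t) = ec s * ec t := by
  rw [ec, ec, ec, ← Complex.exp_add]
  congr 1
  push_cast
  ring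

theorem norm_kk_le (t x : ℝ) : ‖kk t x‖ ≤ 1 := by
  have h : kk t x = ((1 - ch1 x : ℝ) : ℂ) + (ch1 x : ℂ) * ec (eta t) := by
    rw [kk]
    push_cast
    ring
  rw [h]
  refine (norm_add_le _ _).trans ?_
  rw [norm_mul, norm_ec, Complex.norm_real, Complex.norm_real, Real.norm_of_nonneg (ch1_ge x),
    Real.norm_of_nonneg (sub_nonneg.2 (ch1_le x))]
  linarith

theorem kk_shift {x : ℝ} (h : ch1 x = 0 ∨ ch1 x = 1) (t t' : ℝ) :
    kk t' x = ec (ch1 x * (eta t' - eta t)) * kk t x := by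
  rcases h with h | h
  · simp [kk, h, Sm.ec_zero]
  · simp only [kk, h, Complex.ofReal_one, one_mul, add_sub_cancel, ← ec_add, sub_add_cancel]

theorem th_smul {r : ℝ} (h : 0 < r) (w : ℂ) : th (r • w) = th w := by
  rw [th, th, Complex.real_smul, Complex.arg_real_mul _ h]

theorem nsq_smul (r : ℝ) (w : ℂ) : ‖r • w‖ ^ 2 = r ^ 2 * ‖w‖ ^ 2 := by
  rw [norm_smul, mul_pow, Real.norm_eq_abs, sq_abs]

theorem sq_deriv (n : ℝ) : HasDerivAt (fun r : ℝ => (1 + r) ^ 2 * n) (2 * n) 0 := by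
  refine ((((hasDerivAt_id' (0 : ℝ)).const_add 1).pow 2).mul_const n).congr_deriv ?_
  simp

/-- at a critical point the derivative along each curve is zero -/
theorem crit {a : Par} {u : U0} (h : fderiv ℝ (FF a) u = 0) {γ : ℝ → U0}
    (hγ : DifferentiableAt ℝ γ 0) (h0 : γ 0 = u) : HasDerivAt (fun r => FF a (γ r)) 0 0 := by
  have h1 : ContDiff ℝ ∞ (FF a) :=
    ContDiff.comp (g := fun y : Par × U0 => FF y.1 y.2) (f := fun u : U0 => (a, u)) FF_smooth
      (contDiff_const.prodMk contDiff_id)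
  have h2 := (h1.differentiable (by simp) u).hasFDerivAt
  rw [h, ← h0] at h2
  exact h2.comp_hasDerivAt 0 hγ.hasDerivAt

theorem crit' {a : Par} {u : U0} (h : fderiv ℝ (FF a) u = 0) {γ : ℝ → U0}
    (hγ : DifferentiableAt ℝ γ 0) (h0 : γ 0 = u) {g : ℝ → ℝ} {D : ℝ}
    (hg : ∀ᶠ r in 𝓝 (0 : ℝ), g r = FF a (γ r)) (hD : HasDerivAt g D 0) : D = 0 :=
  hD.unique ((crit h hγ h0).congr_of_eventuallyEq hg)

/-- the radial direction -/
theorem radial {a : Par} (hA : 0 ≤ a.1) {u : U0} (h : fderiv ℝ (FF a) u = 0)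
    (h0 : FF a u = wall u - 1 / 4) : wall u = 0 := by
  have h1 := crit h (γ := fun r => (1 + r) • u) (by fun_prop) (by simp)
  have h2 : HasDerivAt (fun r : ℝ => wall ((1 + r) • u))
      (dps (‖u.1‖ ^ 2) * (2 * ‖u.1‖ ^ 2) + dps (u.2.1.1 ^ 2) * (2 * u.2.1.1 ^ 2) +
        dps (u.2.1.2 ^ 2) * (2 * u.2.1.2 ^ 2) +
        dps (∑ i, ‖u.2.2 i‖ ^ 2) * (2 * ∑ i, ‖u.2.2 i‖ ^ 2)) 0 := by
    have h3 := (((sq_deriv (‖u.1‖ ^ 2)).ps.add (sq_deriv (u.2.1.1 ^ 2)).ps).add
      (sq_deriv (u.2.1.2 ^ 2)).ps).add (sq_deriv (∑ i, ‖u.2.2 i‖ ^ 2)).ps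
    simp only [add_zero, one_pow, one_mul] at h3
    refine h3.congr_of_eventuallyEq (Eventually.of_forall fun r => ?_)
    simp only [wall, Prod.smul_fst, Prod.smul_snd, Pi.smul_apply, nsq_smul, smul_eq_mul, mul_pow,
      Finset.mul_sum, Pi.add_apply]
  have h4 : IsLocalMin (fun r : ℝ => FF a ((1 + r) • u) - wall ((1 + r) • u)) 0 := by
    refine Eventually.of_forall fun r => ?_
    have := wall_le hA ((1 + r) • u)
    simp only [add_zero, one_smul]
    linarith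
  have h5 := h4.hasDerivAt_eq_zero (h1.sub h2)
  have b1 := mul_nonneg (dps_ge (‖u.1‖ ^ 2)) (sq_nonneg ‖u.1‖)
  have b2 := mul_nonneg (dps_ge (u.2.1.1 ^ 2)) (sq_nonneg u.2.1.1)
  have b3 := mul_nonneg (dps_ge (u.2.1.2 ^ 2)) (sq_nonneg u.2.1.2)
  have b4 := mul_nonneg (dps_ge (∑ i, ‖u.2.2 i‖ ^ 2))
    (Finset.sum_nonneg fun i (_ : i ∈ Finset.univ) => sq_nonneg ‖u.2.2 i‖)
  rw [wall, ps_of_dps (by linarith), ps_of_dps (t := u.2.1.1 ^ 2) (by linarith),
    ps_of_dps (t := u.2.1.2 ^ 2) (by linarith), ps_of_dps (t := ∑ i, ‖u.2.2 i‖ ^ 2) (by linarith)]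
  ring

variable {A B σ c s x y : ℝ} {w : ℂ} {v : ZMod 5 → ℂ}

/-- the direction of the radius of `w` -/
theorem dirR (h : fderiv ℝ (FF (A, B, σ, c, s)) (w, (x, y), v) = 0) :
    dps (‖w‖ ^ 2) * (2 * ‖w‖ ^ 2) + (dst (1 / 16) (1 / 4) (‖w‖ ^ 2) * (2 * ‖w‖ ^ 2) *
      (nu s (th w) * mu0 σ c (th w) x y * (qq A B v (kk (th w) x) + oo (‖w‖ ^ 2))) +
      chi (‖w‖ ^ 2) * (nu s (th w) * mu0 σ c (th w) x y *
        (2 * -(dst (1 / 4) (9 / 16) (‖w‖ ^ 2) * (2 * ‖w‖ ^ 2))))) = 0 := by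
  have h1 := sq_deriv (‖w‖ ^ 2)
  have h2 := (((h1.ps.add_const (ps (x ^ 2))).add_const (ps (y ^ 2))).add_const
    (ps (∑ i, ‖v i‖ ^ 2))).add ((h1.st (1 / 16) (1 / 4)).mul
      (((((h1.st (1 / 4) (9 / 16)).const_sub 1).const_mul 2).const_add
        (qq A B v (kk (th w) x))).const_mul (nu s (th w) * mu0 σ c (th w) x y)))
  have h3 := crit' h (γ := fun r => ((1 + r) • w, (x, y), v)) (by fun_prop) (by simp) ?_
    (h2.sub_const (1 / 4))
  · simpa only [add_zero, one_pow, one_mul, oo, chi] using h3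
  · filter_upwards [Ioi_mem_nhds (show (-1 : ℝ) < 0 by norm_num)] with r hr
    have h4 : 0 < 1 + r := by linarith [mem_Ioi.1 hr]
    simp only [FF, wall, th_smul h4, nsq_smul]
    rfl

/-- the direction of `y` -/
theorem dirY (h : fderiv ℝ (FF (A, B, σ, c, s)) (w, (x, y), v) = 0) :
    dps (y ^ 2) * (2 * y) + chi (‖w‖ ^ 2) * (nu s (th w) * muY σ c (th w) x y *
      (qq A B v (kk (th w) x) + oo (‖w‖ ^ 2))) = 0 := by
  have h1 := (hasDerivAt_id' (0 : ℝ)).const_add y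
  have h2 := ((((h1.pow 2).ps.const_add (ps (‖w‖ ^ 2) + ps (x ^ 2))).add_const
    (ps (∑ i, ‖v i‖ ^ 2))).add (((((mu0_deriv σ c (hasDerivAt_const (0 : ℝ) (th w))
      (hasDerivAt_const (0 : ℝ) x) h1).const_mul (nu s (th w))).mul_const
        (qq A B v (kk (th w) x) + oo (‖w‖ ^ 2)))).const_mul (chi (‖w‖ ^ 2)))).sub_const (1 / 4)
  have h3 := crit' h (γ := fun r => (w, (x, y + r), v)) (by fun_prop) (by simp)
    (Eventually.of_forall fun r => rfl) h2
  simpa using h3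

/-- the direction of `x` -/
theorem dirX (h : fderiv ℝ (FF (A, B, σ, c, s)) (w, (x, y), v) = 0)
    (hk : ∀ᶠ r in 𝓝 (0 : ℝ), qq A B v (kk (th w) x) = qq A B v (kk (th w) (x + r))) :
    dps (x ^ 2) * (2 * x) + chi (‖w‖ ^ 2) * (nu s (th w) * muX σ c (th w) x y *
      (qq A B v (kk (th w) x) + oo (‖w‖ ^ 2))) = 0 := by
  have h1 := (hasDerivAt_id' (0 : ℝ)).const_add x
  have h2 := (((((h1.pow 2).ps.const_add (ps (‖w‖ ^ 2))).add_const (ps (y ^ 2))).add_const
    (ps (∑ i, ‖v i‖ ^ 2))).add (((((mu0_deriv σ c (hasDerivAt_const (0 : ℝ) (th w)) h1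
      (hasDerivAt_const (0 : ℝ) y)).const_mul (nu s (th w))).mul_const
        (qq A B v (kk (th w) x) + oo (‖w‖ ^ 2)))).const_mul (chi (‖w‖ ^ 2)))).sub_const (1 / 4)
  have h3 := crit' h (γ := fun r => (w, (x + r, y), v)) (by fun_prop) (by simp) ?_ h2
  · simpa using h3
  · filter_upwards [hk] with r hr
    simp only [FF, wall, ← hr]
    rfl

/-- the direction of the time -/
theorem dirT (h : fderiv ℝ (FF (A, B, σ, c, s)) (w, (x, y), v) = 0) (hw : w ≠ 0)
    (hk : B = 0 ∨ ∀ᶠ r in 𝓝 (0 : ℝ),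
      kk (th w + r) x = ec (ch1 x * (eta (th w + r) - eta (th w))) * kk (th w) x) :
    chi (‖w‖ ^ 2) * ((nuT s (th w) * mu0 σ c (th w) x y + nu s (th w) * muT σ c (th w) x y) *
      (qq A B v (kk (th w) x) + oo (‖w‖ ^ 2))) = 0 := by
  set m : ℝ → ZMod 5 → ℂ := fun r i =>
    if i = 0 then ec (ch1 x * (eta (th w + r) - eta (th w))) else 1 with hm
  have m1 : ∀ r i, ‖m r i‖ = 1 := fun r i => by
    simp only [hm]
    split_ifs
    exacts [norm_ec _, norm_one]
  have m2 : ∀ r, ∏ i, m r i = ec (ch1 x * (eta (th w + r) - eta (th w))) := fun r => by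
    simp [hm]
  have m3 : ∀ᶠ r in 𝓝 (0 : ℝ),
      qq A B (fun i => m r i * v i) (kk (th w + r) x) = qq A B v (kk (th w) x) := by
    rcases hk with hk | hk
    · refine Eventually.of_forall fun r => ?_
      rw [← qq_mul A B (m1 r) v, hk]
      exact qq_zero_right _ _ _ _
    · filter_upwards [hk] with r hr
      rw [hr, ← m2, qq_mul A B (m1 r)]
  have h1 := (hasDerivAt_id' (0 : ℝ)).const_add (th w)
  have h2 := (((((nu_deriv s h1).mul (mu0_deriv σ c h1 (hasDerivAt_const (0 : ℝ) x)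
    (hasDerivAt_const (0 : ℝ) y))).mul_const (qq A B v (kk (th w) x) + oo (‖w‖ ^ 2))).const_mul
      (chi (‖w‖ ^ 2))).const_add (wall (w, (x, y), v))).sub_const (1 / 4)
  have e1 : Differentiable ℝ ec := Sm.ec_smooth.differentiable (by simp)
  have e2 : Differentiable ℝ eta := Sm.eta_smooth.differentiable (by simp)
  have h3 := crit' h (γ := fun r => (ec (r / 20) * w, (x, y), fun i => m r i * v i)) ?_ ?_ ?_ h2
  · simpa using h3
  · refine DifferentiableAt.prodMk (by fun_prop) (DifferentiableAt.prodMk (by fun_prop) ?_)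
    refine differentiableAt_pi.2 fun i => DifferentiableAt.mul_const ?_ _
    simp only [hm]
    split_ifs
    · fun_prop
    · fun_prop
  · refine Prod.ext (by simp [Sm.ec_zero]) (Prod.ext rfl (funext fun i => ?_))
    simp [hm, Sm.ec_zero]
  · filter_upwards [m3, Sp.th_rot (G := fun t => Sp.Gs t (A, B, σ, c, s))
      (fun t ht => funext fun u => Sp.Gs_per ht _ u) hw] with r hr hr'
    rw [Sp.FF_eq]
    simp only
    rw [hr']
    simp only [Sp.Gs, wall, norm_mul, norm_ec, m1, one_mul, hr]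
    rfl

/-- the directions of `v` -/
theorem dirV (h : fderiv ℝ (FF (A, B, σ, c, s)) (w, (x, y), v) = 0) (hv : ∑ i, ‖v i‖ ^ 2 ≤ 64)
    (hM : chi (‖w‖ ^ 2) * (nu s (th w) * mu0 σ c (th w) x y) ≠ 0) :
    fderiv ℝ (fun v => qq A B v (kk (th w) x)) v = 0 := by
  ext δ
  have hq : ContDiff ℝ ∞ fun v => qq A B v (kk (th w) x) :=
    qq_smooth contDiff_const contDiff_const contDiff_id contDiff_const
  have h1 : HasDerivAt (fun r : ℝ => v + r • δ) δ 0 := by
    simpa using ((hasDerivAt_id' (0 : ℝ)).smul_const δ).const_add v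
  have h2 := (hq.differentiable (by simp) (v + (0 : ℝ) • δ)).hasFDerivAt.comp_hasDerivAt 0 h1
  have h3 : DifferentiableAt ℝ (fun r : ℝ => ∑ i, ‖(v + r • δ) i‖ ^ 2) 0 :=
    DifferentiableAt.fun_sum fun i _ => DifferentiableAt.norm_sq ℝ (by
      simp only [Pi.add_apply, Pi.smul_apply]
      fun_prop)
  have h4 := ((h3.hasDerivAt.ps.const_add (ps (‖w‖ ^ 2) + ps (x ^ 2) + ps (y ^ 2))).add
    (((h2.add_const (oo (‖w‖ ^ 2))).const_mul (nu s (th w) * mu0 σ c (th w) x y)).const_mul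
      (chi (‖w‖ ^ 2)))).sub_const (1 / 4)
  have h5 := crit' h (γ := fun r => (w, (x, y), v + r • δ)) (by fun_prop) (by simp)
    (Eventually.of_forall fun r => rfl) h4
  simp only [zero_smul, add_zero, dps_0 hv, zero_mul, zero_add, ← mul_assoc] at h5
  rw [← mul_assoc] at hM
  exact (mul_eq_zero.1 h5).resolve_left hM

end Rg

open Rg in
theorem FF_reg (a : Par) (h : Ok a) (u : U0) (h0 : FF a u = 0) : fderiv ℝ (FF a) u ≠ 0 := by
  intro hc
  obtain ⟨A, B, σ, c, s⟩ := a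
  obtain ⟨w, ⟨x, y⟩, v⟩ := u
  obtain ⟨hA, hB, hσ, hc0, hq, low, cut⟩ := h
  simp only at hA hB hσ hc0 hq low cut
  have w1 : wall (w, (x, y), v) ≤ 1 / 4 := by linarith [wall_le (a := (A, B, σ, c, s)) hA.1 (w, (x, y), v)]
  have w0 := wall_nonneg (w, (x, y), v)
  obtain ⟨-, hx, hy, -⟩ := bd_of_wall w1
  simp only at hx hy
  have hF : wall (w, (x, y), v) + chi (‖w‖ ^ 2) * (nu s (th w) * mu0 σ c (th w) x y *
      (qq A B v (kk (th w) x) + oo (‖w‖ ^ 2))) - 1 / 4 = 0 := h0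
  by_cases hz : chi (‖w‖ ^ 2) * (nu s (th w) * mu0 σ c (th w) x y *
      (qq A B v (kk (th w) x) + oo (‖w‖ ^ 2))) = 0
  · have := radial (a := (A, B, σ, c, s)) hA.1 hc (by rw [h0]; linarith)
    linarith
  have n1 : chi (‖w‖ ^ 2) ≠ 0 := left_ne_zero_of_mul hz
  have n2 := right_ne_zero_of_mul hz
  have n3 := left_ne_zero_of_mul n2
  have nQ := right_ne_zero_of_mul n2
  have nν := left_ne_zero_of_mul n3
  have nμ := right_ne_zero_of_mul n3
  have n4 : 1 / 16 < ‖w‖ ^ 2 := lt_of_st0 (by norm_num) n1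
  have hw : w ≠ 0 := fun h => by
    rw [h] at n4
    norm_num at n4
  have q0 := qq_nonneg hA.1 B v (kk (th w) x)
  have o0 : 0 ≤ oo (‖w‖ ^ 2) := mul_nonneg zero_le_two (sub_nonneg.2 (st_le _ _ _))
  have eR := dirR hc
  have c1 : chi (‖w‖ ^ 2) = 1 := by
    by_contra h1
    have h2 : ‖w‖ ^ 2 < 1 / 4 := lt_of_st1 (by norm_num) h1
    rw [dps_0 (by linarith), dst_0 (a := 1 / 4) (by norm_num) h2.le] at eR
    exact mul_ne_zero (mul_pos (dst_pos (by norm_num) n4 h2) (by linarith : 0 < 2 * ‖w‖ ^ 2)).ne' n2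
      (by linarith)
  have c2 : 1 / 4 ≤ ‖w‖ ^ 2 := by
    by_contra h1
    exact (Sm.st_lt_one (a := 1 / 16) (by norm_num) (not_le.1 h1)).ne c1
  have c3 : dst (1 / 4) (9 / 16) (‖w‖ ^ 2) = 0 := by
    by_contra h1
    have h2 := mem_of_dst (by norm_num) h1
    rw [dps_0 (by linarith), dst_1 (a := 1 / 16) (by norm_num) c2, c1] at eR
    exact mul_ne_zero n3 (mul_ne_zero h1 (by linarith : 2 * ‖w‖ ^ 2 ≠ 0)) (by linarith)
  have S : c = 0 → 3 ≤ th w → th w ≤ 7 →
      (-3 / 4 < x ∧ x < -1 / 4) ∨ (1 / 4 < x ∧ x < 3 / 4) := fun h1 h3 h7 => by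
    have h4 := win hσ hy h3 h7 nμ
    exact strip (by linarith [h4.1]) (by linarith [h4.2])
  have S1 : c = 0 → 3 ≤ th w → th w ≤ 7 → ch1 x = 0 ∨ ch1 x = 1 := fun h1 h3 h7 => by
    rcases S h1 h3 h7 with h4 | h4
    · exact Or.inr (ch1_1 h4.1.le h4.2.le)
    · exact Or.inl (ch1_0 (by linarith [h4.1]))
  rw [c1, one_mul] at hF
  by_cases h1 : nu s (th w) * mu0 σ c (th w) x y = 1
  · rw [h1, one_mul] at hF
    have o1 : oo (‖w‖ ^ 2) = 0 := by
      rcases st_01 (by norm_num) c3 with h2 | h2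
      · rw [oo, h2] at hF
        linarith
      · rw [oo, h2]
        ring
    have q1 : qq A B v (kk (th w) x) ≤ 1 / 4 := by linarith
    have k1 : ‖(B : ℂ) * kk (th w) x‖ ≤ 1 := by
      rw [norm_mul, Complex.norm_real, Real.norm_of_nonneg hB.1]
      exact mul_le_one₀ hB.2 (norm_nonneg _) (norm_kk_le _ _)
    have k2 : A = 0 ∨ (B = 1 ∧ ‖kk (th w) x‖ = 1) := by
      refine hq.imp_right fun h2 => ⟨h2, ?_⟩
      have h3 : c = 0 := low.resolve_right fun h4 => by linarith [h4.1]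
      rcases le_total (th w) 5 with h5 | h5
      · rw [Sm.kk_lo h5, norm_one]
      rcases le_total (th w) 7 with h7 | h7
      · rw [kk_shift (S1 h3 (by linarith) h7) 0, Sm.kk_lo (by norm_num), mul_one, norm_ec]
      · rw [Sm.kk_hi h7, norm_one]
    have q2 := qq_crit hA.1 k2 q1
      (dirV hc (by linarith [qq_bdd hA.1 k1 q1]) (mul_ne_zero n1 n3))
    exact nQ (by rw [q2, o1, add_zero])
  have pν : 0 < nu s (th w) := (st_ge _ _ _).lt_of_ne' nν
  have pQ : 0 < qq A B v (kk (th w) x) + oo (‖w‖ ^ 2) := (add_nonneg q0 o0).lt_of_ne' nQ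
  have eT := dirT hc hw (by
    rcases low with h2 | h2
    · right
      rcases lt_or_ge (th w) 5 with h5 | h5
      · have h6 : ∀ᶠ r in 𝓝 (0 : ℝ), th w + r < 5 :=
          (by fun_prop : ContinuousAt (fun r : ℝ => th w + r) 0).eventually_lt continuousAt_const
            (by simpa using h5)
        filter_upwards [h6] with r hr
        rw [Sm.kk_lo hr.le, Sm.kk_lo h5.le, eta, eta, st_0 (by norm_num) hr.le,
          st_0 (by norm_num) h5.le]
        simp [Sm.ec_zero]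
      rcases le_or_gt (th w) 7 with h7 | h7
      · exact Eventually.of_forall fun r => kk_shift (S1 h2 (by linarith) h7) _ _
      · have h6 : ∀ᶠ r in 𝓝 (0 : ℝ), 7 < th w + r :=
          continuousAt_const.eventually_lt (by fun_prop : ContinuousAt (fun r : ℝ => th w + r) 0)
            (by simpa using h7)
        filter_upwards [h6] with r hr
        rw [Sm.kk_hi hr.le, Sm.kk_hi h7.le, eta, eta, st_1 (by norm_num) hr.le,
          st_1 (by norm_num) h7.le]
        simp [Sm.ec_zero]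
    · exact Or.inl h2.1)
  have eX := dirX hc (by
    rcases low with h2 | h2
    · rcases le_total (th w) 5 with h5 | h5
      · exact Eventually.of_forall fun r => by rw [Sm.kk_lo h5, Sm.kk_lo h5]
      rcases le_total (th w) 7 with h7 | h7
      · have hcx : ContinuousAt (fun r : ℝ => x + r) 0 := by fun_prop
        rcases S h2 (by linarith) h7 with h4 | h4
        · filter_upwards [continuousAt_const.eventually_lt hcx (by simpa using h4.1),
            hcx.eventually_lt continuousAt_const (by simpa using h4.2)] with r h8 h9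
          rw [kk, kk, ch1_1 h4.1.le h4.2.le, ch1_1 h8.le h9.le]
        · filter_upwards [continuousAt_const.eventually_lt hcx (by simpa using h4.1)] with r h8
          rw [kk, kk, ch1_0 (by linarith [h4.1]), ch1_0 (by linarith)]
      · exact Eventually.of_forall fun r => by rw [Sm.kk_hi h7, Sm.kk_hi h7]
    · exact Eventually.of_forall fun r => by rw [h2.1]; exact qq_zero_right _ _ _ _)
  have eY := dirY hc
  rw [c1, one_mul] at eT eX eY
  have pD := mul_pos pν pQ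
  refine planar (α := 2 * dps (x ^ 2) / (nu s (th w) * (qq A B v (kk (th w) x) + oo (‖w‖ ^ 2))))
    (β := 2 * dps (y ^ 2) / (nu s (th w) * (qq A B v (kk (th w) x) + oo (‖w‖ ^ 2)))) hσ hc0
    (low.imp_right fun h2 => h2.2) cut (Sm.th_le w) hx hy nν nμ h1
    (div_nonneg (by linarith [dps_ge (x ^ 2)]) pD.le) (fun h2 => lt_of_dps fun h3 => h2 ?_)
    (div_nonneg (by linarith [dps_ge (y ^ 2)]) pD.le) (fun h2 => lt_of_dps fun h3 => h2 ?_)
    ((mul_eq_zero.1 eT).resolve_right nQ) ?_ ?_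
  · rw [h3, mul_zero, zero_div]
  · rw [h3, mul_zero, zero_div]
  · field_simp
    linarith
  · field_simp
    linarith

end Vale.Agent.P220Z.Hs
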