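import Vale.Agent.P220Z.Hs.M1
import Vale.Agent.P220Z.Hs.Fac
import Vale.Agent.P220Z.Hs.EvA

/-!
# P220, deformation to the model: the closed part of the handle and the projection
-/

open Set

namespace Vale.Agent.P220Z.Hs.Wb

open Vale.Agent.P220Z.Def

/-- the angle between `c ^ 5` and the position of the torus -/
noncomputable def al (u : U1) : ℝ :=
  Complex.arg (u.2.2 ^ 5 * (starRingEnd ℂ) (kk (th u.1) u.2.1.1))

/-- the projection: `a` turns `c`, `b` scales `w` and `c` -/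
noncomputable def piU (a b : ℝ) (u : U1) : U1 :=
  ((1 - b + b * ‖u.1‖⁻¹ : ℝ) * u.1, u.2.1,
    (1 - b + b * ‖u.2.2‖⁻¹ : ℝ) * u.2.2 * ec (-(a * al u / (10 * Real.pi))))

/-- the closed part of the handle -/
def CC : Set U1 :=
  {u | F1 u ≤ 0 ∧ 1 / 2 ≤ ‖u.1‖ ∧ 1 / 2 ≤ mu0 0 0 (th u.1) u.2.1.1 u.2.1.2}

theorem piU_zero (u : U1) : piU 0 0 u = u := by
  simp [piU, Fc.ec_zero]

theorem piU_one (u : U1) :
    piU 1 1 u = ((‖u.1‖⁻¹ : ℝ) * u.1, u.2.1, rt u.2.2 (kk (th u.1) u.2.1.1)) := by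
  simp [piU, rt, al]

theorem chi_one {r : ℝ} (h : 1 / 2 ≤ r) : chi (r ^ 2) = 1 :=
  Sm.st_one (by norm_num) (by nlinarith)

theorem oo_zero {r : ℝ} (h : 1 ≤ r) : oo (r ^ 2) = 0 := by
  rw [oo, Sm.st_one (by norm_num) (by nlinarith), sub_self, mul_zero]

theorem oo_anti {s t : ℝ} (h : s ≤ t) : oo t ≤ oo s := by
  have := Sm.st_mono (a := 1 / 4) (b := 9 / 16) (by norm_num) h
  rw [oo, oo]
  linarith

theorem ps_mono {s t : ℝ} (h : s ≤ t) : ps s ≤ ps t := by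
  rcases le_total s 64 with h1 | h1
  · rw [Sm.ps_zero h1]
    exact Sm.ps_nonneg t
  · exact mul_le_mul (by linarith) (Sm.st_mono (by norm_num) h) (Sm.st_nonneg _ _ _) (by linarith)

theorem abs_le_nine {u : U1} (h : F1 u ≤ 0) : |u.2.1.1| ≤ 9 ∧ |u.2.1.2| ≤ 9 := by
  have h1 := M1.norm_lt h
  simp only [Prod.norm_def, max_lt_iff, Real.norm_eq_abs] at h1
  exact ⟨h1.2.1.1.le, h1.2.1.2.le⟩

theorem small {u : U1} (h : u ∈ CC) :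
    5 * (‖u.2.2‖ ^ 2 - 1) ^ 2 + ‖u.2.2 ^ 5 - kk (th u.1) u.2.1.1‖ ^ 2 + oo (‖u.1‖ ^ 2) ≤ 1 / 2 := by
  obtain ⟨h1, h2, h3⟩ := h
  rw [F1, chi_one h2, one_mul] at h1
  have h4 := Sm.ps_nonneg (‖u.1‖ ^ 2)
  have h5 := Sm.ps_nonneg (u.2.1.1 ^ 2)
  have h6 := Sm.ps_nonneg (u.2.1.2 ^ 2)
  have h7 := Sm.ps_nonneg (5 * ‖u.2.2‖ ^ 2)
  have h8 := Sm.oo_nonneg (‖u.1‖ ^ 2)
  by_contra h9
  nlinarith [not_le.1 h9]

theorem half_lt {u : U1} (h : u ∈ CC) : 1 / 2 < ‖u.1‖ := by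
  refine lt_of_le_of_ne h.2.1 fun h1 => ?_
  have h2 := small h
  rw [← h1, oo, Sm.st_zero (by norm_num) (by norm_num)] at h2
  nlinarith [sq_nonneg (‖u.2.2‖ ^ 2 - 1), sq_nonneg ‖u.2.2 ^ 5 - kk (th u.1) u.2.1.1‖]

theorem w_ne {u : U1} (h : u ∈ CC) : u.1 ≠ 0 := norm_pos_iff.1 (by linarith [h.2.1])

theorem c_sq {u : U1} (h : u ∈ CC) : 1 / 2 ≤ ‖u.2.2‖ ^ 2 ∧ ‖u.2.2‖ ^ 2 ≤ 2 := by
  have h1 := small h
  have h2 := Sm.oo_nonneg (‖u.1‖ ^ 2)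
  have h3 := sq_nonneg ‖u.2.2 ^ 5 - kk (th u.1) u.2.1.1‖
  constructor <;> nlinarith

theorem c_ne {u : U1} (h : u ∈ CC) : u.2.2 ≠ 0 := fun h1 => by
  have h2 := (c_sq h).1
  rw [h1, norm_zero] at h2
  norm_num at h2

theorem norm_kk {t x y : ℝ} (hy : |y| ≤ 9) (h : mu0 0 0 t x y ≠ 0) : ‖kk t x‖ = 1 := by
  rcases le_total t 5 with h1 | h1
  · rw [Sm.kk_lo h1, norm_one]
  rcases le_total 7 t with h2 | h2
  · rw [Sm.kk_hi h2, norm_one]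
  rw [Fc.mu0_eq t (x, y)] at h
  have h3 := right_ne_zero_of_mul (left_ne_zero_of_mul h)
  rw [Fc.f2, Sm.st_one (by norm_num) (by linarith), Sm.st_zero (by norm_num) (by linarith),
    Fc.aA_one h2] at h3
  have h4 : |y + tent x| < 2 := Fc.lt_of_bp fun h5 => h3 (by simp [h5])
  have h5 := abs_lt.1 h4
  have h6 := abs_le.1 hy
  have h7 := Fc.strip (x := x) (abs_lt.2 ⟨by linarith, by linarith⟩)
  rcases Fc.ch1_cases (x := x) (by linarith) (by linarith) with h8 | h8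
  · simp [kk, h8]
  · simp [kk, h8, Fc.norm_ec]

theorem norm_k {u : U1} (h : u ∈ CC) : ‖kk (th u.1) u.2.1.1‖ = 1 :=
  norm_kk (abs_le_nine h.1).2 (by linarith [h.2.2])

theorem norm_sub_k {k : ℂ} (hk : ‖k‖ = 1) (z : ℂ) : ‖z - k‖ = ‖z * (starRingEnd ℂ) k - 1‖ := by
  have h : k * (starRingEnd ℂ) k = 1 := by
    rw [Complex.mul_conj, Complex.normSq_eq_norm_sq, hk]
    simp
  rw [← h, ← sub_mul, norm_mul, Complex.norm_conj, hk, mul_one]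

theorem slit {u : U1} (h : u ∈ CC) :
    u.2.2 ^ 5 * (starRingEnd ℂ) (kk (th u.1) u.2.1.1) ∈ Complex.slitPlane := by
  have h1 := small h
  have h2 := Sm.oo_nonneg (‖u.1‖ ^ 2)
  rw [norm_sub_k (norm_k h)] at h1
  have h3 := Complex.mem_slitPlane_of_norm_lt_one
    (z := u.2.2 ^ 5 * (starRingEnd ℂ) (kk (th u.1) u.2.1.1) - 1)
    (by nlinarith [sq_nonneg (‖u.2.2‖ ^ 2 - 1)])
  rwa [add_sub_cancel] at h3

theorem sc_pos {b r : ℝ} (hb : b ∈ Icc (0 : ℝ) 1) (hr : 0 < r) : 0 < 1 - b + b * r⁻¹ := by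
  rcases hb.2.eq_or_lt with h | h
  · rw [h]
    simpa using hr
  · have := mul_nonneg hb.1 (inv_pos.2 hr).le
    linarith

theorem norm_sc {b : ℝ} (hb : b ∈ Icc (0 : ℝ) 1) {z : ℂ} (hz : z ≠ 0) :
    ‖((1 - b + b * ‖z‖⁻¹ : ℝ) : ℂ) * z‖ = (1 - b) * ‖z‖ + b := by
  have h := norm_pos_iff.2 hz
  rw [norm_mul, Complex.norm_real, Real.norm_of_nonneg (sc_pos hb h).le]
  field_simp

theorem th_sc {r : ℝ} (hr : 0 < r) (w : ℂ) : th (r * w) = th w := by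
  rw [th, th, Complex.arg_real_mul _ hr]

theorem th_piU (a : ℝ) {b : ℝ} (hb : b ∈ Icc (0 : ℝ) 1) {u : U1} (h : u.1 ≠ 0) :
    th (piU a b u).1 = th u.1 := th_sc (sc_pos hb (norm_pos_iff.2 h)) _

theorem half_le_piU (a : ℝ) {b : ℝ} (hb : b ∈ Icc (0 : ℝ) 1) {u : U1} (h : u ∈ CC) :
    1 / 2 ≤ ‖(piU a b u).1‖ := by
  have h1 : ‖(piU a b u).1‖ = _ := norm_sc hb (w_ne h)
  rw [h1]
  nlinarith [h.2.1, hb.1, hb.2]

theorem m1_far (K : ℕ) (t : ℝ) {u : U1} (h : 1 / 2 ≤ ‖u.1‖) :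
    m1 K t u = (ec (tm K t / 20) * u.1, evb (th u.1) (tm K t) (K + 2) u.2.1,
      evm (th u.1) (tm K t) (K + 2) u.2.1 * u.2.2) := by
  have h1 : k1 u.1 = 1 := Ev.cl_one (by linarith)
  have h2 : k2 u.1 = 1 := Ev.cl_one (by linarith)
  simp [m1, h1, h2]

theorem F1_rot (j : ZMod 5) (u : U1) : F1 (Tb.rot1 j u) = F1 u := by
  simp [F1, mul_pow, Sm.om_pow5, Circle.norm_coe]

end Vale.Agent.P220Z.Hs.Wb
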