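import Vale.Agent.P220Z.Hs.WbA

/-!
# P220, deformation to the model: the projection preserves the domain and is continuous
-/

open Set

namespace Vale.Agent.P220Z.Hs.Wb

open Vale.Agent.P220Z.Def

theorem nsq_polar (R β : ℝ) :
    ‖(R : ℂ) * Complex.exp (β * Complex.I) - 1‖ ^ 2 = R ^ 2 - 2 * R * Real.cos β + 1 := by
  rw [← Complex.normSq_eq_norm_sq, Complex.normSq_apply]
  simp only [Complex.sub_re, Complex.sub_im, Complex.re_ofReal_mul, Complex.im_ofReal_mul,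
    Complex.exp_ofReal_mul_I_re, Complex.exp_ofReal_mul_I_im, Complex.one_re, Complex.one_im]
  nlinarith [Real.sin_sq_add_cos_sq β]

theorem pow_sc {b r : ℝ} (hb : b ∈ Icc (0 : ℝ) 1) (hr : 0 ≤ r) (n : ℕ) :
    (((1 - b) * r + b) ^ n - 1) ^ 2 ≤ (r ^ n - 1) ^ 2 := by
  obtain ⟨h0, h1⟩ := hb
  rcases le_total r 1 with h | h
  · have h2 : r ^ n ≤ ((1 - b) * r + b) ^ n := pow_le_pow_left₀ hr (by nlinarith) n
    have h3 : ((1 - b) * r + b) ^ n ≤ 1 := pow_le_one₀ (by nlinarith) (by nlinarith)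
    nlinarith
  · have h2 : ((1 - b) * r + b) ^ n ≤ r ^ n := pow_le_pow_left₀ (by nlinarith) (by nlinarith) n
    have h3 : 1 ≤ ((1 - b) * r + b) ^ n := one_le_pow₀ (by nlinarith)
    nlinarith

theorem norm_piU (a : ℝ) {b : ℝ} (hb : b ∈ Icc (0 : ℝ) 1) {u : U1} (h : u.2.2 ≠ 0) :
    ‖(piU a b u).2.2‖ = (1 - b) * ‖u.2.2‖ + b := by
  rw [piU, norm_mul, Fc.norm_ec, mul_one, norm_sc hb h]

theorem polar (a b : ℝ) {u : U1} (h : u ∈ CC) :
    (piU a b u).2.2 ^ 5 * (starRingEnd ℂ) (kk (th u.1) u.2.1.1) =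
      ((((1 - b) * ‖u.2.2‖ + b) ^ 5 : ℝ) : ℂ) *
        Complex.exp (((1 - a) * al u : ℝ) * Complex.I) := by
  have h1 := Complex.norm_mul_exp_arg_mul_I (u.2.2 ^ 5 * (starRingEnd ℂ) (kk (th u.1) u.2.1.1))
  rw [norm_mul, Complex.norm_conj, norm_k h, mul_one, norm_pow] at h1
  have h2 : ec (-(a * al u / (10 * Real.pi))) ^ 5 =
      Complex.exp ((-(a * al u) : ℝ) * Complex.I) := by
    rw [ec, ← Complex.exp_nat_mul]
    congr 1
    have : (Real.pi : ℂ) ≠ 0 := Complex.ofReal_ne_zero.2 Real.pi_pos.ne'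
    push_cast
    field_simp
    ring
  have h3 : (1 - b) * ‖u.2.2‖ + b = (1 - b + b * ‖u.2.2‖⁻¹) * ‖u.2.2‖ := by
    have := norm_ne_zero_iff.2 (c_ne h)
    field_simp
  have h4 : Complex.exp (((1 - a) * al u : ℝ) * Complex.I) =
      Complex.exp (al u * Complex.I) * Complex.exp ((-(a * al u) : ℝ) * Complex.I) := by
    rw [← Complex.exp_add]
    congr 1
    push_cast
    ring
  rw [h3, h4, ← h2, piU]
  simp only [mul_pow, Complex.ofReal_mul, Complex.ofReal_pow] at h1 ⊢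
  rw [al]
  linear_combination (-(((1 - b + b * ‖u.2.2‖⁻¹ : ℝ) : ℂ) ^ 5 *
    ec (-(a * Complex.arg (u.2.2 ^ 5 * (starRingEnd ℂ) (kk (th u.1) u.2.1.1)) /
      (10 * Real.pi))) ^ 5)) * h1

theorem dist_le {a b : ℝ} (ha : a ∈ Icc (0 : ℝ) 1) (hb : b ∈ Icc (0 : ℝ) 1) (hab : b = 0 ∨ a = 1)
    {u : U1} (h : u ∈ CC) : ‖(piU a b u).2.2 ^ 5 - kk (th u.1) u.2.1.1‖ ^ 2 ≤
      ‖u.2.2 ^ 5 - kk (th u.1) u.2.1.1‖ ^ 2 := by
  have h1 := polar 0 0 h
  rw [piU_zero] at h1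
  rw [norm_sub_k (norm_k h), norm_sub_k (norm_k h), polar a b h, h1, nsq_polar, nsq_polar]
  simp only [sub_zero, one_mul, add_zero]
  have h2 : 0 ≤ ‖u.2.2‖ ^ 5 := by positivity
  rcases hab with rfl | rfl
  · have h3 : Real.cos (al u) ≤ Real.cos ((1 - a) * al u) := by
      rw [← Real.cos_abs, ← Real.cos_abs ((1 - a) * al u)]
      refine Real.cos_le_cos_of_nonneg_of_le_pi (abs_nonneg _) (Complex.abs_arg_le_pi _) ?_
      rw [abs_mul, abs_of_nonneg (sub_nonneg.2 ha.2)]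
      nlinarith [abs_nonneg (al u), ha.1]
    simp only [sub_zero, one_mul, add_zero]
    nlinarith
  · have h3 := pow_sc hb (norm_nonneg u.2.2) 5
    have h4 := Real.cos_le_one (al u)
    simp only [sub_self, zero_mul, Real.cos_zero]
    nlinarith

theorem pi_le {a b : ℝ} (ha : a ∈ Icc (0 : ℝ) 1) (hb : b ∈ Icc (0 : ℝ) 1) (hab : b = 0 ∨ a = 1)
    {u : U1} (h : u ∈ CC) : F1 (piU a b u) ≤ 0 := by
  refine le_trans ?_ h.1
  have e1 : ‖(piU a b u).1‖ = _ := norm_sc hb (w_ne h)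
  have e2 : (piU a b u).2.1 = u.2.1 := rfl
  have h0 := norm_nonneg u.1
  have h1 : ps (‖(piU a b u).1‖ ^ 2) ≤ ps (‖u.1‖ ^ 2) ∧
      oo (‖(piU a b u).1‖ ^ 2) ≤ oo (‖u.1‖ ^ 2) := by
    rw [e1]
    obtain ⟨b0, b1⟩ := hb
    rcases le_total ‖u.1‖ 1 with h1 | h1
    · refine ⟨(Sm.ps_zero ((pow_le_one₀ (by nlinarith) (by nlinarith)).trans
        (by norm_num))).trans_le (Sm.ps_nonneg _), oo_anti ?_⟩
      exact pow_le_pow_left₀ h0 (by nlinarith) 2
    · refine ⟨ps_mono (pow_le_pow_left₀ (by nlinarith) (by nlinarith) 2), ?_⟩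
      rw [oo_zero h1, oo_zero (by nlinarith)]
  have h2 := pow_sc hb (norm_nonneg u.2.2) 2
  rw [← norm_piU a hb (c_ne h)] at h2
  have h3 : ps (5 * ‖(piU a b u).2.2‖ ^ 2) = 0 := by
    have := c_sq h
    exact Sm.ps_zero (by nlinarith)
  have h4 := Sm.ps_nonneg (5 * ‖u.2.2‖ ^ 2)
  have h5 := dist_le ha hb hab h
  rw [F1, F1, chi_one h.2.1, chi_one (half_le_piU a hb h), th_piU a hb (w_ne h), e2, h3]
  have h6 := mul_le_mul_of_nonneg_left (add_le_add (add_le_add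
    (mul_le_mul_of_nonneg_left h2 (by norm_num : (0 : ℝ) ≤ 5)) h5) h1.2)
    (Fc.mu0_nonneg (th u.1) u.2.1)
  linarith [h1.1]

theorem mu_cont {u : U1} (h : u.1 ≠ 0) :
    ContinuousAt (fun u : U1 => mu0 0 0 (th u.1) u.2.1.1 u.2.1.2) u :=
  Ev.cont_slit (G := fun y : ℝ × U1 => mu0 0 0 y.1 y.2.2.1.1 y.2.2.1.2)
    (Sm.mu0_smooth.continuous.comp
      (f := fun y : ℝ × U1 => (((0 : ℝ), (0 : ℝ)), y.1, y.2.2.1.1, y.2.2.1.2)) (by fun_prop))
    (fun e => (Sm.mu0_lo zero_le_one _ _ _ _).trans (Sm.mu0_hi (by norm_num) _ _ _ _).symm)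
    continuous_fst h

theorem kk_cont {u : U1} (h : u.1 ≠ 0) : ContinuousAt (fun u : U1 => kk (th u.1) u.2.1.1) u :=
  Ev.cont_slit (G := fun y : ℝ × U1 => kk y.1 y.2.2.1.1)
    (Sm.kk_smooth.continuous.comp (f := fun y : ℝ × U1 => (y.1, y.2.2.1.1)) (by fun_prop))
    (fun e => (Sm.kk_lo (by norm_num) _).trans (Sm.kk_hi (by norm_num) _).symm)
    continuous_fst h

theorem al_cont {u : U1} (h : u ∈ CC) : ContinuousAt al u := by
  have h1 : ContinuousAt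
      (fun u : U1 => u.2.2 ^ 5 * (starRingEnd ℂ) (kk (th u.1) u.2.1.1)) u :=
    ContinuousAt.mul (by fun_prop) (Complex.continuous_conj.continuousAt.comp (kk_cont (w_ne h)))
  exact ContinuousAt.comp (g := Complex.arg) (Complex.continuousAt_arg (slit h)) h1

theorem piU_cont {X : Type} [TopologicalSpace X] {a b : X → ℝ} {u : X → U1} (ha : Continuous a)
    (hb : Continuous b) (hu : Continuous u) {x : X} (h : u x ∈ CC) :
    ContinuousAt (fun x => piU (a x) (b x) (u x)) x := by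
  have h1 : ContinuousAt (fun x => ‖(u x).1‖⁻¹) x :=
    ContinuousAt.inv₀ (by fun_prop) (norm_ne_zero_iff.2 (w_ne h))
  have h2 : ContinuousAt (fun x => ‖(u x).2.2‖⁻¹) x :=
    ContinuousAt.inv₀ (by fun_prop) (norm_ne_zero_iff.2 (c_ne h))
  have h3 : ContinuousAt (fun x => al (u x)) x :=
    ContinuousAt.comp (g := al) (al_cont h) hu.continuousAt
  unfold piU
  fun_prop

theorem CC_cpt : IsCompact CC := by
  have h1 : IsCompact ({u : U1 | F1 u ≤ 0} ∩ {u | 1 / 2 ≤ ‖u.1‖}) :=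
    M1.F1_cpt.inter_right (isClosed_le continuous_const (by fun_prop))
  have h2 := ContinuousOn.preimage_isClosed_of_isClosed
    (f := fun u : U1 => mu0 0 0 (th u.1) u.2.1.1 u.2.1.2)
    (fun u hu => (mu_cont (norm_pos_iff.1
      (lt_of_lt_of_le (by norm_num) hu.2))).continuousWithinAt) h1.isClosed
    (isClosed_Ici (a := (1 / 2 : ℝ)))
  refine (h1.of_isClosed_subset h2 inter_subset_left).of_isClosed_subset ?_ fun u hu =>
    ⟨⟨hu.1, hu.2.1⟩, hu.2.2⟩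
  convert h2 using 1
  ext u
  simp [CC, and_assoc]

theorem domA_open : IsOpen domA := by
  refine isOpen_iff_mem_nhds.2 fun y hy => ?_
  obtain ⟨⟨h1, h2, h3⟩, h4, h5⟩ := hy
  have h6 : y.2.1 ≠ 0 := norm_pos_iff.1 (by linarith)
  filter_upwards [continuous_fst.continuousAt.eventually (isOpen_Ioo.mem_nhds h1),
    (M1.F1_cont.comp continuous_snd).continuousAt.eventually_lt continuousAt_const h2,
    ContinuousAt.eventually_ne (g := fun y : ℝ × U1 => y.2.2.2) (by fun_prop) h3,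
    continuousAt_const.eventually_lt (g := fun y : ℝ × U1 => ‖y.2.1‖) (by fun_prop) h4,
    continuousAt_const.eventually_lt ((mu_cont h6).comp continuous_snd.continuousAt) h5]
    with z a b c d e using ⟨⟨a, b, c⟩, d, e⟩

theorem mem_CC {y : ℝ × U1} (h : y ∈ domA) : y.2 ∈ CC := ⟨h.1.2.1.le, h.2.1.le, h.2.2.le⟩

theorem piU_rot (j : ZMod 5) (a b : ℝ) (u : U1) :
    piU a b (Tb.rot1 j u) = Tb.rot1 j (piU a b u) := by
  simp only [piU, al, Tb.rot1_apply, mul_pow, Sm.om_pow5, one_mul, norm_mul, Circle.norm_coe]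
  refine Prod.ext rfl (Prod.ext rfl ?_)
  ring

theorem m1_rot (j : ZMod 5) (K : ℕ) (t : ℝ) (u : U1) :
    m1 K t (Tb.rot1 j u) = Tb.rot1 j (m1 K t u) := by
  refine Prod.ext rfl (Prod.ext rfl ?_)
  simp only [m1, Tb.rot1_apply, Prod.snd_add, Prod.smul_snd, Complex.real_smul]
  ring

end Vale.Agent.P220Z.Hs.Wb
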