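import Vale.Agent.P220Z.Hs.WbB
import Vale.Agent.P220Z.Rig.Ful

/-!
# P220, deformation to the model: the homotopy
-/

open Set Topology
open scoped unitInterval

namespace Vale.Agent.P220Z.Hs.Wb

open Vale.Agent.P220Z.Def

/-- the exact solutions on the closed handle -/
def StZ : Prop :=
  ∀ (K : ℕ) (j : ZMod 5), j ≠ 0 → ∀ a b τ : ℝ, a ∈ Icc (0 : ℝ) 1 → b ∈ Icc (0 : ℝ) 1 →
    ∀ u ∈ CC, u = Tb.rot1 (-j) (m1 K ((20 * K + 3) * τ - 1) (piU a b u)) →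
      τ ∈ Ioo (0 : ℝ) 1 ∧ mu0 0 0 (th u.1) u.2.1.1 u.2.1.2 = 1 ∧ (a = 1 → b = 1 → F1 u < 0)

/-- the image of the projected point -/
noncomputable def MM (K : ℕ) (y : (I × ℝ) × U1) : U1 :=
  m1 K ((20 * K + 3) * y.1.2 - 1) (piU (cl (3 * y.1.1)) (cl (3 * y.1.1 - 1)) y.2)

/-- the homotopy -/
noncomputable def HH (K : ℕ) (Y : U1 → U1) (j : ZMod 5) (t δ : ℝ) (y : (I × ℝ) × U1) : U1 :=
  y.2 - Tb.rot1 (-j) (MM K y - (cl (3 - 3 * y.1.1) * t) • Y (MM K y)) +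
    (cl (3 - 3 * y.1.1) * δ / ‖y.2.2.2‖) • Tb.prp y.2

/-- its domain -/
def OO : Set ((I × ℝ) × U1) := {y | (y.1.2, y.2) ∈ domA}

/-- a compact set that contains the domain -/
def DD : Set ((I × ℝ) × U1) := (univ ×ˢ Icc (0 : ℝ) 1) ×ˢ CC

theorem DD_cpt : IsCompact DD := (isCompact_univ.prod isCompact_Icc).prod CC_cpt

theorem cl_mem (x : ℝ) : cl x ∈ Icc (0 : ℝ) 1 := ⟨Ev.cl_nonneg x, Ev.cl_le_one x⟩

theorem HH_zero (K : ℕ) (Y : U1 → U1) (j : ZMod 5) (t δ : ℝ) :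
    (fun y => HH K Y j t δ (atL 0 y)) = sm1 K Y j t δ := by
  funext y
  have h1 : cl 0 = 0 := Ev.cl_zero le_rfl
  have h2 : cl (-1) = 0 := Ev.cl_zero (by norm_num)
  have h3 : cl 3 = 1 := Ev.cl_one (by norm_num)
  simp [HH, MM, atL, sm1, h1, h2, h3, piU_zero]

theorem HH_one (K : ℕ) (Y : U1 → U1) (j : ZMod 5) (t δ : ℝ) :
    (fun y => HH K Y j t δ (atL 1 y)) = smB K j := by
  funext y
  have h1 : cl 0 = 0 := Ev.cl_zero le_rfl
  have h2 : cl (3 - 1) = 1 := Ev.cl_one (by norm_num)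
  have h3 : cl 3 = 1 := Ev.cl_one (by norm_num)
  simp [HH, MM, atL, smB, h1, h2, h3, piU_one]

theorem MM_cont (hM : StM1) (K : ℕ) {y : (I × ℝ) × U1} (h : y.2 ∈ CC) :
    ContinuousAt (MM K) y := by
  have h1 := piU_cont (a := fun y : (I × ℝ) × U1 => cl (3 * y.1.1))
    (b := fun y : (I × ℝ) × U1 => cl (3 * y.1.1 - 1)) (u := fun y => y.2) (by fun_prop)
    (by fun_prop) continuous_snd h
  have h2 : ContinuousAt (fun y : (I × ℝ) × U1 => (20 * K + 3) * y.1.2 - 1) y := by fun_prop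
  exact ContinuousAt.comp (g := fun y : ℝ × U1 => m1 K y.1 y.2)
    (f := fun y : (I × ℝ) × U1 => (((20 * K + 3) * y.1.2 - 1 : ℝ),
      piU (cl (3 * y.1.1)) (cl (3 * y.1.1 - 1)) y.2)) (hM K).1.continuousAt (h2.prodMk h1)

theorem HH_cont (hM : StM1) (K : ℕ) {Y : U1 → U1} (hY : Continuous Y) (j : ZMod 5) (t δ : ℝ)
    {y : (I × ℝ) × U1} (h : y.2 ∈ CC) : ContinuousAt (HH K Y j t δ) y := by
  have h1 := MM_cont hM K h
  have h2 : ContinuousAt (fun y : (I × ℝ) × U1 => cl (3 - 3 * y.1.1) * δ / ‖y.2.2.2‖) y :=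
    ContinuousAt.div (by fun_prop) (by fun_prop) (norm_ne_zero_iff.2 (c_ne h))
  have h3 : ContinuousAt (fun y : (I × ℝ) × U1 => Tb.prp y.2) y := by
    unfold Tb.prp
    fun_prop
  have h4 : ContinuousAt (fun y : (I × ℝ) × U1 => cl (3 - 3 * y.1.1) * t) y := by fun_prop
  exact (continuousAt_snd.sub ((Tb.rot1 (-j)).continuous.continuousAt.comp
    (h1.sub (h4.smul (hY.continuousAt.comp h1))))).add (h2.smul h3)

theorem MM_le (hM : StM1) (K : ℕ) {y : (I × ℝ) × U1} (h : y.2 ∈ CC) : F1 (MM K y) ≤ 0 := by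
  refine (hM K).2.1 _ _ (pi_le (cl_mem _) (cl_mem _) ?_ h)
  rcases le_total (3 * (y.1.1 : ℝ)) 1 with h1 | h1
  · exact Or.inl (Ev.cl_zero (by linarith))
  · exact Or.inr (Ev.cl_one h1)

theorem near (hM : StM1) (hZ : StZ) (K : ℕ) {j : ZMod 5} (hj : j ≠ 0) :
    ∃ d > (0 : ℝ), ∀ y ∈ DD, ‖y.2 - Tb.rot1 (-j) (MM K y)‖ ≤ d → y.1.2 ∈ Ioo (0 : ℝ) 1 ∧
      1 / 2 < mu0 0 0 (th y.2.1) y.2.2.1.1 y.2.2.1.2 ∧ (F1 y.2 < 0 ∨ 3 * (y.1.1 : ℝ) < 2) := by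
  refine Rig.small_d DD DD_cpt (fun y => y.2 - Tb.rot1 (-j) (MM K y)) (fun y hy =>
    (continuousAt_snd.sub ((Tb.rot1 (-j)).continuous.continuousAt.comp
      (MM_cont hM K hy.2))).continuousWithinAt) _ fun y hy h => mem_nhdsWithin_of_mem_nhds ?_
  obtain ⟨h1, h2, h3⟩ := hZ K j hj _ _ _ (cl_mem _) (cl_mem _) _ hy.2 (sub_eq_zero.1 h)
  have e1 : ∀ᶠ z : (I × ℝ) × U1 in 𝓝 y, z.1.2 ∈ Ioo (0 : ℝ) 1 :=
    ContinuousAt.preimage_mem_nhds (f := fun z : (I × ℝ) × U1 => z.1.2) (by fun_prop)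
      (isOpen_Ioo.mem_nhds h1)
  have e2 : ∀ᶠ z : (I × ℝ) × U1 in 𝓝 y, 1 / 2 < mu0 0 0 (th z.2.1) z.2.2.1.1 z.2.2.1.2 :=
    continuousAt_const.eventually_lt ((mu_cont (w_ne hy.2)).comp continuous_snd.continuousAt)
      (by simp only [h2]; norm_num)
  have e3 : ∀ᶠ z : (I × ℝ) × U1 in 𝓝 y, F1 z.2 < 0 ∨ 3 * (z.1.1 : ℝ) < 2 := by
    rcases lt_or_ge (3 * (y.1.1 : ℝ)) 2 with h4 | h4
    · exact (ContinuousAt.eventually_lt (f := fun z : (I × ℝ) × U1 => 3 * (z.1.1 : ℝ))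
        (by fun_prop) continuousAt_const h4).mono fun z hz => Or.inr hz
    · exact ((M1.F1_cont.comp continuous_snd).continuousAt.eventually_lt continuousAt_const
        (h3 (Ev.cl_one (by linarith)) (Ev.cl_one (by linarith)))).mono fun z hz => Or.inl hz
  exact e1.and (e2.and e3)

theorem norm_rot (j : ZMod 5) (z : U1) : ‖Tb.rot1 j z‖ = ‖z‖ := by
  simp [Prod.norm_def, Circle.norm_coe]

theorem norm_prp {z : U1} (h : z.2.2 ≠ 0) {d : ℝ} (hd : 0 ≤ d) :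
    ‖(d / ‖z.2.2‖) • Tb.prp z‖ = d := by
  have h1 : ‖Tb.prp z‖ = ‖z.2.2‖ := by simp [Tb.prp, Prod.norm_def]
  rw [norm_smul, h1, Real.norm_of_nonneg (by positivity),
    div_mul_cancel₀ _ (norm_ne_zero_iff.2 h)]

theorem rot_ord : Tb.rot1 1 ^ 5 = 1 := by
  refine ContinuousLinearMap.ext fun z => ?_
  have h := Sm.om_pow5 1
  simp only [pow_succ, pow_zero, one_mul, mul_apply_eq_comp, Tb.rot1_apply,
    one_apply_eq_self] at h ⊢
  refine Prod.ext rfl (Prod.ext rfl ?_)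
  simp only [← mul_assoc, h, one_mul]

theorem rot_free {z : U1} (h : z.2.2 ≠ 0) : Tb.rot1 1 z ≠ z := fun h1 => by
  have h2 : ((om 1 : Circle) : ℂ) * z.2.2 = 1 * z.2.2 := by
    rw [one_mul]
    exact congrArg (fun z : U1 => z.2.2) h1
  have h3 : ZMod.toCircle (1 : ZMod 5) = ZMod.toCircle (0 : ZMod 5) := by
    rw [AddChar.map_zero_eq_one]
    exact Circle.ext (mul_right_cancel₀ h h2)
  exact absurd (ZMod.injective_toCircle h3) (by decide)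

theorem rot_comm (i j : ZMod 5) (z : U1) : Tb.rot1 i (Tb.rot1 j z) = Tb.rot1 j (Tb.rot1 i z) := by
  simp only [Tb.rot1_apply, mul_left_comm]

theorem HH_rot (K : ℕ) {Y : U1 → U1} (hY : ∀ u, Y (Tb.rot1 1 u) = Tb.rot1 1 (Y u)) (j : ZMod 5)
    (t δ : ℝ) (p : I × ℝ) (z : U1) :
    HH K Y j t δ (p, Tb.rot1 1 z) = Tb.rot1 1 (HH K Y j t δ (p, z)) := by
  have h1 : MM K (p, Tb.rot1 1 z) = Tb.rot1 1 (MM K (p, z)) := by
    simp only [MM, piU_rot, m1_rot]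
  have h2 : Tb.prp (Tb.rot1 1 z) = Tb.rot1 1 (Tb.prp z) := rfl
  have h3 : ‖(Tb.rot1 1 z).2.2‖ = ‖z.2.2‖ := by simp [Circle.norm_coe]
  simp only [HH, h1, h2, h3, hY, map_add, map_sub, map_smul, rot_comm (-j) 1]

theorem domA_rot {τ : ℝ} {z : U1} (h : (τ, z) ∈ domA) : (τ, Tb.rot1 1 z) ∈ domA := by
  refine ⟨⟨h.1.1, (F1_rot 1 z).trans_lt h.1.2.1, ?_⟩, ?_⟩
  · rw [Tb.rot1_apply]
    exact mul_ne_zero (Circle.coe_ne_zero _) h.1.2.2
  · rw [Tb.rot1_apply]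
    exact h.2

theorem zero_mem (hM : StM1) (hZ : StZ) (K : ℕ) {Y : U1 → U1} (hY : IsPush Y) {j : ZMod 5}
    (hj : j ≠ 0) : ∃ t₁ > 0, ∀ t ∈ Ioo (0 : ℝ) t₁, ∃ d₁ > 0, ∀ δ ∈ Ioo (0 : ℝ) d₁,
      ∀ y ∈ DD, HH K Y j t δ y = 0 → y ∈ OO := by
  obtain ⟨d, hd, hn⟩ := near hM hZ K hj
  obtain ⟨t₀, ht₀, hp⟩ := hY.push
  obtain ⟨C, hC⟩ := M1.F1_cpt.exists_bound_of_continuousOn hY.cont.continuousOn
  have hC0 : 0 < |C| + 1 := by positivity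
  refine ⟨min t₀ (d / 2 / (|C| + 1)), lt_min ht₀ (by positivity), fun t ht => ?_⟩
  obtain ⟨e, he, hp⟩ := hp t ⟨ht.1, ht.2.trans_le (min_le_left _ _)⟩
  have h1 : IsCompact {u | F1 u ≤ -e} :=
    M1.F1_cpt.of_isClosed_subset (isClosed_le M1.F1_cont continuous_const)
      fun u hu => le_trans hu (neg_nonpos.2 he.le)
  obtain ⟨d₁, hd₁, hth⟩ := h1.exists_cthickening_subset_open
    (isOpen_lt M1.F1_cont (continuous_const (y := (0 : ℝ))))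
    fun u hu => lt_of_le_of_lt hu (neg_neg_of_pos he)
  refine ⟨min d₁ (d / 2), lt_min hd₁ (by positivity), fun δ hδ y hy h => ?_⟩
  obtain ⟨l0, l1⟩ := cl_mem (3 - 3 * (y.1.1 : ℝ))
  have hm := MM_le hM K hy.2
  have hn := hn y hy
  rw [HH] at h
  generalize MM K y = M at h hm hn
  have h3 : ‖y.2 - Tb.rot1 (-j) (M - (cl (3 - 3 * y.1.1) * t) • Y M)‖ ≤ δ := by
    rw [eq_neg_of_add_eq_zero_left h, norm_neg, norm_prp (c_ne hy.2) (mul_nonneg l0 hδ.1.le)]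
    exact mul_le_of_le_one_left hδ.1.le l1
  have h4 : ‖(cl (3 - 3 * y.1.1) * t) • Y M‖ ≤ d / 2 := by
    have h5 := (hC _ hm).trans (le_abs_self C)
    have h6 := (lt_div_iff₀ hC0).1 (ht.2.trans_le (min_le_right _ _))
    have h7 := mul_le_of_le_one_left ht.1.le l1
    rw [norm_smul, Real.norm_of_nonneg (mul_nonneg l0 ht.1.le)]
    exact (mul_le_mul h7 h5 (norm_nonneg _) ht.1.le).trans (by nlinarith [ht.1])
  have h5 : ‖y.2 - Tb.rot1 (-j) M‖ ≤ d := by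
    have h6 : y.2 - Tb.rot1 (-j) M = y.2 - Tb.rot1 (-j) (M - (cl (3 - 3 * y.1.1) * t) • Y M) -
        Tb.rot1 (-j) ((cl (3 - 3 * y.1.1) * t) • Y M) := by
      rw [map_sub]
      abel
    rw [h6]
    refine (norm_sub_le _ _).trans ?_
    rw [norm_rot]
    linarith [hδ.2.trans_le (min_le_right _ _)]
  obtain ⟨h6, h7, h8⟩ := hn h5
  refine ⟨⟨h6, h8.elim id fun h8 => ?_, c_ne hy.2⟩, half_lt hy.2, h7⟩
  rw [Ev.cl_one (x := 3 - 3 * y.1.1) (by linarith), one_mul, ← dist_eq_norm] at h3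
  exact hth (Metric.mem_cthickening_of_dist_le _ _ _ _ ((F1_rot _ _).trans_le (hp _ hm))
    (h3.trans (hδ.2.le.trans (min_le_left _ _))))

theorem OO_CC {y : (I × ℝ) × U1} (h : y ∈ OO) : y.2 ∈ CC := mem_CC (y := (y.1.2, y.2)) h

theorem isLp_HH (hM : StM1) {K : ℕ} {Y : U1 → U1} (hY : IsPush Y) {j : ZMod 5} {t δ : ℝ}
    (h : ∀ y ∈ DD, HH K Y j t δ y = 0 → y ∈ OO) : IsLp (Tb.rot1 1) OO (HH K Y j t δ) := by
  refine ⟨rot_ord, domA_open.preimage (f := fun y : (I × ℝ) × U1 => (y.1.2, y.2)) (by fun_prop),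
    fun y hy => (HH_cont hM K hY.cont j t δ (OO_CC hy)).continuousWithinAt,
    fun p z h => domA_rot h, fun p z _ => HH_rot K hY.eq j t δ p z,
    fun y hy => rot_free hy.1.2.2, ?_⟩
  have h2 := ContinuousOn.preimage_isClosed_of_isClosed (f := HH K Y j t δ) (s := DD)
    (fun y hy => (HH_cont hM K hY.cont j t δ hy.2).continuousWithinAt) DD_cpt.isClosed
    (isClosed_singleton (x := 0))
  have h3 : {y | y ∈ OO ∧ HH K Y j t δ y = 0} = DD ∩ HH K Y j t δ ⁻¹' {0} :=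
    Set.ext fun y => ⟨fun h => ⟨⟨⟨trivial, Ioo_subset_Icc_self h.1.1.1⟩, OO_CC h.1⟩, h.2⟩,
      fun hy => ⟨h y hy.1 hy.2, hy.2⟩⟩
  rw [h3]
  exact DD_cpt.of_isClosed_subset h2 inter_subset_left

theorem isLp_atL {V : Type} [NormedAddCommGroup V] [NormedSpace ℝ V] {s : V →L[ℝ] V}
    {O : Set ((I × ℝ) × V)} {Φ : (I × ℝ) × V → V} (h : IsLp s O Φ) (r : I) :
    IsLp s (atL r ⁻¹' O) fun y => Φ (atL r y) := by
  have h1 : Continuous (atL r : ℝ × V → (I × ℝ) × V) := by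
    unfold atL
    fun_prop
  have h2 : IsClosedEmbedding (atL r : ℝ × V → (I × ℝ) × V) :=
    Function.LeftInverse.isClosedEmbedding (f := fun y : (I × ℝ) × V => (y.1.2, y.2))
      (fun _ => rfl) (by fun_prop) h1
  exact ⟨h.ord, h.op.preimage h1, h.cont.comp h1.continuousOn fun _ hy => hy,
    fun p z => h.mem (r, p) z, fun p z => h.eq (r, p) z, fun y hy => h.free _ hy,
    h2.isCompact_preimage h.cpt⟩

theorem stWb_of (hM : StM1) (hZ : StZ) : StWb := by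
  intro w hw K Y j hj hY
  obtain ⟨t₁, ht₁, h⟩ := zero_mem hM hZ K hY hj
  refine ⟨?_, t₁, ht₁, fun t ht => ?_⟩
  · obtain ⟨d₁, hd₁, h⟩ := h (t₁ / 2) ⟨half_pos ht₁, half_lt_self ht₁⟩
    have h1 := isLp_atL (isLp_HH hM hY (h (d₁ / 2) ⟨half_pos hd₁, half_lt_self hd₁⟩)) 1
    rwa [HH_one] at h1
  · obtain ⟨d₁, hd₁, h⟩ := h t ht
    refine ⟨d₁, hd₁, fun δ hδ => ?_⟩
    have h1 := isLp_atL (isLp_HH hM hY (h δ hδ)) 0
    have h2 := hw.hom U1 _ _ _ (isLp_HH hM hY (h δ hδ))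
    rw [HH_zero] at h1 h2
    rw [HH_one] at h2
    exact ⟨h1, h2⟩

end Vale.Agent.P220Z.Hs.Wb
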