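import Vale.Agent.P220Z.Hs.Sk
import Vale.Agent.P220Z.Hs.Fac
import Vale.Agent.P220Z.Hs.Smo

/-!
# P220, the suspended horseshoe: angles, roots and the model on the handle
-/

open Set

namespace Vale.Agent.P220Z.Hs.Wa0

open Vale.Agent.P220Z.Def

theorem ec_int (n : ℤ) : ec n = 1 := by
  rw [ec, Complex.exp_eq_one_iff]
  exact ⟨n, by push_cast; ring⟩

theorem ec_eq_one {a : ℝ} (h : ec a = 1) : ∃ n : ℤ, a = n := by
  obtain ⟨n, hn⟩ := Complex.exp_eq_one_iff.1 h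
  refine ⟨n, ?_⟩
  have h1 := congrArg Complex.im hn
  simp at h1
  have := Real.pi_pos
  nlinarith

theorem ec_ne (a : ℝ) : ec a ≠ 0 := Complex.exp_ne_zero _

theorem om_eq (n : ZMod 5) : (om n : ℂ) = ec (n.val / 5) := by
  rw [om, ZMod.toCircle_apply, ec]
  congr 1
  push_cast
  ring

theorem om_add (a b : ZMod 5) : (om (a + b) : ℂ) = om a * om b := by
  rw [om, AddChar.map_add_eq_mul, Circle.coe_mul]
  rfl

theorem om_zero : (om 0 : ℂ) = 1 := by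
  rw [om, AddChar.map_zero_eq_one, Circle.coe_one]

/-- the only fifth root of unity in the sector -/
theorem om_sector {n : ZMod 5} {r β : ℝ} (hr : 0 < r) (hβ : |β| < 1 / 5)
    (h : (om n : ℂ) = r * ec β) : n = 0 := by
  have h1 : r = 1 := by
    have := congrArg norm h
    rw [Circle.norm_coe, norm_mul, Fc.norm_ec, Complex.norm_real, Real.norm_eq_abs,
      abs_of_pos hr, mul_one] at this
    exact this.symm
  have h2 : ec (n.val / 5 + -β) = 1 := by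
    rw [Fc.ec_add, ← om_eq, h, h1, Complex.ofReal_one, one_mul, ← Fc.ec_add, add_neg_cancel,
      Fc.ec_zero]
  obtain ⟨m, hm⟩ := ec_eq_one h2
  obtain ⟨h3, h4⟩ := abs_lt.1 hβ
  have h5 : (5 * m - 1 : ℝ) < n.val := by linarith
  have h6 : (n.val : ℝ) < 5 * m + 1 := by linarith
  have h7 : 5 * m - 1 < (n.val : ℤ) := by exact_mod_cast h5
  have h8 : (n.val : ℤ) < 5 * m + 1 := by exact_mod_cast h6
  have h9 := n.val_lt
  exact (ZMod.val_eq_zero n).1 (by omega)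

theorem arg_ec {r a : ℝ} (hr : 0 < r) (h1 : -1 / 2 < a) (h2 : a ≤ 1 / 2) :
    Complex.arg (r * ec a) = 2 * Real.pi * a := by
  have := Real.pi_pos
  rw [Complex.arg_real_mul _ hr, ec, Complex.arg_exp_mul_I, toIocMod_eq_self]
  constructor <;> nlinarith

theorem polar (z : ℂ) : z = (‖z‖ : ℝ) * ec (Complex.arg z / (2 * Real.pi)) := by
  have := Real.pi_pos
  rw [ec, mul_div_cancel₀ _ (by positivity)]
  exact (Complex.norm_mul_exp_arg_mul_I z).symm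

theorem conj_ec (a : ℝ) : (starRingEnd ℂ) (ec a) = ec (-a) := by
  rw [ec, ec, ← Complex.exp_conj, map_mul, Complex.conj_ofReal, Complex.conj_I]
  congr 1
  push_cast
  ring

/-- the root in the sector -/
theorem rt_eq {r β η : ℝ} (hr : 0 < r) (hβ : |β| < 1 / 10) :
    rt (r * ec (η / 5 + β)) (ec η) = ec (η / 5) := by
  have hp := Real.pi_pos
  obtain ⟨h1, h2⟩ := abs_lt.1 hβ
  have h3 : ((r : ℂ) * ec (η / 5 + β)) ^ 5 * (starRingEnd ℂ) (ec η) =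
      ((r ^ 5 : ℝ) : ℂ) * ec (5 * β) := by
    have : η / 5 + β = (η + 5 * β) / 5 := by ring
    rw [mul_pow, this, Fc.ec_pow, conj_ec, mul_assoc, ← Fc.ec_add]
    push_cast
    congr 2
    ring
  have h4 : ‖(r : ℂ) * ec (η / 5 + β)‖ = r := by
    rw [norm_mul, Fc.norm_ec, Complex.norm_real, Real.norm_eq_abs, abs_of_pos hr, mul_one]
  rw [rt, h3, arg_ec (pow_pos hr 5) (by linarith) (by linarith), h4, ← mul_assoc,
    ← Complex.ofReal_mul, inv_mul_cancel₀ hr.ne', Complex.ofReal_one, one_mul, ← Fc.ec_add]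
  congr 1
  field_simp
  ring

/-- the sector -/
def Sec : Set ℂ := {z | z ∈ Complex.slitPlane ∧ Complex.arg z ∈ Ioo (-Real.pi / 5) (Real.pi / 5)}

theorem isOpen_Sec : IsOpen Sec :=
  ContinuousOn.isOpen_inter_preimage
    (fun _ hz => (Complex.continuousAt_arg hz).continuousWithinAt) Complex.isOpen_slitPlane
    isOpen_Ioo

theorem rt_sec {c : ℂ} {η : ℝ} (h : c * ec (-(η / 5)) ∈ Sec) : rt c (ec η) = ec (η / 5) := by
  have hp := Real.pi_pos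
  set z := c * ec (-(η / 5)) with hz
  have h1 : c = (‖z‖ : ℝ) * ec (η / 5 + Complex.arg z / (2 * Real.pi)) := by
    rw [Fc.ec_add, mul_left_comm, ← polar z, hz, mul_left_comm, ← Fc.ec_add, add_neg_cancel,
      Fc.ec_zero, mul_one]
  rw [h1]
  refine rt_eq (norm_pos_iff.2 (Complex.slitPlane_ne_zero h.1)) (abs_lt.2 ⟨?_, ?_⟩)
  · rw [lt_div_iff₀ (by positivity)]
    linarith [h.2.1]
  · rw [div_lt_iff₀ (by positivity)]
    linarith [h.2.2]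

theorem mem_Sec {r β : ℝ} (hr : 0 < r) (hβ : |β| < 1 / 10) : (r : ℂ) * ec β ∈ Sec := by
  have hp := Real.pi_pos
  obtain ⟨h1, h2⟩ := abs_lt.1 hβ
  have h3 := arg_ec hr (a := β) (by linarith) (by linarith)
  refine ⟨Complex.mem_slitPlane_iff_arg.2 ⟨?_, mul_ne_zero (by exact_mod_cast hr.ne') (ec_ne β)⟩,
    ?_, ?_⟩ <;> rw [h3] <;> nlinarith

theorem norm_unit {w : ℂ} (hw : w ≠ 0) : ‖((‖w‖⁻¹ : ℝ) : ℂ) * w‖ = 1 := by
  rw [norm_mul, Complex.norm_real, Real.norm_eq_abs, abs_inv, abs_norm,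
    inv_mul_cancel₀ (norm_ne_zero_iff.2 hw)]

theorem th_unit {w : ℂ} (hw : w ≠ 0) : th (((‖w‖⁻¹ : ℝ) : ℂ) * w) = th w := by
  rw [th, th, Complex.arg_real_mul _ (inv_pos.2 (norm_pos_iff.2 hw))]

theorem m1_unit (K : ℕ) (t : ℝ) {u : U1} (hu : ‖u.1‖ = 1) : m1 K t u =
    (ec (tm K t / 20) * u.1, evb (th u.1) (tm K t) (K + 2) u.2.1,
      evm (th u.1) (tm K t) (K + 2) u.2.1 * u.2.2) := by
  have h1 : k1 u.1 = 1 := by
    rw [k1, hu, cl]
    norm_num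
  have h2 : k2 u.1 = 1 := by
    rw [k2, hu, cl]
    norm_num
  simp [m1, h1, h2]

/-- the model in coordinates -/
theorem smB_eq (K : ℕ) (j : ZMod 5) {y : ℝ × U1} (hw : y.2.1 ≠ 0) : smB K j y =
    (y.2.1 - ec (tm K ((20 * K + 3) * y.1 - 1) / 20) * (((‖y.2.1‖⁻¹ : ℝ) : ℂ) * y.2.1),
      y.2.2.1 - evb (th y.2.1) (tm K ((20 * K + 3) * y.1 - 1)) (K + 2) y.2.2.1,
      y.2.2.2 - om (-j) * (evm (th y.2.1) (tm K ((20 * K + 3) * y.1 - 1)) (K + 2) y.2.2.1 *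
        rt y.2.2.2 (kk (th y.2.1) y.2.2.1.1))) := by
  rw [smB, m1_unit K _ (norm_unit hw), Tb.rot1_apply]
  simp only [th_unit hw]
  rfl

/-- what a point on the handle satisfies -/
theorem domA_facts {y : ℝ × U1} (h : y ∈ domA) : y.2.1 ≠ 0 ∧ |y.2.2.1.1| ≤ 9 ∧ |y.2.2.1.2| ≤ 9 ∧
    ‖y.2.2.2 ^ 5 - kk (th y.2.1) y.2.2.1.1‖ ^ 2 < 1 / 2 := by
  obtain ⟨⟨-, h1, -⟩, h2, h3⟩ := h
  have a1 := Sm.ps_nonneg (‖y.2.1‖ ^ 2)
  have a2 := Sm.ps_nonneg (y.2.2.1.1 ^ 2)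
  have a3 := Sm.ps_nonneg (y.2.2.1.2 ^ 2)
  have a4 := Sm.ps_nonneg (5 * ‖y.2.2.2‖ ^ 2)
  have a5 := Sm.oo_nonneg (‖y.2.1‖ ^ 2)
  have a6 : chi (‖y.2.1‖ ^ 2) = 1 := Sm.st_one (by norm_num) (by nlinarith)
  have a7 := sq_nonneg (‖y.2.2.2‖ ^ 2 - 1)
  have a8 := sq_nonneg ‖y.2.2.2 ^ 5 - kk (th y.2.1) y.2.2.1.1‖
  rw [F1, a6, one_mul] at h1
  have a9 := mul_nonneg (by linarith : 0 ≤ mu0 0 0 (th y.2.1) y.2.2.1.1 y.2.2.1.2)
    (add_nonneg (add_nonneg (mul_nonneg (by norm_num : (0 : ℝ) ≤ 5) a7) a8) a5)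
  have h5 : ∀ r : ℝ, ps (r ^ 2) ≤ 1 / 4 → |r| ≤ 9 := fun r hr =>
    abs_le_of_sq_le_sq (by linarith [lt_of_ps hr]) (by norm_num)
  refine ⟨fun h0 => ?_, h5 _ (by linarith), h5 _ (by linarith), by nlinarith⟩
  rw [h0, norm_zero] at h2
  linarith

theorem mu0_win {t : ℝ} (h : t ∈ Icc (5 : ℝ) 7) (x y : ℝ) : mu0 0 0 t x y = bp (y + tent x) := by
  rw [mu0, Fc.aA_one h.2, Sm.st_one (a := 4) (by norm_num) h.1,
    Sm.st_one (a := 1) (by norm_num) (by linarith [h.1]),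
    Sm.st_zero (a := 14) (by norm_num) (by linarith [h.2]),
    Sm.st_zero (a := 11) (by norm_num) (by linarith [h.2])]
  simp

theorem ch1_one {x : ℝ} (h : |x + 1 / 2| ≤ 1 / 4) : ch1 x = 1 := by
  obtain ⟨h1, h2⟩ := abs_le.1 h
  rw [ch1, Sm.st_one (by norm_num) (by linarith), Sm.st_zero (by norm_num) (by linarith)]
  simp

theorem ch1_zero {x : ℝ} (h : 0 ≤ x) : ch1 x = 0 := by
  rw [ch1, Sm.st_one (a := -1 / 4) (by norm_num) h, sub_self, mul_zero]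

theorem kk_one {x : ℝ} (h : |x + 1 / 2| ≤ 1 / 4) (t : ℝ) : kk t x = ec (eta t) := by
  rw [kk, ch1_one h]
  simp

/-- A point on the handle with a positive label lies in the window and on the first strip. -/
theorem pos_label {y : ℝ × U1} (h : y ∈ domA) {r : ℝ} (hr : 0 < r)
    (hc : y.2.2.2 = r * ec (1 / 10)) : th y.2.1 ∈ Ioo (5 : ℝ) 7 ∧
      |y.2.2.1.2 + tent y.2.2.1.1| < 2 ∧ |y.2.2.1.1 + 1 / 2| < 1 / 5 := by
  obtain ⟨-, hx, hy, hq⟩ := domA_facts h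
  have h1 : kk (th y.2.1) y.2.2.1.1 ≠ 1 := by
    intro h0
    have e1 : ec (1 / 10) ^ 5 = -1 := by
      have : (1 / 10 : ℝ) = 1 / 2 / 5 := by norm_num
      rw [this, Fc.ec_pow, ec, ← Complex.exp_pi_mul_I]
      congr 1
      push_cast
      ring
    have e2 : ((r : ℂ) * ec (1 / 10)) ^ 5 - 1 = ((-(r ^ 5 + 1) : ℝ) : ℂ) := by
      rw [mul_pow, e1]
      push_cast
      ring
    rw [h0, hc, e2, Complex.norm_real, Real.norm_eq_abs, sq_abs] at hq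
    nlinarith [pow_pos hr 5]
  have h2 : th y.2.1 ∈ Ioo (5 : ℝ) 7 :=
    ⟨not_le.1 fun h0 => h1 (Fc.kk_early h0 _), not_le.1 fun h0 => h1 (Fc.kk_late h0 _)⟩
  have h3 := h.2.2
  rw [mu0_win (Ioo_subset_Icc_self h2)] at h3
  have h4 := Fc.lt_of_bp (t := y.2.2.1.2 + tent y.2.2.1.1) (by linarith)
  have h5 := Fc.strip (x := y.2.2.1.1) (by
    obtain ⟨a1, a2⟩ := abs_lt.1 h4
    obtain ⟨a3, a4⟩ := abs_le.1 hy
    exact abs_lt.2 ⟨by linarith, by linarith⟩)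
  have h6 : y.2.2.1.1 < 0 := not_le.1 fun h0 => h1 (by rw [kk, ch1_zero h0]; simp)
  rw [abs_of_neg h6] at h5
  exact ⟨h2, h4, abs_lt.2 ⟨by linarith [h5.2], by linarith [h5.1]⟩⟩

theorem evm_zero (θ : ℝ) (N : ℕ) (p : ℝ × ℝ) : evm θ 0 N p = 1 := by
  induction N with
  | zero => rfl
  | succ n ih => simp [evm, ih, mm, Fc.ec_zero]

theorem clp_le {y : ℝ} (h : |y| ≤ 9) (z : ℝ) : |clp y z| ≤ 9 := by
  have h1 : max 8 |y| ≤ 9 := max_le (by norm_num) h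
  have h2 : (8 : ℝ) ≤ max 8 |y| := le_max_left _ _
  refine abs_le.2 ⟨(neg_le_neg h1).trans (le_max_left _ _), max_le (by linarith) ?_⟩
  exact (min_le_left _ _).trans h1

/-- one step back along an orbit on the handle -/
theorem back {q : ℝ × ℝ} (hx : |q.1| ≤ 9) (h : |(fb 0 0 20 q).1| < 1) :
    (fb 0 0 20 q).2 = q.2 + tent q.1 ∧ (fb 0 0 20 q).1 = q.1 + 100 * (q.2 + tent q.1) ∧
      |q.2 + tent q.1| < 1 := by
  have e1 : aB 0 - aB 20 = 1 := by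
    rw [Fc.aB_one (by norm_num), Fc.aB_zero (by norm_num), sub_zero]
  have e2 : aA 0 0 - aA 0 20 = 1 := by
    rw [Fc.aA_one (by norm_num), Fc.aA_zero (by norm_num), sub_zero]
  have h1 : (fb 0 0 20 q).1 = q.1 + 100 * (fb 0 0 20 q).2 := by
    rw [Fc.fb_fst, e1] at h ⊢
    rcases Fc.clp_cases q.1 (100 * (fb 0 0 20 q).2) zero_le_one with h0 | h0
    · rw [h0, one_mul]
    · have := h0 0 le_rfl
      rw [zero_mul, add_zero] at this
      linarith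
  have h2 : |(fb 0 0 20 q).2| < 1 := by
    rw [h1] at h
    obtain ⟨a1, a2⟩ := abs_lt.1 h
    obtain ⟨a3, a4⟩ := abs_le.1 hx
    exact abs_lt.2 ⟨by linarith, by linarith⟩
  have h3 : (fb 0 0 20 q).2 = q.2 + tent q.1 := by
    rw [Fc.fb_snd, e2] at h2 ⊢
    rcases Fc.clp_cases q.2 (tent q.1) zero_le_one with h0 | h0
    · rw [h0, one_mul]
    · have := h0 0 le_rfl
      rw [zero_mul, add_zero] at this
      linarith
  exact ⟨h3, by rw [h1, h3], h3 ▸ h2⟩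

end Vale.Agent.P220Z.Hs.Wa0
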