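import Vale.Agent.P220Z.Hs.Sk
import Vale.Agent.P220Z.Deg.Wind

/-!
# P220, the suspended horseshoe: the product model near the crossings of the ray
-/

open Set

namespace Vale.Agent.P220Z.Hs

/-- the label -/
noncomputable def lab (y : ℝ × U1) : ℂ := y.2.2.2 * ec (-1 / 10)

/-- the domain of the product model -/
def pDom (N a : ℝ) (O : Set (ℝ × ℝ)) : Set (ℝ × U1) :=
  {y | th y.2.1 ∈ Ioo (5 : ℝ) 7 ∧ th y.2.1 + (N * y.1 - a) ∈ Ioo (5 : ℝ) 7 ∧ y.2.2.1 ∈ O}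

/-- the product model -/
noncomputable def pMap (N a : ℝ) (Q : ℝ × ℝ → ℝ × ℝ) (y : ℝ × U1) : U1 :=
  (y.2.1 - ec ((N * y.1 - a) / 20) * ((‖y.2.1‖⁻¹ : ℝ) * y.2.1), y.2.2.1 - Q y.2.2.1,
    y.2.2.2 - ec (eta (th y.2.1 + (N * y.1 - a)) / 5))

/-- IDX: the winding number of the product model. -/
def StIdx : Prop :=
  ∃ D : ℤ, (D = 1 ∨ D = -1) ∧ ∀ (N a : ℝ) (O : Set (ℝ × ℝ)) (Q : ℝ × ℝ → ℝ × ℝ), 0 < N →
    Deg.Germ O (fun p => p - Q p) → Deg.WR (pDom N a O) (pMap N a Q) lab ∧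
      Deg.wN (pDom N a O) (pMap N a Q) lab = D * Deg.pdeg O fun p => p - Q p

end Vale.Agent.P220Z.Hs
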